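import Vale.Agent.P269.Asm.Lin
import Vale.Agent.P269.Prj.LH
import Vale.Agent.P269.B.PF

/-!
# Projective spaces
-/

set_option linter.unusedSectionVars false

namespace Vale.Agent.P269

open P291Z Set Topology Filter MvPolynomial Fock
open Function hiding eval

variable {S Λ R J K : Type} [Fintype S] [Fintype Λ] [Fintype R] [Fintype J] [Fintype K] {r : ℕ}

theorem bdd_of_smul {E : Type*} [NormedAddCommGroup E] [NormedSpace ℂ E] {t : ℕ → ℂ} {y : ℕ → E}
    {a b : E} (ha : a ≠ 0) (hb : b ≠ 0) (hy : Tendsto y atTop (𝓝 a))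
    (H : Tendsto (fun n => t n • y n) atTop (𝓝 b)) :
    ∃ C : ℝ, ∀ᶠ n in atTop, ‖t n‖ ≤ C ∧ ‖(t n)⁻¹‖ ≤ C := by
  have h0 := norm_ne_zero_iff.2 ha
  have h1 : Tendsto (fun n => ‖t n‖) atTop (𝓝 (‖b‖ / ‖a‖)) :=
    (H.norm.div hy.norm h0).congr' ((hy.norm.eventually_ne h0).mono fun n hn => by
      simp only [Pi.div_apply, norm_smul]
      rw [mul_div_cancel_right₀ _ hn])
  have h2 := h1.inv₀ (div_ne_zero (norm_ne_zero_iff.2 hb) h0)
  refine ⟨max (‖b‖ / ‖a‖ + 1) ((‖b‖ / ‖a‖)⁻¹ + 1), ?_⟩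
  filter_upwards [h1.eventually_le_const (lt_add_one _), h2.eventually_le_const (lt_add_one _)]
    with n a b
  exact ⟨le_max_of_le_left a, le_max_of_le_right (by rwa [norm_inv])⟩

theorem smCI_of_isEmpty [IsEmpty K] (F : K → MvPolynomial J ℂ) (d : K → ℕ) : SmCI F d :=
  ⟨isEmptyElim, isEmptyElim, isEmptyElim, fun _ _ => linearIndependent_empty_type⟩

/-- The integral is linear. -/
theorem Fam.IsCoh.exists_int {F : Fam S Λ R J K} {C : Deg.Coh} {i : C.H →ₗ[ℂ] H (F.X F.cone)}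
    (h : F.IsCoh C i) : ∃ l : H (F.X F.cone) →ₗ[ℂ] ℂ, ∀ c, F.intX _ c = l c :=
  ⟨C.fr.η C.fr.one ∘ₗ (LinearEquiv.ofBijective i h.bij).symm.toLinearMap, fun c => by
    obtain ⟨v, rfl⟩ := h.bij.2 c
    simp [h.η, h.one]⟩

/-- The point. -/
noncomputable abbrev ptT : Fam Empty Empty Unit Unit Empty := ciF Empty.elim Empty.elim

/-- The projective space as a projective bundle over the point. -/
noncomputable abbrev pjT (r : ℕ) := ptT.proj (r := r) 0 (3 • 1)

theorem mem_pjT {z} : z ∈ (pjT r).cone ↔ z.2 ∘ .inl ≠ 0 ∧ z.2 ∘ .inr ≠ 0 :=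
  ⟨fun h => h.2.1.1, fun h => ⟨trivial, ⟨h, trivial, fun _ h => h.elim⟩, fun k => k.elim⟩⟩

theorem pjT_inl (t z) : ((pjT r).actT t z).2 ∘ .inl = t.2 (some ()) • z.2 ∘ .inl :=
  funext fun j => by simp [Wt.actT, Fam.proj, ciF, ciK, Tgt.fam]

theorem pjT_inr (t z) : ((pjT r).actT t z).2 ∘ .inr = t.2 none • z.2 ∘ .inr :=
  funext fun j => by simp [Wt.actT, Fam.proj]

theorem pjT_inv : (pjT r).Inv where
  hom k := k.elim
  homS k := k.elim
  openU := (isOpen_compl_singleton.preimage (f := fun z : _ × (_ → ℂ) => z.2 ∘ Sum.inl)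
    (by fun_prop)).inter (isOpen_compl_singleton.preimage
      (f := fun z : _ × (_ → ℂ) => z.2 ∘ Sum.inr) (by fun_prop))
  invU t ht z hz := by
    have h := isUnit_pi_iff.1 (Prod.isUnit_iff.1 ht).2
    change _ ∘ _ ≠ 0 ∧ _
    rw [pjT_inl, pjT_inr]
    exact ⟨smul_ne_zero (h _) hz.1, smul_ne_zero (h _) hz.2⟩
  closedE := isClosed_univ
  invE _ _ _ _ := trivial
  baseE _ _ _ _ _ := trivial
  zer_base := empty_disjoint _
  lcB := isClosed_univ.isLocallyClosed
  invB _ _ _ _ := trivial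

theorem pjT_good : (pjT r).Good where
  toInv := pjT_inv
  deg k := k.elim
  freeB _ _ _ _ _ := Subsingleton.elim _ _
  properB _ _ _ _ _ _ _ _ _ _ := ⟨0, fun _ i => i.elim⟩
  free t _ z hz e := by
    have h1 := pjT_inl (1, t) z
    have h2 := pjT_inr (1, t) z
    rw [e, eq_comm, ← sub_eq_zero] at h1 h2
    nth_rw 2 [← one_smul ℂ (z.2 ∘ _)] at h1 h2
    rw [← sub_smul, smul_eq_zero, sub_eq_zero] at h1 h2
    funext o
    rcases o with _ | _
    exacts [h2.resolve_right (mem_pjT.1 hz).2, h1.resolve_right (mem_pjT.1 hz).1]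
  proper t z z' _ hz hz' y hy H := by
    have H' := tendsto_pi_nhds.2 fun j => H j fun o => by
      rcases j with _ | _ <;> rcases o with _ | _ <;> first | exact le_rfl | exact zero_le_one
    obtain ⟨C, h⟩ := bdd_of_smul (mem_pjT.1 hz).1 (mem_pjT.1 hz').1
      (((continuous_pi fun _ => continuous_apply _).tendsto _).comp hy)
      ((((continuous_pi fun _ => continuous_apply _).tendsto _).comp H').congr fun n =>
        pjT_inl (1, t n) (z.1, y n))
    obtain ⟨C', h'⟩ := bdd_of_smul (mem_pjT.1 hz).2 (mem_pjT.1 hz').2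
      (((continuous_pi fun _ => continuous_apply _).tendsto _).comp hy)
      ((((continuous_pi fun _ => continuous_apply _).tendsto _).comp H').congr fun n =>
        pjT_inr (1, t n) (z.1, y n))
    refine ⟨max C C', (h.and h').mono fun n hn o => ?_⟩
    rcases o with _ | _
    exacts [⟨le_max_of_le_right hn.2.1, le_max_of_le_right hn.2.2⟩,
      ⟨le_max_of_le_left hn.1.1, le_max_of_le_left hn.1.2⟩]
  cpt _ _ _ := by
    refine ⟨{z | ‖z.2 ∘ .inl‖ = 1 ∧ ‖z.2 ∘ .inr‖ = 1}, fun z hz => mem_pjT.2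
      ⟨norm_ne_zero_iff.1 (by rw [hz.1]; exact one_ne_zero),
        norm_ne_zero_iff.1 (by rw [hz.2]; exact one_ne_zero)⟩, ?_, fun z hz _ => ?_⟩
    · refine ((isCompact_univ (X := Empty → ℂ)).prod (isCompact_closedBall 0 1)).of_isClosed_subset
        ((isClosed_eq (by fun_prop) continuous_const).inter
          (isClosed_eq (by fun_prop) continuous_const)) fun z hz => ⟨trivial,
            mem_closedBall_zero_iff.2 ((pi_norm_le_iff_of_nonneg zero_le_one).2 ?_)⟩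
      rintro (j | j)
      exacts [(norm_le_pi_norm (z.2 ∘ .inl) j).trans hz.1.le,
        (norm_le_pi_norm (z.2 ∘ .inr) j).trans hz.2.le]
    · have h0 := norm_ne_zero_iff.2 (mem_pjT.1 hz).1
      have h1 := norm_ne_zero_iff.2 (mem_pjT.1 hz).2
      refine ⟨fun o => o.elim (‖z.2 ∘ .inr‖⁻¹ : ℝ) fun _ => (‖z.2 ∘ .inl‖⁻¹ : ℝ),
        isUnit_pi_iff.2 ?_, ?_, ?_⟩
      · rintro (_ | _)
        exacts [by simpa using h1, by simpa using h0]
      · rw [pjT_inl, norm_smul]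
        simp [inv_mul_cancel₀ h0]
      · rw [pjT_inr, norm_smul]
        simp [inv_mul_cancel₀ h1]
  ample := by
    refine ⟨1, 1, rfl, one_pos, fun c hc z hz => ?_⟩
    obtain ⟨j, hj⟩ := Function.ne_iff.1 (mem_pjT.1 hz).2
    obtain ⟨_, hj'⟩ := Function.ne_iff.1 (mem_pjT.1 hz).1
    have h0 : ∀ o, 0 ≤ c o := fun o => by
      rcases hc with rfl | ⟨_, rfl | rfl⟩ <;> simp [Pi.single_apply] <;> split_ifs <;> simp
    refine ⟨Sum.elim (fun _ => (c (some ())).toNat) (Pi.single j (c none).toNat), ?_, ?_⟩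
    · rintro (_ | _) <;> simp [Fam.proj, ciF, ciK, Tgt.fam, Pi.single_apply, h0]
    · refine Finset.prod_ne_zero_iff.2 ?_
      rintro (_ | j') -
      · exact pow_ne_zero _ hj'
      · by_cases e : j' = j
        · exact pow_ne_zero _ (e ▸ hj)
        · simp [e]
  mov_ne := univ_nonempty

theorem pjT_tg : (pjT r).Tg :=
  ⟨pjT_good, Fam.reg_univ fun _ _ _ => ⟨0, fun _ _ => rfl, fun k => k.elim⟩, rfl, rfl, rfl⟩

theorem pres_pjT [IsEmpty K] (F : K → MvPolynomial J ℂ) (d : K → ℕ) (e : J ≃ Fin (r + 1)) :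
    (ciF F d).Pres (pjT r) (.inr ∘ e) (fun _ : Unit => .inl ()) (fun o _ => o.elim 1 0)
      fun j => MvPolynomial.map C (Sum.elim (fun _ => 1) (fun l => X (e.symm l)) j) := by
  have : Nonempty J := ⟨e.symm 0⟩
  refine (smCI_of_isEmpty F d).tg.pres pjT_tg (Sum.inr_injective.comp e.injective) (by simp)
    (by simp) ?_ (fun d e => funext fun _ => by simpa using e none)
    (fun d h => ⟨fun _ => d none, funext ?_⟩) (fun n => ⟨fun o => o.elim 0 n, fun _ => ?_⟩)
    fun z => ⟨fun hz => ⟨fun o => o.elim 1 (z.2 ∘ .inl), isUnit_pi_iff.2 ?_,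
      (z.1, z.2 ∘ .inr ∘ e), mem_ciF.2 ⟨fun h => (mem_pjT.1 hz).2 (funext fun l => ?_),
        isEmptyElim⟩, ?_⟩, fun ⟨t, ht, y, hy, h⟩ => ?_⟩
  · rintro (_ | l) α hα _
    · change ∑ j, (α j : ℤ) * 1 = _
      simpa [Fam.proj] using sum_eq_of_hom (isHomogeneous_one _ ℂ) hα
    · change ∑ j, (α j : ℤ) * 1 = _
      simpa [Fam.proj] using sum_eq_of_hom (isHomogeneous_X ℂ _) hα
  · rintro (_ | _)
    · simp
    · simpa [Fam.proj, ciF, ciK, Tgt.fam] using h ()
  · simp [Fam.proj, ciF, ciK, Tgt.fam]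
  · rintro (_ | _)
    · exact one_ne_zero
    · exact (Function.ne_iff.1 (mem_pjT.1 hz).1).choose_spec
  · simpa using congrFun h (e.symm l)
  · funext j
    rcases j with _ | _ <;> simp [Wt.actT, Fam.proj, ciF, ciK, Tgt.fam]
  · have := pjT_inv.cone_act (t := (1, t)) (Prod.isUnit_iff.2 ⟨isUnit_one, ht⟩) (z := (y.1,
      fun j => eval y.2 (Sum.elim (fun _ => 1) (fun l => X (e.symm l)) j))) (mem_pjT.2
        ⟨fun k => one_ne_zero ((map_one _).symm.trans (congrFun k ())), fun k => (mem_ciF.1 hy).1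
          (funext fun j => by simpa using congrFun k (e j))⟩)
    rwa [mem_pjT, ← h, ← mem_pjT] at this

instance : Nonempty (ptT.X ptT.cone) :=
  ⟨Quo.mk _ ⟨(0, 1), mem_ciF.2 ⟨one_ne_zero, isEmptyElim⟩⟩⟩

instance : Subsingleton (ptT.X ptT.cone) := by
  have key : ∀ x : ptT.cone, Quo.mk ptT.actT x =
      Quo.mk _ ⟨(0, 1), mem_ciF.2 ⟨one_ne_zero, isEmptyElim⟩⟩ := fun x => (Quot.sound
    ⟨(1, x.1.2), Prod.isUnit_iff.2 ⟨isUnit_one, isUnit_pi_iff.2 fun _ =>
      (Function.ne_iff.1 (mem_ciF.1 x.2).1).choose_spec⟩,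
      Prod.ext (Subsingleton.elim _ _) (by rw [ciF_act]; funext; simp)⟩).symm
  exact ⟨by rintro ⟨x⟩ ⟨y⟩; exact (key x).trans (key y).symm⟩

theorem exists_smul_one {X : Type} [TopologicalSpace X] [Nonempty X] [Subsingleton X] (c : H X) :
    ∃ z : ℂ, c = z • 1 :=
  (H.map_const (Classical.arbitrary X) c).imp fun _ e =>
    (H.map_id (fun _ => Subsingleton.elim _ _) c).symm.trans e

/-- The cohomology of the point, for the pairing `a`. -/
noncomputable def ptC {a : ℂ} (ha : a ≠ 0) : Deg.Coh where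
  H := ℂ
  p := .triv ℂ ℂ
  ι := Unit
  fr := ⟨a • LinearMap.mul ℂ ℂ, fun v w => congrArg (a * ·) (mul_comm v w), 1, fun _ => a⁻¹, 0,
    fun _ => (one_smul _ _).symm, fun _ => (one_smul _ _).symm, fun v => by simp [ha], 1, rfl⟩

/-- The Virasoro data of the point. -/
noncomputable def ptV {a : ℂ} (ha : a ≠ 0) : VD (ptC ha).fr :=
  ⟨0, 0, fun _ => rfl, fun _ => rfl, by simp, by simp, by simp⟩

theorem ptT_std {a : ℂ} (ha : a ≠ 0) (h : ∀ z : ℂ, ptT.intX ptT.cone (z • 1) = z * a)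
    (h0 : ∀ χ, ptT.lc ptT.cone 0 χ = 0) :
    ptT.Std (ptC ha) (LinearMap.toSpanSingleton ℂ _ 1) (ptV ha) ∧
      Adm (J := Unit) Empty.elim Empty.elim (ptC ha) (LinearMap.toSpanSingleton ℂ _ 1)
        (ptV ha) := by
  refine ⟨⟨⟨⟨smul_left_injective ℂ hcls_one_ne_zero, fun c => (exists_smul_one c).imp
    fun _ => Eq.symm⟩, fun v : ℂ => ?_, fun u v : ℂ => ?_, one_smul _ _⟩, fun v => ?_,
    fun m v _ => ?_, fun χ v v' e => ?_⟩, ⟨⊤, ⊥, ⟨by simp, by simp, by simp⟩, by simp, by simp,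
      fun _ _ => rfl, by simp, trivial, fun _ _ => rfl, Empty, Empty.elim, Empty.elim, Empty.elim,
      ⟨isEmptyElim, isEmptyElim, by simp⟩, isEmptyElim, isEmptyElim, fun _ _ => trivial⟩,
    fun v => iff_of_true trivial (Submodule.smul_mem _ _ (Submodule.subset_span ⟨0, pow_zero _⟩)),
    by simp [ptV], (Deg.lP_zero _).symm⟩
  · change (parH _).σ (v • 1) = v • 1
    rw [map_smul, ← hcls_one, parH_hcls cocycle_one, isDeg_one.par_eq, zpow_zero, one_smul]
  · change a * (u * v) = ptT.intX _ (u • 1 * v • 1)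
    rw [smul_mul_smul_comm, mul_one, h, mul_comm]
  · exact (zero_smul ℂ _).trans (by simp [ciF_c1, h0])
  · change H.IsDeg m ((0 : ℂ) • 1)
    rw [zero_smul]
    exact (H.deg _ m).zero_mem
  · rw [e, h0, zero_mul, zero_mul, add_zero]
    exact zero_smul ℂ _

/-- **Projective spaces.** -/
theorem St.vProj (hJ : St.Proj) (hL : St.PrjLH) (hP : St.Pres) (hS : St.SelC) (hH : St.PresH) :
    St.VProj := by
  intro H0 N J K _ _ F d hc hd h C i vd hs hA
  have : IsEmpty K := Finset.univ_eq_empty_iff.1 (Finset.val_eq_zero.1 (Multiset.map_eq_zero.1 hd))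
  have hp := pres_pjT F d (Fintype.equivFinOfCardEq hc)
  have : Nonempty J := Fintype.card_pos_iff.1 (by omega)
  have h₀ : ptT.Tg := (smCI_of_isEmpty _ _).tg
  obtain ⟨g, hg⟩ := hp.cohIso hH h.tg.movc h.nice pjT_tg.nice (Fam.cp_empty _)
  obtain ⟨π, LF, LE, h1, h2, h3, -, h5, -, h7, -, h9⟩ := hL ptT 0 _ h₀ N.succ_pos pjT_good
  have hi : ∀ v, i v = g ((g.symm.toLinearMap ∘ₗ i) v) := fun v => (g.apply_symm_apply _).symm
  have hs' := hg.std_of hi (by
    have e : (ciF F d).lc (ciF F d).cone 0 0 = 0 := by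
      have := hg.lc 0 0
      rw [← h2, map_zero, ZeroMemClass.coe_zero, map_zero] at this
      simpa [Pi.zero_def] using this.symm
    rw [ciF_c1, Fam.c1, show (pjT (N + 1)).mov = univ from rfl, finsum_mem_univ,
      finsum_eq_sum_of_fintype, hc]
    simp only [Subsingleton.elim ((pjT (N + 1)).wt _) 0, map_sub, map_sum, hg.lc]
    simpa [Fam.proj, Pi.one_def, Pi.zero_def] using e) hs
  obtain ⟨l, hl⟩ := hs'.exists_int
  have e1 : ∀ z : ℂ, ptT.intX ptT.cone (z • 1) = z * ptT.intX ptT.cone 1 := fun z => by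
    have k := h9 (N + 1)
    simp only [B.xc_of_le _ le_rfl, if_true, OneMemClass.coe_one, one_mul] at k
    rw [← k, ← k, H.map_smulC, mul_smul_comm, hl, hl, map_smul, smul_eq_mul]
  have e2 : ptT.intX ptT.cone 1 ≠ 0 := fun k => by
    have : Nonempty ((pjT (N + 1)).X (pjT (N + 1)).cone) :=
      ⟨Quo.mk _ ⟨(0, 1), mem_pjT.2 ⟨one_ne_zero, one_ne_zero⟩⟩⟩
    have k1 : ∀ c, l c = 0 := fun c => by
      obtain ⟨v, rfl⟩ := h7.2 c
      rw [map_sum]
      refine Finset.sum_eq_zero fun m _ => ?_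
      obtain ⟨z, hz⟩ := exists_smul_one ((B.xc (fun _ : Fin (N + 2) => LF 0) m (N + 1)).1 * v m)
      exact (hl _).symm.trans ((h9 _ _).trans ((congrArg _ hz).trans (by rw [e1, k, mul_zero])))
    refine hcls_one_ne_zero (hs'.one.symm.trans ?_)
    rw [← C.fr.left C.fr.one]
    simp only [hs'.η, hl, k1, zero_smul, Finset.sum_const_zero, map_zero]
  have e3 : ∀ χ, ptT.lc ptT.cone 0 χ = 0 := fun χ => by
    obtain ⟨z, hz⟩ := exists_smul_one (LF χ).1
    obtain ⟨n, hn⟩ := h3 χ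
    have := congrArg Subtype.val hn
    rw [SubmonoidClass.coe_pow, hz, smul_pow, one_pow, ZeroMemClass.coe_zero, smul_eq_zero] at this
    rw [← h1, hz, eq_zero_of_pow_eq_zero (this.resolve_right hcls_one_ne_zero), zero_smul]
  obtain ⟨s₀, a₀⟩ := ptT_std e2 e1 e3
  refine (hp.vir_iff hP hS h.tg.movc (.of_abs pjT_tg.movc _) h.nice pjT_tg.nice (Fam.cp_empty _)
    fun v => (hi v).trans (hg.pb _)).2 (hJ ptT 0 _ h₀ N.succ_pos pjT_good _ _ _ s₀
      (H0 _ _ _ _ rfl rfl (smCI_of_isEmpty _ _) _ _ _ s₀ a₀) _ _ _ hs' fun v v' u' k k' => ?_)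
  obtain ⟨-, -, k2, -⟩ := hA
  have k3 : ∀ (z : ℂ) w, (g.symm.toLinearMap ∘ₗ i) w = H.map π (z • 1) → w = z • C.fr.one :=
    fun z w e => hs'.bij.1 (by rw [e, H.map_smulC, map_one, map_smul, hs'.one])
  rw [h5] at k k'
  rw [k3 _ _ k, k3 0 _ k', map_smul, k2, hc, smul_comm]
  simp

end Vale.Agent.P269
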