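import Vale.Agent.P269.Asm.Ci

/-!
# Monomials span, naturality of the series, sums of series
-/

set_option linter.unusedSectionVars false

namespace Vale.Agent.P269

open P291Z Set Function Topology Filter MvPolynomial Fock

section mon

variable {V V' N : Type} [AddCommGroup V] [Module ℂ V] [AddCommGroup V'] [Module ℂ V']
  [AddCommGroup N] [Module ℂ N] {p : Fock.Par ℂ V} {p' : Fock.Par ℂ V'}

theorem monT_nil : monT p [] [] = 1 := by simp [monT]

theorem monT_cons (x : ℕ × V) (l₁ : List (ℕ × V)) (l₂ : List (ℕ × ℕ)) :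
    monT p (x :: l₁) l₂ = ι _ (Finsupp.single x.1 x.2, 0) * monT p l₁ l₂ := by
  simp [monT, mul_assoc]

theorem monT_cons' (x : ℕ × ℕ) (l₁ : List (ℕ × V)) (l₂ : List (ℕ × ℕ)) :
    monT p l₁ (x :: l₂) = ι _ (0, Finsupp.single x 1) * monT p l₁ l₂ := by
  rw [monT, monT, ← mul_assoc, ι_comm_ev (by simp [Fock.Par.triv]), List.map_cons, List.prod_cons,
    mul_assoc]

theorem mul_mem_span {A : Type} [Ring A] [Algebra ℂ A] {s : Set A} {a x : A}
    (h : ∀ y ∈ s, a * y ∈ Submodule.span ℂ s) (hx : x ∈ Submodule.span ℂ s) :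
    a * x ∈ Submodule.span ℂ s :=
  (Submodule.span_le (p := (Submodule.span ℂ s).comap (LinearMap.mulLeft ℂ a))).2 h hx

theorem mem_span_monT (x : Fock.S (Deg.pT p)) :
    x ∈ Submodule.span ℂ (range fun l : List (ℕ × V) × List (ℕ × ℕ) => monT p l.1 l.2) := by
  induction x using Fock.induction with
  | h1 => exact Submodule.subset_span ⟨([], []), monT_nil⟩
  | hι v x hx =>
    refine mul_mem_span ?_ hx
    rintro _ ⟨l, rfl⟩
    obtain ⟨v, w⟩ := v
    rw [← Prod.fst_add_snd (v, w), map_add, add_mul]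
    refine add_mem ?_ ?_
    · induction v using Finsupp.induction_linear with
      | zero => simp [Prod.mk_zero_zero]
      | add a b ha hb =>
        rw [show ((a + b, w).1, (0 : Deg.NN)) = (a, 0) + (b, 0) by simp, map_add, add_mul]
        exact add_mem ha hb
      | single m a => exact Submodule.subset_span ⟨((m, a) :: l.1, l.2), monT_cons _ _ _⟩
    · induction w using Finsupp.induction_linear with
      | zero => simp [Prod.mk_zero_zero]
      | add a b ha hb =>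
        rw [show ((0 : VV V), (v, a + b).2) = (0, a) + (0, b) by simp, map_add, add_mul]
        exact add_mem ha hb
      | single m a =>
        rw [show ((0 : VV V), (v, Finsupp.single m a).2) = a • (0, Finsupp.single m 1) by simp,
          map_smul, smul_mul_assoc]
        exact Submodule.smul_mem _ _ (Submodule.subset_span ⟨(l.1, m :: l.2), monT_cons' _ _ _⟩)
  | hadd x y hx hy => exact add_mem hx hy
  | hsmul c x hx => exact Submodule.smul_mem _ c hx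

theorem monT_ext {Z Z' : Fock.S (Deg.pT p) →ₗ[ℂ] N}
    (h : ∀ l₁ l₂, Z (monT p l₁ l₂) = Z' (monT p l₁ l₂)) : Z = Z' :=
  LinearMap.ext fun x => LinearMap.eqOn_span (by rintro _ ⟨l, rfl⟩; exact h _ _) (mem_span_monT x)

theorem mem_span_monR (D : Deg.Dv) (x : Fock.S (Deg.pR p D)) : x ∈ Submodule.span ℂ
    (range fun l : List (ℕ × V) × List (ℕ × ℕ) × List (ℕ × D.H) => monR p D l.1 l.2.1 l.2.2) := by
  have key : ∀ (y : Fock.S (Deg.pT p)) (l₃ : List (ℕ × D.H)), Fock.map _ (Deg.isEv_inl _ _) y *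
      (l₃.map fun x => ι (Deg.pR p D) (0, Finsupp.single x.1 x.2)).prod ∈ Submodule.span ℂ
      (range fun l : List (ℕ × V) × List (ℕ × ℕ) × List (ℕ × D.H) => monR p D l.1 l.2.1 l.2.2) :=
    fun y l₃ => (Submodule.span_le (p := (Submodule.span ℂ _).comap (LinearMap.mulRight ℂ _ ∘ₗ
      (Fock.map _ (Deg.isEv_inl (Deg.pT p) (D.p.fs ℕ))).toLinearMap))).2
      (by rintro _ ⟨l, rfl⟩; exact Submodule.subset_span ⟨(l.1, l.2, l₃), rfl⟩) (mem_span_monT y)
  induction x using Fock.induction with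
  | h1 => simpa using key 1 []
  | hι v x hx =>
    refine mul_mem_span ?_ hx
    rintro _ ⟨l, rfl⟩
    obtain ⟨v, w⟩ := v
    rw [← Prod.fst_add_snd (v, w), map_add, add_mul]
    refine add_mem ?_ ?_
    · have := key (ι _ v * monT p l.1 l.2.1) l.2.2
      rwa [map_mul, map_ι, mul_assoc] at this
    · induction w using Finsupp.induction_linear with
      | zero => simp [Prod.mk_zero_zero]
      | add a b ha hb =>
        rw [show ((0 : VV V × Deg.NN), (v, a + b).2) = (0, a) + (0, b) by simp, map_add, add_mul]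
        exact add_mem ha hb
      | single m a =>
        induction a using D.p.induction with
        | hev a ha =>
          simp only [monR]
          rw [← mul_assoc, ι_comm_ev (by simp [ha]), mul_assoc]
          exact key _ ((m, a) :: l.2.2)
        | hod a ha =>
          simp only [monR]
          rw [← mul_assoc, ι_comm_od (by simp [ha]), mul_assoc, par_map]
          exact key _ ((m, a) :: l.2.2)
        | hadd a b ha hb =>
          rw [show ((0 : VV V × Deg.NN), (v, Finsupp.single m (a + b)).2) =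
            (0, Finsupp.single m a) + (0, Finsupp.single m b) by simp, map_add, add_mul]
          exact add_mem ha hb
  | hadd x y hx hy => exact add_mem hx hy
  | hsmul c x hx => exact Submodule.smul_mem _ c hx

theorem monR_ext {D : Deg.Dv} {Z Z' : Fock.S (Deg.pR p D) →ₗ[ℂ] N}
    (h : ∀ l₁ l₂ l₃, Z (monR p D l₁ l₂ l₃) = Z' (monR p D l₁ l₂ l₃)) : Z = Z' :=
  LinearMap.ext fun x => LinearMap.eqOn_span (by rintro _ ⟨l, rfl⟩; exact h _ _ _)
    (mem_span_monR D x)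

theorem map_monT {f : V →ₗ[ℂ] V'} (hf : IsEv p p' f) (l₁ : List (ℕ × V)) (l₂ : List (ℕ × ℕ)) :
    Fock.map _ (Deg.isEv_lp hf) (monT p l₁ l₂) = monT p' (l₁.map (Prod.map id f)) l₂ := by
  simp [monT, map_list_prod, List.map_map, comp_def]

theorem isEv_lr {D D' : Deg.Dv} {f : V →ₗ[ℂ] V'} (hf : IsEv p p' f) {f' : D.H →ₗ[ℂ] D'.H}
    (hf' : IsEv D.p D'.p f') :
    IsEv (Deg.pR p D) (Deg.pR p' D') ((Deg.lp f).prodMap (Deg.vv f')) := fun v =>
  Prod.ext (Deg.isEv_lp hf v.1) (Deg.isEv_vv hf' v.2)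

theorem map_monR {D D' : Deg.Dv} {f : V →ₗ[ℂ] V'} (hf : IsEv p p' f) {f' : D.H →ₗ[ℂ] D'.H}
    (hf' : IsEv D.p D'.p f') (l₁ : List (ℕ × V)) (l₂ : List (ℕ × ℕ)) (l₃ : List (ℕ × D.H)) :
    Fock.map _ (isEv_lr hf hf') (monR p D l₁ l₂ l₃) =
      monR p' D' (l₁.map (Prod.map id f)) l₂ (l₃.map (Prod.map id f')) := by
  simp [monR, monT, map_list_prod, List.map_map, comp_def, Prod.mk_zero_zero]

end mon

section vir

variable {X : Deg.Coh} {d : VD X.fr} {Γ : Type} [AddCommGroup Γ] {g : Deg.Grd Γ}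

theorem virC_zero : d.VirC (0 : ℤ → Fock.S (X.p.fs ℕ) →ₗ[ℂ] ℂ) := fun _ _ _ => by simp

theorem virC_sum {α : Type} {s : Finset α} {Z : α → ℤ → Fock.S (X.p.fs ℕ) →ₗ[ℂ] ℂ}
    (h : ∀ a ∈ s, d.VirC (Z a)) : d.VirC fun j => ∑ a ∈ s, Z a j := fun k j x => by
  simp only [LinearMap.sum_apply, ← Finset.sum_add_distrib]
  exact Finset.sum_eq_zero fun a ha => h a ha k j x

variable {Z : Deg.Ser Γ (Deg.pT X.p)}

theorem virD_of (hf : ∀ n, {β | g.deg β = n ∧ Z β ≠ 0}.Finite) (h : ∀ β, d.VirC fun j =>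
    Z β j ∘ₗ (Fock.map _ (Deg.isEv_inl _ (Fock.Par.triv ℂ Deg.NN))).toLinearMap) :
    Deg.VirD g d Z := fun n => by
  have e : ∀ j, ∑ᶠ (β) (_ : g.deg β = n), Z β j = ∑ β ∈ (hf n).toFinset, Z β j := fun j =>
    finsum_cond_eq_sum_of_cond_iff _ fun hβ => ⟨fun k => (hf n).mem_toFinset.2
      ⟨k, fun h0 => hβ (by rw [h0]; rfl)⟩, fun k => ((hf n).mem_toFinset.1 k).1⟩
  simp only [e]
  intro k j x
  simpa only [LinearMap.comp_apply, LinearMap.sum_apply] using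
    virC_sum (s := (hf n).toFinset) (fun β _ => h β) k j x

theorem virC_of_virD (hi : ∀ β β', Z β ≠ 0 → Z β' ≠ 0 → g.deg β' = g.deg β → β' = β)
    (h : Deg.VirD g d Z) (β : Γ) : d.VirC fun j =>
    Z β j ∘ₗ (Fock.map _ (Deg.isEv_inl _ (Fock.Par.triv ℂ Deg.NN))).toLinearMap := by
  by_cases h0 : Z β = 0
  · rw [h0]
    exact virC_zero
  have e : ∀ j, ∑ᶠ (β') (_ : g.deg β' = g.deg β), Z β' j = ∑ β' ∈ {β}, Z β' j := fun j =>
    finsum_cond_eq_sum_of_cond_iff _ fun hβ => ⟨fun k => Finset.mem_singleton.2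
      (hi _ _ h0 (fun h0 => hβ (by rw [h0]; rfl)) k), fun k => by rw [Finset.mem_singleton.1 k]⟩
  simpa only [e, Finset.sum_singleton] using h (g.deg β)

/-- The constraints are empty on the zero space. -/
theorem virC_of_subsingleton [Subsingleton X.H] (Z : ℤ → Fock.S (X.p.fs ℕ) →ₗ[ℂ] ℂ) : d.VirC Z :=
  fun k j x => by
    have h0 : d.ell k = 0 := Subsingleton.elim _ _
    have h1 : d.c0 = 0 := by
      rw [VD.c0, Subsingleton.elim (d.μ * d.μ - _) 0, map_zero, mul_zero]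
    have h2 : X.fr.q0 0 = 0 := by
      rw [Frame.q0, Subsingleton.elim (Frame.blk _) 0]
      ext; simp
    have h3 : X.fr.qm 0 = 0 := by
      rw [Frame.qm, Subsingleton.elim (X.fr.qf _) 0]
      simp
    have h4 : X.fr.q1 0 = 0 := by
      rw [Frame.q1, Frame.cas_eq (N := 0) fun _ _ _ => Subsingleton.elim _ _]
      ext; simp
    simp [h0, h1, h2, h3, h4]

end vir

/-- Maps that preserve the degree are even. -/
theorem isEv_parH {X Y : Type} [TopologicalSpace X] [TopologicalSpace Y] {g : H X →ₗ[ℂ] H Y}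
    (h : ∀ m c, H.IsDeg m c → H.IsDeg m (g c)) : IsEv (parH X) (parH Y) g := by
  have key : ∀ {Z : Type} [TopologicalSpace Z] {m : ℤ} {c : H Z}, H.IsDeg m c →
      (parH Z).σ c = (-1 : ℂ) ^ m • c := fun hc => by
    obtain ⟨a, h1, h2, rfl⟩ := H.isDeg_iff.1 hc
    rw [parH_hcls h1, h2.par_eq, hcls_smul _ h1]
  intro c
  induction c using H.induction_deg with
  | h0 => simp
  | hadd a b ha hb => simp only [map_add, ha, hb]
  | h m => rw [key (h _ _ (H.isDeg_comp _ _)), key (H.isDeg_comp _ _), map_smul]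

variable {S Λ R J K S' Λ' R' J' K' : Type} [Fintype S] [Fintype Λ] [Fintype R] [Fintype J]
  [Fintype K] [Fintype S'] [Fintype Λ'] [Fintype R'] [Fintype J'] [Fintype K'] [DecidableEq R]
  [DecidableEq R'] {V V' : Type} [AddCommGroup V] [Module ℂ V] [AddCommGroup V'] [Module ℂ V']
  {p : Fock.Par ℂ V} {p' : Fock.Par ℂ V'}

namespace Fam

variable {F : Fam S Λ R J K} {F' : Fam S' Λ' R' J' K'} {k k' : ℕ} {e : F.Ex} {e' : F'.Ex}
  {δ : J → ℕ} {δ' : J' → ℕ} {A A₁ : Set ((Λ → ℂ) × (J → ℂ))} {A' A₁' : Set ((Λ' → ℂ) × (J' → ℂ))}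
  {d : R → ℤ} {d' : R' → ℤ} {j : ℤ}

/-- Without relative insertions the correlators do not depend on the divisor. -/
theorem cor_nil (δ δ₂ : J → ℕ) (A₁ A₂ : Set ((Λ → ℂ) × (J → ℂ))) (l₁ l₂) :
    F.cor k e δ A A₁ d j l₁ l₂ [] = F.cor k e δ₂ A A₂ d j l₁ l₂ [] := by
  unfold cor
  congr 3 <;> exact funext fun s => s.elim0

theorem serA_eq {i : V →ₗ[ℂ] H (F.X A)} {i' : V →ₗ[ℂ] H (F'.X A')}
    (h : ∀ l₁ l₂, F'.cor k' e' 0 A' A' d' j (List.map (Prod.map id i') l₁) l₂ [] =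
      F.cor k e 0 A A d j (l₁.map (Prod.map id i)) l₂ []) :
    F'.serA k' e' p i' d' j = F.serA k e p i d j := by
  simp only [serA, h]

theorem serR_eq {D : Deg.Dv} {i : V →ₗ[ℂ] H (F.X A)} {i' : V →ₗ[ℂ] H (F'.X A')}
    {i₁ : D.H →ₗ[ℂ] H (F.X A₁)} {i₁' : D.H →ₗ[ℂ] H (F'.X A₁')}
    (h : ∀ l₁ l₂ l₃, F'.cor k' e' δ' A' A₁' d' j (List.map (Prod.map id i') l₁) l₂
      (List.map (Prod.map id i₁') l₃) =
      F.cor k e δ A A₁ d j (l₁.map (Prod.map id i)) l₂ (l₃.map (Prod.map id i₁))) :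
    F'.serR k' e' p i' δ' D i₁' d' j = F.serR k e p i δ D i₁ d j := by
  simp only [serR, h]

theorem serA_eq_zero {i : V →ₗ[ℂ] H (F.X A)} (h : ∀ l₁ l₂, F.cor k e 0 A A d j l₁ l₂ [] = 0) :
    F.serA k e p i d j = 0 :=
  monT_ext fun l₁ l₂ => (Classical.epsilon_spec (p := fun Z : Fock.S (Deg.pT p) →ₗ[ℂ] ℂ => ∀ l₁ l₂,
    Z (monT p l₁ l₂) = F.cor k e 0 A A d j (l₁.map (Prod.map id i)) l₂ [])
    ⟨0, fun _ _ => (h _ _).symm⟩ l₁ l₂).trans (h _ _)

theorem serR_eq_zero {D : Deg.Dv} {i : V →ₗ[ℂ] H (F.X A)} {i₁ : D.H →ₗ[ℂ] H (F.X A₁)}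
    (h : ∀ l₁ l₂ l₃, F.cor k e δ A A₁ d j l₁ l₂ l₃ = 0) : F.serR k e p i δ D i₁ d j = 0 :=
  monR_ext fun l₁ l₂ l₃ => (Classical.epsilon_spec
    (p := fun Z : Fock.S (Deg.pR p D) →ₗ[ℂ] ℂ => ∀ l₁ l₂ l₃, Z (monR p D l₁ l₂ l₃) =
      F.cor k e δ A A₁ d j (l₁.map (Prod.map id i)) l₂ (l₃.map (Prod.map id i₁)))
    ⟨0, fun _ _ _ => (h _ _ _).symm⟩ l₁ l₂ l₃).trans (h _ _ _)

theorem map_map_id {α β γ : Type} (f : α → β) (g : β → γ) (h : α → γ) (e : ∀ a, h a = g (f a))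
    (l : List (ℕ × α)) : (l.map (Prod.map id f)).map (Prod.map id g) = l.map (Prod.map id h) := by
  rw [List.map_map, show h = g ∘ f from funext e]
  rfl

/-- **Naturality** of the absolute series. -/
theorem serA_nat (hS : St.Spec) (hF : F.Nice 0) (hc : F.Cp) (hk : F.Big k) (he : F.ExOk k e)
    (hA : F.cone ⊆ A) {i : V' →ₗ[ℂ] H (F.X A)} (hi : IsEv p' (parH _) i) {f : V →ₗ[ℂ] V'}
    (hf : IsEv p p' f) (d j) : F.serA k e p (i ∘ₗ f) d j =
      F.serA k e p' i d j ∘ₗ (Fock.map _ (Deg.isEv_lp hf)).toLinearMap :=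
  monT_ext fun l₁ l₂ => by
    rw [(hS F 0 k e (A' := A) p _ hF hc hk he hA (hi.comp hf)).1 rfl, LinearMap.comp_apply,
      AlgHom.toLinearMap_apply, map_monT hf, (hS F 0 k e (A' := A) p' _ hF hc hk he hA hi).1 rfl,
      map_map_id f i (i ∘ₗ f) fun _ => rfl]

/-- **Naturality** of the relative series. -/
theorem serR_nat (hS : St.Spec) (hF : F.Nice δ) (hc : F.Cp) (hk : F.Big k) (he : F.ExOk k e)
    (hA : F.cone ⊆ A) (hA₁ : F.dvs δ ⊆ A₁) {i : V' →ₗ[ℂ] H (F.X A)} (hi : IsEv p' (parH _) i)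
    {f : V →ₗ[ℂ] V'} (hf : IsEv p p' f) {D D' : Deg.Dv} {i₁ : D'.H →ₗ[ℂ] H (F.X A₁)}
    (hi₁ : IsEv D'.p (parH _) i₁) {f' : D.H →ₗ[ℂ] D'.H} (hf' : IsEv D.p D'.p f') (d j) :
    F.serR k e p (i ∘ₗ f) δ D (i₁ ∘ₗ f') d j =
      F.serR k e p' i δ D' i₁ d j ∘ₗ (Fock.map _ (isEv_lr hf hf')).toLinearMap :=
  monR_ext fun l₁ l₂ l₃ => by
    rw [(hS F δ k e p _ hF hc hk he hA (hi.comp hf)).2 D _ hA₁ (hi₁.comp hf'),
      LinearMap.comp_apply, AlgHom.toLinearMap_apply, map_monR hf hf',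
      (hS F δ k e p' _ hF hc hk he hA hi).2 D' _ hA₁ hi₁, map_map_id f i (i ∘ₗ f) fun _ => rfl,
      map_map_id f' i₁ (i₁ ∘ₗ f') fun _ => rfl]

/-- The absolute series only depends on the restrictions of the classes. -/
theorem serA_res (hR : St.Res) (hF : F.Nice 0) (hc : F.Cp) (hk : F.Big k) (he : F.ExOk k e)
    (hA : F.cone ⊆ A) (i : V →ₗ[ℂ] H (F.X A)) :
    F.serA k e p i = F.serA k e p ((F.rs hA).toLinearMap ∘ₗ i) :=
  funext₂ fun d j => serA_eq fun l₁ l₂ => by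
    rw [hR F 0 k e hA ((F.dvs_subset 0).trans hA) hF hc hk he,
      map_map_id i (F.rs hA) ((F.rs hA).toLinearMap ∘ₗ i) fun _ => rfl]
    exact cor_nil _ _ _ _ _ _

/-- The relative series only depends on the restrictions of the classes. -/
theorem serR_res (hR : St.Res) (hF : F.Nice δ) (hc : F.Cp) (hk : F.Big k) (he : F.ExOk k e)
    (hA : F.cone ⊆ A) (hA₁ : F.dvs δ ⊆ A₁) (i : V →ₗ[ℂ] H (F.X A)) {D : Deg.Dv}
    (i₁ : D.H →ₗ[ℂ] H (F.X A₁)) : F.serR k e p i δ D i₁ =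
      F.serR k e p ((F.rs hA).toLinearMap ∘ₗ i) δ D ((F.rs hA₁).toLinearMap ∘ₗ i₁) :=
  funext₂ fun d j => serR_eq fun l₁ l₂ l₃ => by
    rw [hR F δ k e hA hA₁ hF hc hk he,
      map_map_id i (F.rs hA) ((F.rs hA).toLinearMap ∘ₗ i) fun _ => rfl,
      map_map_id i₁ (F.rs hA₁) ((F.rs hA₁).toLinearMap ∘ₗ i₁) fun _ => rfl]

theorem exOk0 (hS : St.SelC) (hF : F.Good) (hk : F.Big k) : F.ExOk k F.ex0 :=
  (hS F k 1 univ 1 hF hk (subset_univ _) (one_mem _)).1

theorem Vir.virD {C : Deg.Coh} {i : C.H →ₗ[ℂ] H (F.X F.cone)} {vd : VD C.fr} (h : F.Vir C i vd)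
    (hk : F.Big k) {g : Deg.Grd (R → ℤ)}
    (hf : ∀ n, {β | g.deg β = n ∧ F.serA k F.ex0 C.p i β ≠ 0}.Finite) :
    Deg.VirD g vd (F.serA k F.ex0 C.p i) := virD_of hf (h k hk)

omit [DecidableEq R] in
theorem subsingleton_H (h : F.cone = ∅) : Subsingleton (H (F.X F.cone)) := by
  refine subsingleton_of_zero_eq_one (hcls_zero.symm.trans (Eq.trans ?_ hcls_one))
  exact hcls_eq_of_null cocycle_one fun x => (h.subset (Quo.out x).2).elim

/-- The constraints hold for an empty target. -/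
theorem vir_of_empty (h : F.cone = ∅) {C : Deg.Coh} {i : C.H →ₗ[ℂ] H (F.X F.cone)}
    (hi : Injective i) (vd : VD C.fr) : F.Vir C i vd := fun _ _ _ => by
  have := subsingleton_H h
  have := hi.subsingleton
  exact virC_of_subsingleton _

end Fam

end Vale.Agent.P269
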