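import Vale.Agent.P269.Asm.Gr
import Vale.Agent.P269.Asm.Lin
import Vale.Agent.P269.PA.Vx

/-!
# Operations on presentations
-/

set_option linter.unusedSectionVars false

namespace Vale.Agent.P269.Fam

open P291Z Set Topology Filter MvPolynomial
open Function hiding eval

variable {Λ R R₁ R₂ J J₁ J₂ K K₁ K₂ I I₁ : Type} [Fintype Λ] [Fintype R] [Fintype R₁] [Fintype R₂]
  [Fintype J] [Fintype J₁] [Fintype J₂] [Fintype K] [Fintype K₁] [Fintype K₂] [Fintype I]
  [Fintype I₁]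

/-- No parameters and no base fields. -/
structure Pl (F : Fam Empty Empty R J K) : Prop where
  mov : F.mov = univ
  zer : F.zer = ∅
  B : F.B = univ
  E : F.E = univ

theorem Tg.pl [DecidableEq R] {F : Fam Empty Empty R J K} (h : F.Tg) : F.Pl :=
  ⟨h.mov, h.zer, h.B, h.E⟩

theorem lev_pl (P : Pre R J K) (A) : (P.lev A).Pl := ⟨rfl, rfl, rfl, rfl⟩

theorem mem_lev {P : Pre R J K} {A : Set (J → ℂ)} (h : A ⊆ P.cone) {z} :
    z ∈ (P.lev A).cone ↔ z.2 ∈ A :=
  ⟨fun a => a.2.1.1, fun a => ⟨trivial, ⟨a, trivial, nofun⟩, fun k =>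
    (congrArg (eval z.2) (map_eval_map_C _ _)).trans ((h a).2 k)⟩⟩

theorem proj_pl (F : Fam Empty Empty R J K) {r : ℕ} (a : Fin (r + 1) → R → ℤ) (θ) :
    (F.proj a θ).Pl := ⟨rfl, rfl, rfl, rfl⟩

theorem Pl.mem_proj {F : Fam Empty Empty R J K} (h : F.Pl) {r : ℕ} {a : Fin (r + 1) → R → ℤ} {θ z} :
    z ∈ (F.proj a θ).cone ↔ (z.1, z.2 ∘ .inl) ∈ F.cone ∧ z.2 ∘ .inr ≠ 0 :=
  PA.mem_cone_proj h.B h.E h.zer

theorem map_eval_par (l : Λ → ℂ) (f : MvPolynomial J (MvPolynomial Empty ℂ)) :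
    MvPolynomial.map (eval l) (MvPolynomial.map (rename Empty.elim).toRingHom f) =
      MvPolynomial.map (eval Empty.elim) f := by
  rw [MvPolynomial.map_map]
  exact congrArg (MvPolynomial.map · f) (RingHom.ext fun p =>
    (eval_rename _ _ p).trans (congrArg (eval · p) (Subsingleton.elim _ _)))

theorem par_fib (F : Fam Empty Empty R J K) (l l' : Λ → ℂ) :
    (F.par l).fib l' = F.fib Empty.elim :=
  congrArg (fun G => (⟨_, _, G, _⟩ : Tgt R J K)) (funext fun _ => map_eval_par _ _)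

theorem Pl.mem_par {F : Fam Empty Empty R J K} (h : F.Pl) {l : Λ → ℂ} {z} :
    z ∈ (F.par l).cone ↔ z.1 = l ∧ (Empty.elim, z.2) ∈ F.cone := by
  simp only [cone, mem_ofPred_eq, par_fib, h.B, mem_univ, true_and, mem_singleton_iff]

/-- `Tg.pres` for plain families -/
theorem Pl.pres {F : Fam Empty Empty R J K} {F' : Fam Empty Empty R₁ J₁ K₁} (hF : F.Pl)
    (hF' : F'.Pl) {φ : J → J₁} {s : I → J₁} {M : R₁ → R → ℤ} {σ : J₁ → MvPolynomial J ℂ}
    (inj : Injective φ) (σ_φ : ∀ j, σ (φ j) = X j) (σ_s : ∀ i, σ (s i) = 1)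
    (hom : ∀ j', ∀ α ∈ (σ j').support, ∀ r, ∑ j, α j * F.w j r = ∑ r', F'.w j' r' * M r' r)
    (lat_inj : ∀ d : R → ℤ, (∀ r', ∑ r, M r' r * d r = 0) → d = 0)
    (lat_ker : ∀ d' : R₁ → ℤ, (∀ i, ∑ r', F'.w (s i) r' * d' r' = 0) →
      ∃ d : R → ℤ, d' = fun r' => ∑ r, M r' r * d r)
    (lat_onto : ∀ n : I → ℤ, ∃ d' : R₁ → ℤ, ∀ i, ∑ r', F'.w (s i) r' * d' r' = n i)
    (cone : ∀ z', z' ∈ F'.cone ↔ ∃ t, IsUnit t ∧ ∃ z ∈ F.cone,
      z'.2 = (F'.actT (1, t) (z.1, fun j => eval z.2 (σ j))).2) :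
    F.Pres F' φ s M fun j => MvPolynomial.map C (σ j) where
  inj := inj
  wl := Subsingleton.elim _ _
  B := hF'.B.trans hF.B.symm
  σ_φ j := by rw [σ_φ, map_X]
  σ_s i := by rw [σ_s, map_one]
  hom j α hα := hom j α (support_map_subset _ _ hα)
  homS _ _ _ _ _ a := a.elim
  lat_inj := lat_inj
  lat_ker := lat_ker
  lat_onto := lat_onto
  cone z' := by
    simp only [cone, evσ_C]
    exact exists_congr fun t => and_congr_right fun _ => exists_congr fun z => and_congr_right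
      fun _ => ⟨Prod.ext (Subsingleton.elim _ _), congrArg _⟩
  mov := by simp [hF.mov, hF'.mov]
  zer := by simp [hF.zer, hF'.zer]
  E := by simp [hF.E]
  drop := by simp [hF'.mov]
  E' := by simpa [hF'.mov, hF'.E] using fun _ _ _ _ => ⟨1, isUnit_one⟩

theorem sum_sum_mul (a : R₁ → ℤ) (M : R₁ → R → ℤ) (d : R → ℤ) :
    ∑ r, (∑ r', a r' * M r' r) * d r = ∑ r', a r' * ∑ r, M r' r * d r := by
  simp only [Finset.sum_mul, Finset.mul_sum, mul_assoc]
  exact Finset.sum_comm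

/-- the polynomial map of a presentation is equivariant -/
theorem Pres.evσ_act {F : Fam Empty Λ R J K} {F' : Fam Empty Λ R₁ J₁ K₁} {φ : J → J₁} {s : I → J₁}
    {M σ} (h : F.Pres F' φ s M σ) {t : R → ℂ} (ht : IsUnit t) (z) :
    evσ σ (F.actT (1, t) z) = F'.actT (1, fun r' => ∏ r, t r ^ M r' r) (evσ σ z) := by
  have a := isUnit_pi_iff.1 ht
  refine Prod.ext ((F.actL_one _).trans (F'.actL_one _).symm) (funext fun j => ?_)
  simp only [evσ, evz, Wt.actT, Wt.actL_one, eval_map, eval₂_eq', Finset.mul_sum,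
    Finset.univ_eq_empty, Finset.prod_empty, one_mul, mul_pow, Finset.prod_mul_distrib,
    prod_pow_zpow a, ← Finset.prod_zpow, ← zpow_mul]
  refine Finset.sum_congr rfl fun α hα => ?_
  simp only [h.hom j α hα]
  rw [mul_left_comm, Finset.prod_comm]
  simp only [zpow_sum_ne (a _), mul_comm]

theorem Pres.par {F : Fam Empty Empty R J K} {F' : Fam Empty Empty R₁ J₁ K₁} (hF : F.Pl)
    (hF' : F'.Pl) {φ : J → J₁} {s : I → J₁} {M σ} (h : F.Pres F' φ s M σ) (l : Λ → ℂ) :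
    (F.par l).Pres (F'.par l) φ s M
      fun j => MvPolynomial.map (rename Empty.elim).toRingHom (σ j) where
  inj := h.inj
  wl := rfl
  B := rfl
  σ_φ j := by rw [h.σ_φ, map_X]
  σ_s i := by rw [h.σ_s, map_one]
  hom j α hα := h.hom j α (support_map_subset _ _ hα)
  homS _ _ _ _ _ a := a.elim
  lat_inj := h.lat_inj
  lat_ker := h.lat_ker
  lat_onto := h.lat_onto
  cone z' := by
    have e : ∀ t (z : _ × (J → ℂ)), (F'.par l).actT (1, t) (evσ (fun j => MvPolynomial.map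
        (rename Empty.elim).toRingHom (σ j)) z) =
        (z.1, (F'.actT (1, t) (evσ σ (Empty.elim, z.2))).2) := fun t z =>
      Prod.ext (Wt.actL_one _ _) (funext fun j =>
        congrArg (fun f => _ * eval z.2 f) (map_eval_par _ _))
    simp only [hF.mem_par, hF'.mem_par, h.cone, e]
    refine ⟨fun ⟨a, t, b, ⟨u, z⟩, c, d⟩ => ?_, fun ⟨t, b, z, c, d⟩ => ⟨(congrArg Prod.fst d).trans
      c.1, t, b, _, c.2, Prod.ext (Subsingleton.elim _ _) (congrArg Prod.snd d :)⟩⟩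
    obtain rfl : u = Empty.elim := Subsingleton.elim _ _
    exact ⟨t, b, (l, z), ⟨rfl, c⟩, Prod.ext a (congrArg Prod.snd d :)⟩
  mov := h.mov
  zer := h.zer
  E := by simp [hF.E]
  drop := by simp [hF'.mov]
  E' := by simpa [hF'.mov, hF'.E] using fun _ _ => ⟨1, isUnit_one⟩

theorem hom_iff {A : Type} [CommRing A] {w : J → ℤ} {c : ℤ} {f : MvPolynomial J A} :
    IsWeightedHomogeneous w f c ↔ ∀ α ∈ f.support, ∑ j, α j * w j = c :=
  forall_congr' fun α => by
    rw [mem_support_iff, Finsupp.weight_apply, Finsupp.sum_fintype _ _ (by simp)]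
    simp only [nsmul_eq_mul]

theorem evz_aeval (σ : J₁ → MvPolynomial J (MvPolynomial Λ ℂ)) (z f) :
    evz z (aeval σ f) = evz (evσ σ z) f := by
  induction f using MvPolynomial.induction_on with
  | C a => simp [evz, evσ]
  | add p q a b => simpa [evz] using congrArg₂ (· + ·) a b
  | mul_X p i a => simpa [evz, evσ] using congrArg (· * evz z (σ i)) a

theorem Pres.w_φ {F : Fam Empty Λ R J K} {F' : Fam Empty Λ R₁ J₁ K₁} {φ : J → J₁} {s : I → J₁}
    {M σ} (h : F.Pres F' φ s M σ) (j) (d : R → ℤ) :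
    ∑ r', F'.w (φ j) r' * ∑ r, M r' r * d r = ∑ r, F.w j r * d r := by
  classical
  simp only [← sum_sum_mul, ← h.hom (φ j) (Finsupp.single j 1) (by simp [h.σ_φ, support_X]),
    sum_single_one]

theorem Pres.w_s {F : Fam Empty Λ R J K} {F' : Fam Empty Λ R₁ J₁ K₁} {φ : J → J₁} {s : I → J₁}
    {M σ} (h : F.Pres F' φ s M σ) (i) (d : R → ℤ) :
    ∑ r', F'.w (s i) r' * ∑ r, M r' r * d r = 0 := by
  simp [← sum_sum_mul, ← h.hom (s i) 0 (by simp [h.σ_s])]

theorem hom_aeval {A : Type} [CommRing A] {w : J → ℤ} {w' : J₁ → ℤ} {c : ℤ}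
    {σ : J₁ → MvPolynomial J A} {f : MvPolynomial J₁ A}
    (h : ∀ j, IsWeightedHomogeneous w (σ j) (w' j)) (hf : IsWeightedHomogeneous w' f c) :
    IsWeightedHomogeneous w (aeval σ f) c := by
  rw [f.as_sum, map_sum]
  refine IsWeightedHomogeneous.sum _ _ _ fun β hβ => ?_
  rw [aeval_monomial, algebraMap_eq, Finsupp.prod_fintype _ _ fun _ => pow_zero _,
    ← hom_iff.1 hf β hβ]
  exact (IsWeightedHomogeneous.prod _ _ _ fun i _ => by simpa using (h i).pow (β i)).C_mul _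

theorem evσ_aeval (σ : J₁ → MvPolynomial J (MvPolynomial Λ ℂ))
    (σ' : J₂ → MvPolynomial J₁ (MvPolynomial Λ ℂ)) (z) :
    evσ (fun j => aeval σ (σ' j)) z = evσ σ' (evσ σ z) := by
  simp only [evσ, evz_aeval]

theorem Pres.trans {F : Fam Empty Λ R J K} {F₁ : Fam Empty Λ R₁ J₁ K₁} {F₂ : Fam Empty Λ R₂ J₂ K₂}
    {φ : J → J₁} {s : I → J₁} {M σ} {φ' : J₁ → J₂} {s' : I₁ → J₂} {M' σ'} (h : F.Pres F₁ φ s M σ)
    (h' : F₁.Pres F₂ φ' s' M' σ') (hm : F₁.mov = univ) :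
    F.Pres F₂ (φ' ∘ φ) (Sum.elim (φ' ∘ s) s') (fun r₂ r => ∑ r₁, M' r₂ r₁ * M r₁ r)
      fun j => aeval σ (σ' j) :=
  have m : ∀ j ∉ F₂.mov, j ∉ range φ' := fun _ c ⟨j, e⟩ => c (e ▸ (h'.mov j).2 (hm.ge trivial))
  { inj := h'.inj.comp h.inj
    wl := h'.wl.trans h.wl
    B := h'.B.trans h.B
    σ_φ j := by simp [h'.σ_φ, h.σ_φ]
    σ_s := Sum.rec (fun i => by simp [h'.σ_φ, h.σ_s]) fun i => by simp [h'.σ_s]
    hom j α hα r := hom_iff.1 (hom_aeval (fun i => hom_iff.2 fun α a => h.hom i α a r)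
      (hom_iff.2 fun β b => by simp only [← sum_sum_mul, h'.hom j β b])) α hα
    homS _ _ _ _ _ a := a.elim
    lat_inj d e := h.lat_inj d (congrFun (h'.lat_inj (fun r => ∑ r', M r r' * d r') fun r =>
      (sum_sum_mul _ _ _).symm.trans (e r)))
    lat_ker d e := by
      obtain ⟨d, rfl⟩ := h'.lat_ker d fun i => e (.inr i)
      obtain ⟨d, rfl⟩ := h.lat_ker d fun i => (h'.w_φ _ _).symm.trans (e (.inl i))
      exact ⟨d, funext fun r => (sum_sum_mul _ _ _).symm⟩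
    lat_onto n := by
      obtain ⟨d, e⟩ := h'.lat_onto fun i => n (.inr i)
      obtain ⟨d', e'⟩ := h.lat_onto fun i => n (.inl i) - ∑ r, F₂.w (φ' (s i)) r * d r
      refine ⟨fun r => d r + ∑ r', M' r r' * d' r', ?_⟩
      rintro (i | i) <;> simp [mul_add, Finset.sum_add_distrib, h'.w_φ, h'.w_s, e, e']
    cone z := by
      simp only [h'.cone, h.cone, evσ_aeval]
      refine ⟨?_, fun ⟨t, c, y, f, g⟩ => ⟨t, c, _, ⟨1, isUnit_one, y, f, (F₁.actT_one _).symm⟩, g⟩⟩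
      rintro ⟨t, c, _, ⟨u, d, y, f, rfl⟩, rfl⟩
      refine ⟨_, c.mul (isUnit_pi_iff.2 fun r => prod_zpow_ne (isUnit_pi_iff.1 d) (M' r)), y, f, ?_⟩
      rw [h'.evσ_act d, ← Wt.actT_mul, Prod.mk_mul_mk, one_mul]
    mov j := (h'.mov _).trans (h.mov j)
    zer j := (h'.zer _).trans (h.zer j)
    E := h.E
    drop j _ c := (h'.drop j (m j c) c).imp_right fun ⟨a, d, e⟩ => ⟨a, by simp [d], h.B ▸ e⟩
    E' l hl y c d := by
      refine (h'.E' l (h.B ▸ hl) y c fun i => d (.inr i)).trans (exists_congr fun t =>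
        and_congr_right fun _ => forall_congr' fun j => ?_)
      by_cases c : j ∈ F₂.mov
      · simp [c]
      refine imp_congr (iff_of_true (m j c) fun ⟨i, e⟩ => m j c ⟨_, e⟩)
        (forall₂_congr fun _ d => ?_)
      obtain ⟨a, f, -⟩ := (h'.drop j (m j c) c).resolve_left d
      simp [Wt.actT, evσ, evz, f] }

theorem proj_inl (F : Fam Empty Empty R J K) {r : ℕ} (a : Fin (r + 1) → R → ℤ) (θ t z) :
    (((F.proj a θ).actT (1, t) z).1, ((F.proj a θ).actT (1, t) z).2 ∘ .inl) =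
      F.actT (1, t ∘ some) (z.1, z.2 ∘ .inl) :=
  Prod.ext (Subsingleton.elim _ _) (funext fun j => by simp [Wt.actT, proj])

theorem proj_inr (F : Fam Empty Empty R J K) {r : ℕ} (a : Fin (r + 1) → R → ℤ) (θ t z l) :
    ((F.proj a θ).actT (1, t) z).2 (.inr l) =
      t none * ((∏ i, t (some i) ^ a l i) * z.2 (.inr l)) := by
  simp [Wt.actT, proj, mul_assoc]

theorem isUnit_some {t : Option R → ℂ} (h : IsUnit t) : IsUnit (t ∘ some) :=
  isUnit_pi_iff.2 fun _ => isUnit_pi_iff.1 h _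

theorem isUnit_elim {c : ℂ} {t : R → ℂ} (hc : c ≠ 0) (h : IsUnit t) :
    IsUnit fun o : Option R => o.elim c t :=
  isUnit_pi_iff.2 (Option.rec hc (isUnit_pi_iff.1 h))

theorem proj_ne (F : Fam Empty Empty R J K) {r : ℕ} (a : Fin (r + 1) → R → ℤ) (θ) {t}
    (ht : IsUnit t) {z : _ × (J ⊕ Fin (r + 1) → ℂ)} (h : z.2 ∘ .inr ≠ 0) :
    ((F.proj a θ).actT (1, t) z).2 ∘ .inr ≠ 0 := fun e => h (funext fun l => by
  have b := isUnit_pi_iff.1 ht
  simpa [proj_inr, b, prod_zpow_ne fun i => b (some i)] using congrFun e l)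

theorem mem_supp_inl {A : Type} [CommRing A] {f : MvPolynomial J A} {α : J ⊕ I →₀ ℕ}
    (h : α ∈ (rename Sum.inl f).support) : ∃ β ∈ f.support, β.mapDomain .inl = α := by
  classical
  exact Finset.mem_image.1 ((support_rename_of_injective Sum.inl_injective).le h)

theorem Pres.proj {F : Fam Empty Empty R J K} {F' : Fam Empty Empty R₁ J₁ K₁} (hF : F.Pl)
    (hF' : F'.Pl) {φ : J → J₁} {s : I → J₁} {M σ} (h : F.Pres F' φ s M σ) {r : ℕ}
    {a : Fin (r + 1) → R → ℤ} {a' : Fin (r + 1) → R₁ → ℤ} (a₀ : R → ℤ)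
    (ha : ∀ l r, a l r = a₀ r + ∑ r', a' l r' * M r' r) (θ θ') :
    (F.proj a θ).Pres (F'.proj a' θ') (Sum.map φ id) (.inl ∘ s)
      (fun o' o => o'.elim (o.elim 1 a₀) fun r' => o.elim 0 (M r'))
      (Sum.elim (fun j => rename .inl (σ j)) fun l => X (.inr l)) where
  inj := h.inj.sumMap injective_id
  wl := rfl
  B := rfl
  σ_φ := Sum.rec (fun j => by simp [h.σ_φ]) fun _ => rfl
  σ_s i := by simp [h.σ_s]
  hom := by
    classical
    rintro (j | l) α hα o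
    · obtain ⟨α, b, rfl⟩ := mem_supp_inl hα
      rw [sum_mapDomain_inl]
      cases o <;> simp [Fam.proj, h.hom j α b]
    · obtain rfl : α = Finsupp.single (.inr l) 1 := by simpa [support_X] using hα
      rw [sum_single_one]
      cases o <;> simp [Fam.proj, ha]
  homS _ _ _ _ _ a := a.elim
  lat_inj d e := by
    have b := congrFun (h.lat_inj (d ∘ some) fun r => by simpa using e (some r))
    simp only [comp_apply, Pi.zero_apply] at b
    exact funext (Option.rec (by simpa [b] using e none) b)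
  lat_ker d e := by
    obtain ⟨u, b⟩ := h.lat_ker (d ∘ some) fun i => by simpa [Fam.proj] using e i
    exact ⟨fun o => o.elim (d none - ∑ r, a₀ r * u r) u,
      funext (Option.rec (by simp) fun r => by simpa using congrFun b r)⟩
  lat_onto n := (h.lat_onto n).elim fun d e =>
    ⟨fun o => o.elim 0 d, fun i => by simpa [Fam.proj] using e i⟩
  cone z' := by
    have e : ∀ z : _ × (J ⊕ Fin (r + 1) → ℂ), ((evσ (Sum.elim (fun j => rename .inl (σ j))
        fun l => X (.inr l)) z).1, (evσ (Sum.elim (fun j => rename .inl (σ j))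
        fun l => X (.inr l)) z).2 ∘ .inl) = evσ σ (z.1, z.2 ∘ .inl) := fun z =>
      Prod.ext rfl (funext fun j => (congrArg _ (map_rename _ _ _)).trans (eval_rename _ _ _))
    have e' : ∀ (z : (Empty → ℂ) × (J ⊕ Fin (r + 1) → ℂ)) l, (evσ (Sum.elim
        (fun j => rename .inl (σ j)) fun l => X (.inr l)) z).2 (.inr l) = z.2 (.inr l) :=
      fun z l => by simp [evσ, evz]
    simp only [hF.mem_proj, hF'.mem_proj, h.cone]
    refine ⟨fun ⟨⟨t, b, z, c, d⟩, f⟩ => ?_, ?_⟩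
    · have g := fun l => prod_zpow_ne (isUnit_pi_iff.1 b) (a' l)
      refine ⟨_, isUnit_elim one_ne_zero b, (z.1, Sum.elim z.2 fun l => (∏ i, t i ^ a' l i)⁻¹ *
        z'.2 (.inr l)), ⟨c, fun k => f (funext fun l => by simpa [g] using congrFun k l)⟩,
        Prod.ext (Subsingleton.elim _ _) (funext (Sum.rec (congrFun ?_) fun l => ?_))⟩
      · refine (congrArg Prod.snd d).trans (Eq.trans ?_ (congrArg Prod.snd
          (proj_inl F' a' θ' _ _)).symm)
        rw [e]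
        rfl
      · simp [proj_inr, e', g]
    · rintro ⟨t, b, z, c, rfl⟩
      refine ⟨⟨_, isUnit_some b, _, c.1, by rw [proj_inl, e]⟩, proj_ne _ _ _ b fun g =>
        c.2 (funext fun l => ?_)⟩
      simpa [e'] using congrFun g l
  mov _ := Iff.rfl
  zer _ := Iff.rfl
  E _ _ _ _ := trivial
  drop _ _ a := (a trivial).elim
  E' _ _ _ _ _ := iff_of_true trivial ⟨1, isUnit_one, fun _ _ a => (a trivial).elim⟩

variable [DecidableEq R] {T : Fam Empty Empty R J K}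

theorem Tg.par_amp (h : T.Tg) (l : Λ → ℂ) {θ N} (ha : T.Ample θ N) : (T.par l).Ample θ N :=
  ⟨ha.1, ha.2.1, fun c hc _ hz => ha.2.2 c hc _ (h.pl.mem_par.1 hz).2⟩

theorem Tg.par_nice (h : T.Tg) (l : Λ → ℂ) : (T.par l).Nice 0 := by
  have c : Continuous fun z : (Λ → ℂ) × (J → ℂ) => ((Empty.elim : Empty → ℂ), z.2) := by fun_prop
  have e : ∀ t (z : (Λ → ℂ) × (J → ℂ)), (Empty.elim, ((T.par l).actT t z).2) =
      T.actT t (Empty.elim, z.2) := fun _ _ => Prod.ext (Subsingleton.elim _ _) rfl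
  have m := fun {z} => h.pl.mem_par (l := l) (z := z)
  refine ⟨⟨⟨fun k α a => h.hom k α (support_map_subset _ _ a), fun _ _ _ _ _ => nofun,
    h.openU.preimage c, fun t a z b => (mem_of_eq_of_mem (e t z) (h.invU t a _ b) :),
    h.closedE.preimage c, fun t a z b => (mem_of_eq_of_mem (e t z) (h.invE t a _ b) :),
    fun _ => h.baseE _, h.zer_base,
    isClosed_singleton.isLocallyClosed, fun t _ u b => ?_⟩, fun k => ?_,
    fun _ _ _ _ _ => Subsingleton.elim _ _, fun _ _ _ _ _ _ _ _ _ _ => ⟨0, fun _ => nofun⟩,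
    fun t a z b d => h.free t a _ (m.1 b).2 ((e _ z).symm.trans (congrArg (_, ·.2) d)),
    fun t z z' a b d => h.proper t _ _ a (m.1 b).2 (m.1 d).2, fun _ _ _ => ?_,
    h.ample.imp fun _ a => a.imp fun _ => h.par_amp l, h.mov_ne⟩,
    ⟨_, reg_univ fun z a b => (h.reg.ind _ (m.1 a).2 b).imp fun η d => ⟨d.1, fun k => by
      simpa only [jac, par_fib] using d.2 k trivial⟩⟩, ⟨0, fun u => ⟨fun _ => u, .of_map_nhds
    (.of_forall fun _ => continuousAt_const) (.of_forall fun _ => continuous_subtype_val.continuousAt)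
    analyticAt_const (injective_of_subsingleton _) fun _ a => mem_of_superset univ_mem fun y _ =>
      Subsingleton.elim u y ▸ (mem_of_mem_nhds a :), rfl⟩⟩, ⟨∅, by simp, by simp [h.E]⟩,
    0, Fin.elim0, fun _ => 0, fun _ _ => 1, fun i => i.elim0, linearIndependent_empty_type,
    fun _ i => i.elim0, by simp [h.mov], fun _ _ _ => ⟨analyticAt_const, one_ne_zero⟩,
    by simp [h.mov], by simp [h.mov], by simp [h.mov, h.E], fun _ _ => rfl⟩
  · rwa [Subsingleton.elim t 1, Wt.actL_one]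
  · have := h.deg k
    rwa [totalDegree, ← support_map_of_injective _ (f := (rename (Empty.elim : _ → Λ)).toRingHom)
      (rename_injective _ (injective_of_subsingleton _))] at this
  · obtain ⟨C, a, b, d⟩ := h.cpt univ h.B.ge isCompact_univ
    refine ⟨(fun z => (l, z.2)) '' C, forall_mem_image.2 fun z f => m.2 ⟨rfl, ?_⟩,
      b.image (by fun_prop), fun z f _ => (d _ (m.1 f).2 trivial).imp fun t g =>
        ⟨g.1, _, g.2, Prod.ext ((m.1 f).1.symm.trans (Wt.actL_one _ _).symm) rfl⟩⟩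
    exact mem_of_eq_of_mem (y := z) (Prod.ext (Subsingleton.elim _ _) rfl) (a f)

theorem Tg.par_big (h : T.Tg) (l : Λ → ℂ) {k : ℕ} (hk : T.Big k) : (T.par l).Big k :=
  hk.imp fun _ a => a.imp fun _ a => ⟨h.par_amp l a.1, a.2⟩

theorem Tg.par_triv (h : T.Tg) (l : Λ → ℂ) : (T.par l).Triv T Empty.elim :=
  ⟨⟨rfl, h.B.trans (eq_univ_of_forall fun _ => Subsingleton.elim _ _).symm,
    fun _ => .inl (Subsingleton.elim _ _), fun _ a _ => h.pl.mem_par.trans (and_iff_right a)⟩,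
    rfl, rfl, rfl, fun _ _ => Subsingleton.elim _ _, fun _ _ _ _ => Iff.rfl⟩

theorem Ample.ev {θ N} (h : T.Ample θ N) (u : R → ℤ) : ∀ᶠ n : ℕ in atTop, ∀ z ∈ T.cone,
    ∃ α : J → ℕ, (∀ i, ∑ j, α j * T.w j i = (n • N • θ + u) i) ∧ ∏ j, z.2 j ^ α j ≠ 0 := by
  let P (c : R → ℤ) := ∀ z ∈ T.cone, ∃ α : J → ℕ, (∀ i, ∑ j, α j * T.w j i = c i) ∧
    ∏ j, z.2 j ^ α j ≠ 0
  have a : ∀ c d, P c → P d → P (c + d) := fun c d e f z hz => by
    obtain ⟨α, e, e'⟩ := e z hz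
    obtain ⟨β, f, f'⟩ := f z hz
    exact ⟨α + β, fun i => by simp [add_mul, Finset.sum_add_distrib, e, f],
      by simpa only [Pi.add_apply, pow_add, Finset.prod_mul_distrib] using mul_ne_zero e' f'⟩
  have o : P 0 := fun _ _ => ⟨0, by simp, by simp⟩
  have b : ∀ c d, (∃ n : ℕ, P (n • N • θ + c)) → (∃ n : ℕ, P (n • N • θ + d)) →
      ∃ n : ℕ, P (n • N • θ + (c + d)) := fun c d ⟨m, e⟩ ⟨n, f⟩ =>
    ⟨m + n, by rw [add_smul, add_add_add_comm]; exact a _ _ e f⟩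
  obtain ⟨n, c⟩ : ∃ n : ℕ, P (n • N • θ + u) := by
    refine Pi.single_induction (fun u => ∃ n : ℕ, P (n • N • θ + u)) u ⟨0, by simpa using o⟩ b
      fun i m => ?_
    induction m using Int.induction_on with
    | zero => exact ⟨0, by simpa using o⟩
    | succ m e =>
      rw [Pi.single_add]
      exact b _ _ e ⟨1, (one_smul ℕ (N • θ)).symm ▸ h.2.2 _ (.inr ⟨i, .inl rfl⟩)⟩
    | pred m e =>
      rw [Pi.single_sub, sub_eq_add_neg]
      exact b _ _ e ⟨1, (one_smul ℕ (N • θ)).symm ▸ h.2.2 _ (.inr ⟨i, .inr (sub_eq_add_neg ..).symm⟩)⟩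
  refine eventually_atTop.2 ⟨n, fun m e => ?_⟩
  induction e with
  | refl => exact c
  | step _ e =>
    rw [succ_nsmul, add_right_comm]
    exact a _ _ e (h.2.2 _ (.inl rfl))

theorem norm_zpow_le {t : R → ℂ} {C : ℝ} (h : ∀ i, ‖t i‖ ≤ C) {a : R → ℤ} (ha : 0 ≤ a) :
    ‖∏ i, t i ^ a i‖ ≤ ∏ i, C ^ a i := by
  simp only [norm_prod, norm_zpow]
  exact Finset.prod_le_prod (fun _ _ => zpow_nonneg (norm_nonneg _) _) fun i _ =>
    zpow_le_zpow_left₀ (ha i) (norm_nonneg _) (h i)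

section proj

variable (h : T.Tg) {r : ℕ} {a : Fin (r + 1) → R → ℤ} {θ : Option R → ℤ}
include h

theorem Tg.proj_inv : (T.proj a θ).Inv := by
  refine ⟨fun q α b o => ?_, fun _ _ _ _ _ => nofun, (h.openU.preimage (f := fun z : _ × (_ → ℂ) =>
    (z.1, z.2 ∘ Sum.inl)) (by fun_prop)).inter (isOpen_compl_singleton.preimage
    (f := fun z : _ × (_ → ℂ) => z.2 ∘ Sum.inr) (by fun_prop)), fun ⟨s, t⟩ b z d => ?_,
    isClosed_univ, fun _ _ _ _ => trivial, fun _ _ _ _ _ => trivial, empty_disjoint _,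
    isClosed_univ.isLocallyClosed, fun _ _ _ _ => trivial⟩
  · obtain ⟨α, c, rfl⟩ := mem_supp_inl b
    rw [sum_mapDomain_inl]
    cases o <;> simp [proj, h.hom q α c]
  · obtain rfl : s = 1 := Subsingleton.elim _ _
    have b := (Prod.isUnit_iff.1 b).2
    exact ⟨(proj_inl T a θ t z).symm ▸ h.invU _ (Prod.isUnit_iff.2 ⟨isUnit_one, isUnit_some b⟩) _
      d.1, proj_ne _ _ _ b d.2⟩

theorem Tg.proj_proper (ha : ∀ l, 0 ≤ a l) (t : ℕ → Option R → ℂ) (z z') (b : ∀ n, IsUnit (t n))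
    (d : z ∈ (T.proj a θ).cone) (d' : z' ∈ (T.proj a θ).cone) (y : ℕ → J ⊕ Fin (r + 1) → ℂ)
    (e : Tendsto y atTop (𝓝 z.2)) (H : ∀ j, (∀ i, 0 ≤ (T.proj a θ).w j i) → Tendsto
      (fun n => ((T.proj a θ).actT (1, t n) (z.1, y n)).2 j) atTop (𝓝 (z'.2 j))) :
    ∃ C : ℝ, ∀ᶠ n in atTop, ∀ i, ‖t n i‖ ≤ C ∧ ‖(t n i)⁻¹‖ ≤ C := by
  rw [h.pl.mem_proj] at d d'
  obtain ⟨C, f⟩ := h.proper _ _ _ (fun n => isUnit_some (b n)) d.1 d'.1 (fun n => y n ∘ .inl)
    (tendsto_pi_nhds.2 fun j => tendsto_pi_nhds.1 e _) fun j g =>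
      (H (.inl j) (Option.rec le_rfl g)).congr fun n =>
        congrFun (congrArg Prod.snd (proj_inl T a θ _ _)) j
  have H := fun l => (H (.inr l) (Option.rec zero_le_one (ha l))).congr fun n =>
    proj_inr T a θ (t n) (z.1, y n) l
  have e := fun l => tendsto_pi_nhds.1 e (.inr l)
  obtain ⟨l, g : z.2 _ ≠ 0⟩ := ne_iff.1 d.2
  obtain ⟨l', g' : z'.2 _ ≠ 0⟩ := ne_iff.1 d'.2
  have u := fun n l => prod_zpow_ne (fun i => isUnit_pi_iff.1 (b n) (some i)) (a l)
  obtain ⟨C₁, f₁⟩ := ((H l).div (e l) g).norm.isBoundedUnder_le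
  obtain ⟨C₂, f₂⟩ := ((e l').div (H l') g').norm.isBoundedUnder_le
  refine ⟨max C (max (C₁ * ∏ i, C ^ a l i) (C₂ * ∏ i, C ^ a l' i)), ?_⟩
  filter_upwards [f, eventually_map.1 f₁, eventually_map.1 f₂, (e l).eventually_ne g,
    (H l').eventually_ne g'] with n f f₁ f₂ g g'
  refine Option.rec ⟨le_max_of_le_right (le_max_of_le_left (le_of_eq_of_le ?_ (mul_le_mul f₁
    (norm_zpow_le (fun i => (f i).2) (ha l)) (norm_nonneg _) ((norm_nonneg _).trans f₁)))),
    le_max_of_le_right (le_max_of_le_right (le_of_eq_of_le ?_ (mul_le_mul f₂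
    (norm_zpow_le (fun i => (f i).1) (ha l')) (norm_nonneg _) ((norm_nonneg _).trans f₂))))⟩
    fun i => ⟨le_max_of_le_left (f i).1, le_max_of_le_left (f i).2⟩
  all_goals
    rw [← norm_mul]
    simp only [inv_zpow, Finset.prod_inv_distrib, Pi.div_apply, comp_apply]
    have := u n l
    have := u n l'
    have := right_ne_zero_of_mul (right_ne_zero_of_mul g')
    field_simp

theorem Tg.proj_cpt : ∃ C ⊆ (T.proj a θ).cone, IsCompact C ∧ ∀ z ∈ (T.proj a θ).cone,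
    ∃ t, IsUnit t ∧ (T.proj a θ).actT (1, t) z ∈ C := by
  obtain ⟨C, b, d, e⟩ := h.cpt univ h.B.ge isCompact_univ
  refine ⟨(fun z => (z.1.1, Sum.elim z.1.2 z.2)) '' C ×ˢ Metric.sphere 0 1,
    forall_mem_image.2 fun z f => h.pl.mem_proj.2
      ⟨b f.1, fun k => by simpa [show z.2 = 0 from k] using f.2⟩,
    (d.prod (isCompact_sphere _ _)).image (continuous_fst.fst.prodMk (continuous_pi (Sum.rec
      (fun _ => by dsimp only [Sum.elim_inl]; fun_prop) fun _ => by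
        dsimp only [Sum.elim_inr]; fun_prop))), fun z f => ?_⟩
  rw [h.pl.mem_proj] at f
  obtain ⟨t, g, e⟩ := e _ f.1 trivial
  let v l := (∏ i, t i ^ a l i) * z.2 (.inr l)
  have o : ‖v‖ ≠ 0 := norm_ne_zero_iff.2 fun k => f.2 (funext fun l =>
    (mul_eq_zero.1 (congrFun k l)).resolve_left (prod_zpow_ne (isUnit_pi_iff.1 g) _))
  refine ⟨_, isUnit_elim (c := (‖v‖⁻¹ : ℝ)) (by simpa using o) g, (_, ((‖v‖⁻¹ : ℝ) : ℂ) • v),
    ⟨e, by simp [norm_smul, inv_mul_cancel₀ o]⟩, Prod.ext (Subsingleton.elim _ _) (funext ?_)⟩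
  rintro (j | l)
  · simp [Wt.actT, proj]
  · simp [proj_inr, v]

theorem Tg.proj_amp : ∃ θ₀, (T.proj a (3 • θ₀)).Ample θ₀ 1 := by
  classical
  obtain ⟨θ, N, k⟩ := h.ample
  obtain ⟨n, k⟩ := (eventually_all.2 fun l => (eventually_all_finite (finite_Icc (-1) 1)).2
    fun (ε : Option R → ℤ) _ => k.ev (ε ∘ some - (1 + ε none) • a l)).exists
  refine ⟨fun o => o.elim 1 (n • N • θ), rfl, one_pos, fun u b z d => ?_⟩
  rw [h.pl.mem_proj] at d
  obtain ⟨l, g⟩ := ne_iff.1 d.2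
  obtain ⟨ε, f, rfl⟩ : ∃ ε ∈ Icc (-1) 1, u = (fun o : Option R => o.elim 1 (n • N • θ)) + ε := by
    rw [one_smul] at b
    rcases b with rfl | ⟨i, rfl | rfl⟩
    exacts [⟨0, by simp, by simp⟩, ⟨_, by
      constructor <;> intro j <;> by_cases e : j = i <;> simp [e], rfl⟩, ⟨_, by
      constructor <;> intro j <;> by_cases e : j = i <;> simp [e], sub_eq_add_neg _ _⟩]
  obtain ⟨α, e, e'⟩ := k l ε f _ d.1
  have o : 0 ≤ 1 + ε none := by linarith [show -1 ≤ ε none from f.1 none]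
  refine ⟨Sum.elim α (Pi.single l (1 + ε none).toNat), fun i => ?_, ?_⟩
  · cases i <;> simp [proj, Pi.single_apply, e, o, add_assoc]
  · rw [Fintype.prod_sum_type]
    refine mul_ne_zero e' (Finset.prod_ne_zero_iff.2 fun j _ => ?_)
    by_cases e : j = l
    · exact pow_ne_zero _ (e ▸ g)
    · simp [e]

end proj

/-- projective bundles of sums of nef line bundles -/
theorem Tg.exists_proj (h : T.Tg) {r : ℕ} {a : Fin (r + 1) → R → ℤ} (ha : ∀ l, 0 ≤ a l) :
    ∃ θ, (T.proj a θ).Tg := by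
  obtain ⟨θ, k⟩ := h.proj_amp (a := a)
  refine ⟨_, PA.proj_tg h ⟨h.proj_inv, fun q e => h.deg q ?_,
    fun _ _ _ _ _ => Subsingleton.elim _ _, fun _ _ _ _ _ _ _ _ _ _ => ⟨0, fun _ => nofun⟩,
    fun t b z d e => ?_, h.proj_proper ha, fun _ _ _ => h.proj_cpt.imp fun _ b =>
      ⟨b.1, b.2.1, fun z d _ => b.2.2 z d⟩, ⟨_, _, k⟩, univ_nonempty⟩⟩
  · rw [rename_injective _ Sum.inl_injective ((totalDegree_eq_zero_iff_eq_C.1 e).trans
      (rename_C _ _).symm), totalDegree_C]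
  · rw [h.pl.mem_proj] at d
    have f := congrFun (h.free _ (isUnit_some b) _ d.1 (by rw [← proj_inl, e]))
    obtain ⟨l, g⟩ := ne_iff.1 d.2
    have := proj_inr T a (3 • θ) t z l
    simp only [e, show ∀ i, t (some i) = 1 from f, one_zpow, Finset.prod_const_one, one_mul] at this
    exact funext (Option.rec (mul_right_cancel₀ g (this.symm.trans (one_mul _).symm)) f)

end Vale.Agent.P269.Fam
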