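import Vale.Agent.P269.Br.All
import Vale.Agent.P269.Asm.Lin
import Vale.Agent.P269.Asm.Prj
import Vale.Agent.P269.PA.Main
import Vale.Agent.P269.PA.Coh
import Vale.Agent.P269.B.Step
import Vale.Agent.P269.LG.Main
import Vale.Agent.P269.Qrr.Main
import Vale.Agent.P269.WK.Dil
import Vale.Agent.P269.WK.PrS
import Vale.Agent.P269.WK.Geo
import Vale.Agent.P269.Map.PresE
import Vale.Agent.P269.Bas.Ok
import Vale.Agent.P269.Bas.Norm
import Vale.Agent.P269.Bas.Num
import Vale.Agent.P269.Bas.Rel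
import Vale.Agent.P269.Glu.Cas
import Vale.Agent.P269.Prj.Geo
import Vale.Agent.P269.Kit.Smo

/-!
# The theorem from the geometric inputs
-/

namespace Vale.Agent.P269.St

theorem thr_of (h : ThreeT) : Three := fun F k hF hk m₁ m₂ m₃ a b c =>
  haveI := hF.toGood.fp
  (F.cor_ofFnP k (fun _ _ m => m.Conn) 1 0 (-1) ![(m₁, a), (m₂, b), (m₃, c)]).trans
    ((h F k 1 (fun j => ⟨_, Wt.lc_mem 0 (F.w j)⟩) (hF.one hF.nice hk) (fun _ => rfl) _).trans
      (if_congr (by simp [Fin.forall_fin_succ]) (by simp) rfl))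

theorem spec_of (hW : Well) : Spec := spec (cor hW (rel dg))

theorem kit_of (hW : Well) (hZ : PresZ) (hN : Node) (hG : G1) (hE : E0) (hT : Triv) : Kit :=
  ⟨spec_of hW, res, selC, okA (spec_of hW) supp par, okR (spec_of hW) supp par, cas, hN, hG, hE,
    pres_of hZ, hT⟩

variable (hW : Well) (hZ : PresZ) (hQ : QC) (hU : UcP) (hN : NdQ) (hI : UnQ) (hL : LocG)
include hW hZ hQ hU hN hI hL

theorem proj_all : Proj :=
  proj_of B.stepB (qrr_of hQ hU hN hI facQ hW (spec_of hW) cas) (loc_of hL)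
    (prjCoh_of prjLH (spec_of hW) selC) (spec_of hW) selC supp par norm res (pres_of hZ) presH

/-- **The theorem from the geometric inputs.** -/
theorem main_all (hF : FbD) (hM : PrQ) (hD : Div) (hT : ThreeT) (hV : VDP) : Main :=
  main_of vEmpty
    (vPoint_of (loc_of hL) (spec_of hW) norm res (pres_of hZ) hW (dil_of hU hW hF)
      (prodT_of hM (add hW) (spec_of hW)) hI)
    (vProj (proj_all hW hZ hQ hU hN hI hL) prjLH (pres_of hZ) selC presH)
    (vLin (pres_of hZ) selC presH) hV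
    (bridge' hW (pres_of hZ) (brHy (cor hW (rel dg)) par (add hW)
      (prod_of (prodT_of hM (add hW) (spec_of hW))) hD (thr_of hT) norm))

end Vale.Agent.P269.St
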