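import Vale.Agent.P269.Asm.DPreA
import Vale.Agent.P269.Asm.PresT

/-!
# The double point degeneration
-/

set_option linter.unusedSectionVars false

namespace Vale.Agent.P269.Flag

open P291Z Set Topology Filter MvPolynomial
open Function hiding eval

variable {J K : Type} [Fintype J] [Fintype K] {f : Flag J K} (h : f.Ok) {Ω : Set ℂ} {t : ℂ}

namespace DP

variable {R₀ J₀ K₀ : Type} [Fintype R₀] [Fintype J₀] [Fintype K₀]

theorem ci_pl (F : K₀ → MvPolynomial J₀ ℂ) (d : K₀ → ℕ) : (ciF F d).Pl := ⟨rfl, rfl, rfl, rfl⟩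

theorem hom_ci {F : K₀ → MvPolynomial J₀ ℂ} {d : K₀ → ℕ} {q : MvPolynomial J₀ ℂ} {n : ℕ}
    (hq : q.IsHomogeneous n) {c : Unit → ℤ} (e : (n : ℤ) = c ()) :
    ∀ α ∈ q.support, ∀ r, ∑ j, α j * (ciF F d).w j r = c r := fun α hα _ => by
  rw [← e, ← sum_eq_of_hom hq hα]
  exact Finset.sum_congr rfl fun _ _ => mul_one _

theorem hom_X {R σ : Type} [Fintype σ] {w : σ → R → ℤ} {j : σ} {c : R → ℤ} (e : ∀ r, w j r = c r) :
    ∀ α ∈ (X j : MvPolynomial σ ℂ).support, ∀ r, ∑ i, α i * w i r = c r :=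
  wh (funext e ▸ isWeightedHomogeneous_X ℂ w j)

theorem cone_iff {T : Fam Empty Empty R₀ J₀ K₀} {A : Set (J ⊕ Fin 4 → ℂ)}
    {σ : J ⊕ Fin 4 → MvPolynomial J₀ ℂ} (hA : A ⊆ (f.pD Ω).cone)
    (inv : ∀ τ, IsUnit τ → ∀ x b z z' e, pt x b z z' e ∈ A → (f.pD Ω).act τ (pt x b z z' e) ∈ A)
    (h1 : ∀ z ∈ T.cone, (fun j => eval z.2 (σ j)) ∈ A)
    (h2 : ∀ x b z z' e, pt x b z z' e ∈ A → ∃ η, η ≠ 0 ∧ ∃ w, (Empty.elim, w) ∈ T.cone ∧
      pt x b z z' e = (f.pD Ω).act (fun o => o.elim η fun _ => 1) fun j => eval w (σ j)) (y) :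
    y ∈ ((f.pD Ω).lev A).cone ↔ ∃ τ, IsUnit τ ∧ ∃ z ∈ T.cone,
      y.2 = (((f.pD Ω).lev A).actT (1, τ) (z.1, fun j => eval z.2 (σ j))).2 := by
  have e : ∀ τ l u, (((f.pD Ω).lev A).actT (1, τ) (l, u)).2 = (f.pD Ω).act τ u := fun τ l u =>
    funext fun j => by simp [Wt.actT, Tgt.act, Tgt.fam]
  simp only [e, Fam.mem_lev hA]
  constructor
  · intro a
    obtain ⟨x, b, z, z', e, k⟩ := exists_pt y.2
    obtain ⟨η, h0, w, hw, k'⟩ := h2 x b z z' e (k ▸ a)
    exact ⟨_, isUnit_pi_iff.2 fun o => by cases o; exacts [h0, one_ne_zero], _, hw, k ▸ k'⟩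
  · rintro ⟨τ, hτ, w, hw, k⟩
    obtain ⟨x, b, z, z', e, k'⟩ := exists_pt fun j => eval w.2 (σ j)
    rw [k, ← k']
    exact inv τ hτ x b z z' e (k' ▸ h1 w hw)

theorem ev_X (w : Option J → ℂ) : (fun j => eval w (f.σX t j)) =
    pt (w ∘ some) (w none) 1 t (t ^ f.a * w none ^ f.a + eval (w ∘ some) f.G) := funext fun j => by
  rcases j with j | j
  · simp [σX]
  · fin_cases j <;> simp [σX, eval_rename]

theorem ev_Y (w : Option J → ℂ) :
    (fun j => eval w (f.σY j)) = pt (w ∘ some) 1 0 (w none) (eval (w ∘ some) f.F) :=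
  funext fun j => by
    rcases j with j | j
    · simp [σY]
    · fin_cases j <;> simp [σY, eval_rename]

theorem ev_D (w : J → ℂ) : (fun j => eval w (f.σD j)) = pt w 1 0 0 (eval w f.F) :=
  funext fun j => by
    rcases j with j | j
    · simp [σD]
    · fin_cases j <;> simp [σD]

theorem ev_B (w : J ⊕ Fin 3 → ℂ) : (fun j => eval w (σB j)) =
    pt (w ∘ .inl) (w (.inr 0)) (w (.inr 1)) 0 (w (.inr 2)) := funext fun j => by
  rcases j with j | j
  · simp [σB]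
  · fin_cases j <;> simp [σB]

theorem mem_X {l} {w : Option J → ℂ} : (l, w) ∈ (f.tX t).cone ↔ w ≠ 0 ∧
    eval (w ∘ some) f.F = w none * (t ^ f.a * w none ^ f.a + eval (w ∘ some) f.G) ∧
      ∀ k, eval (w ∘ some) (f.H k) = 0 := by
  simp [mem_ciF, mem_ciK, Option.forall, eX, eval_rename, sub_eq_zero]

theorem mem_Y {l} {w : Option J → ℂ} : (l, w) ∈ f.tY.cone ↔ w ≠ 0 ∧
    w none ^ f.a + eval (w ∘ some) f.G = 0 ∧ ∀ k, eval (w ∘ some) (f.H k) = 0 := by
  simp [mem_ciF, mem_ciK, Option.forall, eY, eval_rename]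

theorem mem_D {l} {w : J → ℂ} :
    (l, w) ∈ f.tD.cone ↔ w ≠ 0 ∧ eval w f.G = 0 ∧ ∀ k, eval w (f.H k) = 0 := by
  simp [mem_ciF, mem_ciK, Option.forall, eD]

theorem mem_B {l} {w : J ⊕ Fin 3 → ℂ} : (l, w) ∈ f.tB.cone ↔
    (w ∘ .inl ≠ 0 ∧ (w (.inr 0) ≠ 0 ∨ w (.inr 1) ≠ 0)) ∧ (∀ k, eval (w ∘ .inl) (f.H k) = 0) ∧
      eval (w ∘ .inl) f.F = w (.inr 0) * w (.inr 2) ∧
      eval (w ∘ .inl) f.G = w (.inr 1) * w (.inr 2) := by
  simp [Fam.cone, Fam.fib, Tgt.cone, tB, Tgt.fam, map_eval_map_C, blT, eval_rename, sub_eq_zero]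

theorem elim_ne {x : J → ℂ} (hx : x ≠ 0) (b : ℂ) : (fun o : Option J => o.elim b x) ≠ 0 :=
  fun e => hx (funext fun j => congrFun e (some j))

theorem lat_inj (q : ℤ) (d : Unit → ℤ) (e : ∀ r', ∑ r, wv 1 q r' * d r = 0) : d = 0 :=
  funext fun _ => by simpa [wv] using e (some ())

include h

theorem lft_b {x : J → ℂ} {b z' e : ℂ} (a : pt x b 0 z' e ∈ (f.pD Ω).cone) : b ≠ 0 :=
  (mem_pt.1 a).1.2.resolve_right (not_not.2 rfl)

theorem zero_pow_a : (0 : ℂ) ^ f.a = 0 := zero_pow (Nat.one_le_iff_ne_zero.1 (a_pos h))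

end DP

open DP

theorem κ_pD (A) : ((f.pD Ω).lev A).κ₁ = wv (Fintype.card J - ∑ k, f.d k - f.a) 0 :=
  funext fun o => by
    cases o <;> simp [Fam.κ₁, Tgt.fam, pD, wv, Fin.sum_univ_four]
    ring

include h

theorem Ok.pres_X (h0 : t ≠ 0) : (f.tX t).Pres ((f.pD Ω).lev ((f.pD Ω).mem true t))
    (fun o => o.elim (.inr 0) .inl) ![.inr 1] (fun r _ => wv 1 0 r)
    fun j => MvPolynomial.map C (f.σX t j) := by
  refine (ci_pl _ _).pres (Fam.lev_pl _ _) ?_ ?_ ?_ ?_ (lat_inj 0)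
    (fun d e => ⟨fun _ => d (some ()), ?_⟩) (fun n => ⟨wv 0 (n 0), ?_⟩)
    (cone_iff (fun _ a => a.1) (fun τ hτ x b z z' e a => ⟨cone_act h hτ a.1, ?_⟩) (fun w hw => ?_)
      fun x b z z' e a => ?_)
  · rintro (_ | a) (_ | b) e <;> simp_all
  · rintro (_ | a) <;> rfl
  · exact Fin.forall_fin_one.2 rfl
  · rintro (j | j)
    · exact hom_ci (isHomogeneous_X _ _) (by simp [Tgt.fam, pD, wv])
    · fin_cases j
      · exact hom_ci (isHomogeneous_X _ _) (by simp [Tgt.fam, pD, wv])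
      · exact hom_ci (isHomogeneous_one _ _) (by simp [Tgt.fam, pD, wv])
      · exact hom_ci (isHomogeneous_C _ _) (by simp [Tgt.fam, pD, wv])
      · exact hom_ci ((isHomogeneous_C_mul_X_pow _ _ _).add (hG h).rename_isHomogeneous)
          (by simp [Tgt.fam, pD, wv])
  · have : d none = 0 := by simpa [Tgt.fam, pD, wv] using e 0
    exact funext fun o => by cases o <;> simp [wv, this]
  · exact Fin.forall_fin_one.2 (by simp [Tgt.fam, pD, wv])
  · rw [act_pt]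
    exact (mul_mul_mul_comm _ _ _ _).trans
      (by rw [mul_inv_cancel₀ (isUnit_pi_iff.1 hτ none), one_mul]; exact a.2)
  · obtain ⟨-, b, c⟩ := mem_X.1 hw
    rw [ev_X]
    exact ⟨mem_pt.2 ⟨⟨ne_zero_X h h0 (mem_ciF.1 hw), .inr one_ne_zero⟩, c, b,
      by rw [mul_pow, one_mul]⟩, one_mul t⟩
  · obtain ⟨⟨h1, -⟩, h3, h4, h5⟩ := mem_pt.1 a.1
    obtain rfl : z * z' = t := a.2
    have z0 := left_ne_zero_of_mul h0
    have k : (z * z') ^ f.a * (b / z) ^ f.a + eval x f.G = z * e := by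
      rw [← mul_pow, ← h5, show z * z' * (b / z) = z' * b by field_simp]
    refine ⟨z, z0, fun o => o.elim (b / z) x, mem_X.2 ⟨elim_ne h1 _, ?_, h3⟩, ?_⟩
    · exact h4.trans ((show b * e = b / z * (z * e) by field_simp).trans (congrArg _ k.symm))
    · rw [ev_X, act_pt]
      simp only [Option.elim, comp_def, k, one_smul, one_pow]
      congr 1 <;> field_simp

theorem Ok.pres_Y : f.tY.Pres ((f.pD Ω).lev (f.pD Ω).lft) (fun o => o.elim (.inr 2) .inl)
    ![.inr 0] (fun r _ => wv 1 (-1) r) fun j => MvPolynomial.map C (f.σY j) := by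
  refine (ci_pl _ _).pres (Fam.lev_pl _ _) ?_ ?_ ?_ ?_ (lat_inj (-1))
    (fun d e => ⟨fun _ => d (some ()), ?_⟩) (fun n => ⟨wv 0 (n 0), ?_⟩)
    (cone_iff (fun _ a => a.1) (fun τ hτ x b z z' e a => ⟨cone_act h hτ a.1, ?_⟩) (fun w hw => ?_)
      fun x b z z' e a => ?_)
  · rintro (_ | a) (_ | b) e <;> simp_all
  · rintro (_ | a) <;> rfl
  · exact Fin.forall_fin_one.2 rfl
  · rintro (j | j)
    · exact hom_ci (isHomogeneous_X _ _) (by simp [Tgt.fam, pD, wv])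
    · fin_cases j
      · exact hom_ci (isHomogeneous_one _ _) (by simp [Tgt.fam, pD, wv])
      · simp [σY]
      · exact hom_ci (isHomogeneous_X _ _) (by simp [Tgt.fam, pD, wv])
      · exact hom_ci (hF h).rename_isHomogeneous (by simp [Tgt.fam, pD, wv, add_comm])
  · have : d none + d (some ()) = 0 := by simpa [Tgt.fam, pD, wv] using e 0
    exact funext fun o => by cases o <;> simp [wv, eq_neg_of_add_eq_zero_left this]
  · exact Fin.forall_fin_one.2 (by simp [Tgt.fam, pD, wv])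
  · rw [act_pt]
    exact mul_eq_zero_of_right _ a.2
  · obtain ⟨-, b, c⟩ := mem_Y.1 hw
    rw [ev_Y]
    exact ⟨mem_pt.2 ⟨⟨ne_zero_Y h (mem_ciF.1 hw), .inl one_ne_zero⟩, c, (one_mul _).symm,
      by rw [mul_one, zero_mul, b]⟩, rfl⟩
  · obtain rfl : z = 0 := a.2
    obtain ⟨⟨h1, -⟩, h3, h4, h5⟩ := mem_pt.1 a.1
    have b0 := lft_b h a.1
    refine ⟨b, b0, fun o => o.elim (z' * b) x,
      mem_Y.2 ⟨elim_ne h1 _, h5.trans (zero_mul _), h3⟩, ?_⟩
    rw [ev_Y, act_pt]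
    simp only [Option.elim, comp_def, h4, one_smul, one_pow, mul_zero]
    congr 1 <;> field_simp

theorem Ok.ret_Y : (f.pD Ω).Ret (f.pD Ω).lft f.tY f.σY (fun _ => wv 1 0) rY := by
  refine ⟨?_, fun y a => ?_, ?_⟩
  · rintro (_ | j)
    · refine wh (c := fun i => ∑ i₀, f.tY.w none i₀ * wv 1 0 i) ?_
      rw [show (fun i => ∑ i₀, f.tY.w none i₀ * wv 1 0 i) =
        (f.pD Ω).w (.inr 2) + (f.pD Ω).w (.inr 0) from
        funext fun o => by cases o <;> simp [ciF, ciK, Tgt.fam, pD, wv]]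
      exact (isWeightedHomogeneous_X ℂ _ _).mul (isWeightedHomogeneous_X ℂ _ _)
    · exact hom_X fun r => by simp [ciF, ciK, Tgt.fam, pD]
  · obtain ⟨x, b, z, z', e, rfl⟩ := exists_pt y
    obtain rfl : z = 0 := a.2
    obtain ⟨⟨h1, -⟩, h3, -, h5⟩ := mem_pt.1 a.1
    rw [show (fun j₀ => eval (pt x b 0 z' e) (rY j₀)) = fun o => o.elim (z' * b) x from
      funext fun o => by cases o <;> simp [rY]]
    exact mem_Y.2 ⟨elim_ne h1 _, h5.trans (zero_mul _), h3⟩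
  · rintro (_ | j) <;> simp [rY, σY]

theorem Ok.pres_D : f.tD.Pres ((f.pD Ω).lev (f.pD Ω).dvs) .inl ![.inr 0] (fun r _ => wv 1 (-1) r)
    fun j => MvPolynomial.map C (f.σD j) := by
  refine (ci_pl _ _).pres (Fam.lev_pl _ _) Sum.inl_injective (fun _ => rfl) ?_ ?_ (lat_inj (-1))
    (fun d e => ⟨fun _ => d (some ()), ?_⟩) (fun n => ⟨wv 0 (n 0), ?_⟩)
    (cone_iff (fun _ a => a.1) (fun τ hτ x b z z' e a => ⟨cone_act h hτ a.1, ?_⟩) (fun w hw => ?_)
      fun x b z z' e a => ?_)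
  · exact Fin.forall_fin_one.2 rfl
  · rintro (j | j)
    · exact hom_ci (isHomogeneous_X _ _) (by simp [Tgt.fam, pD, wv])
    · fin_cases j
      · exact hom_ci (isHomogeneous_one _ _) (by simp [Tgt.fam, pD, wv])
      · simp [σD]
      · simp [σD]
      · exact hom_ci (hF h) (by simp [Tgt.fam, pD, wv, add_comm])
  · have : d none + d (some ()) = 0 := by simpa [Tgt.fam, pD, wv] using e 0
    exact funext fun o => by cases o <;> simp [wv, eq_neg_of_add_eq_zero_left this]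
  · exact Fin.forall_fin_one.2 (by simp [Tgt.fam, pD, wv])
  · rw [act_pt]
    exact ⟨mul_eq_zero_of_right _ a.2.1, mul_eq_zero_of_right _ a.2.2⟩
  · obtain ⟨a, b, c⟩ := mem_D.1 hw
    rw [ev_D]
    exact ⟨mem_pt.2 ⟨⟨a, .inl one_ne_zero⟩, c, (one_mul _).symm,
      by rw [zero_mul, zero_mul, b, zero_pow_a h, add_zero]⟩, rfl, rfl⟩
  · obtain rfl : z = 0 := a.2.1
    obtain rfl : z' = 0 := a.2.2
    obtain ⟨⟨h1, -⟩, h3, h4, h5⟩ := mem_pt.1 a.1
    have b0 := lft_b h a.1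
    rw [zero_mul, zero_mul, zero_pow_a h, zero_add] at h5
    refine ⟨b, b0, x, mem_D.2 ⟨h1, h5, h3⟩, ?_⟩
    rw [ev_D, act_pt]
    simp only [Option.elim, h4, one_smul, one_pow, mul_zero]
    congr 1 <;> field_simp

theorem Ok.ret_D : (f.pD Ω).Ret (f.pD Ω).dvs f.tD f.σD (fun _ => wv 1 0) (X ∘ .inl) := by
  refine ⟨fun j => hom_X fun r => by simp [ciF, ciK, Tgt.fam, pD], fun y a => ?_,
    fun j => aeval_X _ _⟩
  obtain ⟨x, b, z, z', e, rfl⟩ := exists_pt y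
  obtain rfl : z = 0 := a.2.1
  obtain rfl : z' = 0 := a.2.2
  obtain ⟨⟨h1, -⟩, h3, -, h5⟩ := mem_pt.1 a.1
  rw [zero_mul, zero_mul, zero_pow_a h, zero_add] at h5
  simp only [comp_apply, eval_X, pt_inl]
  exact mem_D.2 ⟨h1, h5, h3⟩

theorem Ok.pres_B : f.tB.Pres ((f.pD Ω).lev ((f.pD Ω).mem false t)) φB Empty.elim f.mB
    fun j => MvPolynomial.map C (σB j) := by
  refine Fam.Pl.pres ⟨rfl, rfl, rfl, rfl⟩ (Fam.lev_pl _ _) ?_ ?_ nofun ?_ (fun d e => ?_)
    (fun d _ => ⟨wv (d none - (f.a - 1) * d (some ())) (f.a * d (some ()) - d none), ?_⟩)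
    (fun _ => ⟨0, nofun⟩)
    (cone_iff (fun _ a => a.1) (fun τ hτ x b z z' e a => ⟨cone_act h hτ a.1, ?_⟩) (fun w hw => ?_)
      fun x b z z' e a => ?_)
  · exact injective_id.sumMap (by decide)
  · rintro (j | j)
    · rfl
    · fin_cases j <;> rfl
  · rintro (j | j)
    · exact hom_X fun r => by simp [tB, blT, Tgt.fam, pD, wv, mB]
    · fin_cases j
      · exact hom_X fun r => by cases r <;> simp [tB, blT, Tgt.fam, pD, wv, mB]
      · exact hom_X fun r => by simp [tB, blT, Tgt.fam, pD, wv, mB]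
      · simp [σB]
      · exact hom_X fun r => by cases r <;> simp [tB, blT, Tgt.fam, pD, wv, mB]
  · have a := e none
    have b := e (some ())
    simp only [mB, wv, Option.elim, Fintype.sum_option, Fintype.sum_unique] at a b
    have c : d none = 0 := by linear_combination (f.a : ℤ) * b - a
    exact funext fun o => by
      cases o
      exacts [c, by simpa [c] using b]
  · exact funext fun o => by
      rcases o with _ | ⟨⟨⟩⟩ <;> simp only [mB, wv, Option.elim, Fintype.sum_option,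
        Fintype.sum_unique] <;> ring
  · rw [act_pt]
    exact mul_eq_zero_of_right _ a.2
  · obtain ⟨a, b, c, d⟩ := mem_B.1 hw
    rw [ev_B]
    exact ⟨mem_pt.2 ⟨a, b, c, by rw [zero_mul, zero_pow_a h, zero_add, d]⟩, rfl⟩
  · obtain rfl : z' = 0 := a.2
    obtain ⟨h1, h3, h4, h5⟩ := mem_pt.1 a.1
    rw [zero_mul, zero_pow_a h, zero_add] at h5
    refine ⟨1, one_ne_zero, Sum.elim x ![b, z, e], mem_B.2 ⟨h1, h3, h4, h5⟩, ?_⟩
    rw [ev_B, act_pt]
    simp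

theorem Ok.ret_B : (f.pD Ω).Ret ((f.pD Ω).mem false t) f.tB σB
    (fun o => o.elim (wv f.a (-1)) fun _ => wv (1 - f.a) 1) (X ∘ φB) := by
  refine ⟨?_, fun y a => ?_, ?_⟩
  · rintro (j | j)
    · exact hom_X fun r => by cases r <;> simp [tB, blT, Tgt.fam, pD, wv, φB]
    · fin_cases j <;> exact hom_X fun r => by
        cases r <;> simp [tB, blT, Tgt.fam, pD, wv, φB] <;> ring
  · obtain ⟨x, b, z, z', e, rfl⟩ := exists_pt y
    obtain rfl : z' = 0 := a.2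
    obtain ⟨h1, h3, h4, h5⟩ := mem_pt.1 a.1
    rw [zero_mul, zero_pow_a h, zero_add] at h5
    simp only [comp_apply, eval_X]
    exact mem_B.2 ⟨h1, h3, h4, h5⟩
  · rintro (j | j)
    · exact aeval_X _ _
    · fin_cases j <;> exact aeval_X _ _

end Vale.Agent.P269.Flag
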