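import Vale.Agent.P269.Asm.DE
import Vale.Agent.P269.Asm.Ci

/-!
# The double point degeneration: the standing hypotheses and the smooth members
-/

set_option linter.unusedSectionVars false

namespace Vale.Agent.P269.Flag

open P291Z Set Topology Filter MvPolynomial
open Function hiding eval

variable {J K : Type} [Fintype J] [Fintype K] {f : Flag J K} (h : f.Ok) {Ω : Set ℂ} {t : ℂ}

namespace DP

section gen

variable {σ R : Type} [Fintype σ] {p : MvPolynomial J ℂ} {n : ℕ}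

theorem ev_smul (hp : p.IsHomogeneous n) (s : ℂ) (x : J → ℂ) :
    eval (s • x) p = s ^ n * eval x p := by
  rw [eval_eq', eval_eq', Finset.mul_sum]
  refine Finset.sum_congr rfl fun α hα => ?_
  have := hp (mem_support_iff.1 hα)
  rw [Finsupp.weight_apply, Finsupp.sum_fintype _ _ (by simp)] at this
  simp only [Pi.one_apply, smul_eq_mul, mul_one] at this
  simp only [Pi.smul_apply, smul_eq_mul, mul_pow, Finset.prod_mul_distrib,
    Finset.prod_pow_eq_pow_sum, this]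
  ring

theorem ev_zero (hp : p.IsHomogeneous n) (hn : 1 ≤ n) : eval 0 p = 0 := by
  have := ev_smul hp 0 0
  rwa [zero_smul, zero_pow (by omega), zero_mul] at this

theorem cc_zero (hp : p.IsHomogeneous n) (hn : 1 ≤ n) : constantCoeff p = 0 := by
  rw [← eval_zero, ev_zero hp hn]

theorem dv_smul (hp : p.IsHomogeneous n) (hn : 1 ≤ n) (s : ℂ) (x : J → ℂ) (j : J) :
    s * eval (s • x) (pderiv j p) = s ^ n * eval x (pderiv j p) := by
  rw [ev_smul hp.pderiv, ← mul_assoc, ← pow_succ', Nat.sub_add_cancel hn]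

theorem wh {w : σ → R → ℤ} {q : MvPolynomial σ ℂ} {c : R → ℤ} (h : IsWeightedHomogeneous w q c) :
    ∀ α ∈ q.support, ∀ i, ∑ j, α j * w j i = c i := fun α hα i => by
  rw [← h (mem_support_iff.1 hα), Finsupp.weight_apply, Finsupp.sum_fintype _ _ (by simp)]
  simp

theorem wh_rename {w : σ → R → ℤ} {φ : J → σ} {v : R → ℤ} (hw : ∀ j, w (φ j) = v)
    (hp : p.IsHomogeneous n) : IsWeightedHomogeneous w (rename φ p) (n • v) := fun α hα => by
  obtain ⟨u, rfl, hu⟩ := coeff_rename_ne_zero _ _ _ hα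
  rw [← hp hu, Finsupp.weight_apply, Finsupp.weight_apply,
    Finsupp.sum_mapDomain_index (by simp) (by simp [add_smul]), Finsupp.sum, Finsupp.sum,
    Finset.sum_smul]
  simp [hw]

theorem pderiv_rename_zero {φ : J → σ} {i : σ} (hi : ∀ j, φ j ≠ i) (p : MvPolynomial J ℂ) :
    pderiv i (rename φ p) = 0 := by
  classical
  refine pderiv_eq_zero_of_notMem_vars fun a => ?_
  obtain ⟨j, -, e⟩ := mem_vars_rename _ _ a
  exact hi j e

theorem deg_ne {q : MvPolynomial σ ℂ} {x y : σ → ℂ} (h : eval x q ≠ eval y q) :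
    q.totalDegree ≠ 0 := fun e => h (by rw [totalDegree_eq_zero_iff_eq_C.1 e, eval_C, eval_C])

/-- surjectivity in the directions other than `z`, `z'`, in dual form -/
theorem surj_iff (A : K → σ → ℂ) (z z' : σ) :
    (∀ c : K → ℂ, ∃ v : σ → ℂ, v z = 0 ∧ v z' = 0 ∧ ∀ k, ∑ j, A k j * v j = c k) ↔
      ∀ g : K → ℂ, (∀ j, j ≠ z → j ≠ z' → ∑ k, g k * A k j = 0) → ∀ k, g k = 0 := by
  classical
  have e := (li_iff_surj fun k j => if j = z ∨ j = z' then 0 else A k j).symm.trans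
    Fintype.linearIndependent_iff
  refine Iff.trans (forall_congr' fun c => ⟨?_, ?_⟩) (e.trans
    (forall_congr' fun g => imp_congr_left ⟨fun a j b d => ?_, fun a => funext fun j => ?_⟩))
  · rintro ⟨v, a, b, d⟩
    refine ⟨v, fun k => (Finset.sum_congr rfl fun j _ => ?_).trans (d k)⟩
    split_ifs with i
    · rcases i with rfl | rfl <;> simp [a, b]
    · rfl
  · rintro ⟨v, d⟩
    refine ⟨fun j => if j = z ∨ j = z' then 0 else v j, by simp, by simp,
      fun k => (Finset.sum_congr rfl fun j _ => ?_).trans (d k)⟩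
    by_cases i : j = z ∨ j = z' <;> simp [i]
  · simpa [b, d] using congrFun a j
  · by_cases i : j = z ∨ j = z'
    · simp [i]
    · simpa [i] using a j (fun b => i (.inl b)) fun b => i (.inr b)

end gen

/-- The point with coordinates `x, y₀, z, z', e`. -/
def pt (x : J → ℂ) (b z z' e : ℂ) : J ⊕ Fin 4 → ℂ := Sum.elim x ![b, z, z', e]

variable {x : J → ℂ} {b z z' e : ℂ}

@[simp] theorem pt_inl (j : J) : pt x b z z' e (.inl j) = x j := rfl

@[simp] theorem pt_comp : pt x b z z' e ∘ .inl = x := rfl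

@[simp] theorem pt_0 : pt x b z z' e (.inr 0) = b := rfl

@[simp] theorem pt_1 : pt x b z z' e (.inr 1) = z := rfl

@[simp] theorem pt_2 : pt x b z z' e (.inr 2) = z' := rfl

@[simp] theorem pt_3 : pt x b z z' e (.inr 3) = e := rfl

theorem exists_pt (y : J ⊕ Fin 4 → ℂ) : ∃ x b z z' e, pt x b z z' e = y :=
  ⟨y ∘ .inl, y (.inr 0), y (.inr 1), y (.inr 2), y (.inr 3), funext fun j => by
    rcases j with j | j
    · rfl
    · fin_cases j <;> rfl⟩

theorem mem_cone {y : J ⊕ Fin 4 → ℂ} : y ∈ (f.pD Ω).cone ↔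
    (y ∘ .inl ≠ 0 ∧ (y (.inr 0) ≠ 0 ∨ y (.inr 1) ≠ 0)) ∧ (∀ k, eval (y ∘ .inl) (f.H k) = 0) ∧
      eval (y ∘ .inl) f.F = y (.inr 0) * y (.inr 3) ∧
      (y (.inr 2) * y (.inr 0)) ^ f.a + eval (y ∘ .inl) f.G = y (.inr 1) * y (.inr 3) := by
  simp [Tgt.cone, pD, eval_rename, sub_eq_zero]

theorem mem_pt : pt x b z z' e ∈ (f.pD Ω).cone ↔ (x ≠ 0 ∧ (b ≠ 0 ∨ z ≠ 0)) ∧
    (∀ k, eval x (f.H k) = 0) ∧ eval x f.F = b * e ∧ (z' * b) ^ f.a + eval x f.G = z * e :=
  mem_cone

theorem act_pt (τ : Option Unit → ℂ) : (f.pD Ω).act τ (pt x b z z' e) =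
    pt (τ (some ()) • x) (τ (some ()) * τ none * b) (τ none * z) ((τ none)⁻¹ * z')
      (τ (some ()) ^ f.a * (τ none)⁻¹ * e) := funext fun j => by
  rcases j with j | j
  · simp [Tgt.act, pD, wv]
  · fin_cases j <;> simp [Tgt.act, pD, wv, mul_comm]

include h

theorem a_pos : 1 ≤ f.a := h.D.pos none

theorem hG : f.G.IsHomogeneous f.a := h.D.hom none

theorem hF : f.F.IsHomogeneous (f.a + 1) := h.Z.hom none

theorem cone_act {τ : Option Unit → ℂ} (hτ : IsUnit τ) {y : J ⊕ Fin 4 → ℂ}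
    (hy : y ∈ (f.pD Ω).cone) : (f.pD Ω).act τ y ∈ (f.pD Ω).cone := by
  obtain ⟨x, b, z, z', e, rfl⟩ := exists_pt y
  obtain ⟨⟨h1, h2⟩, h3, h4, h5⟩ := mem_pt.1 hy
  have a := isUnit_pi_iff.1 hτ (some ())
  have c := isUnit_pi_iff.1 hτ none
  rw [act_pt, mem_pt, ev_smul (hF h), ev_smul (hG h), h4, eq_sub_of_add_eq' h5,
    show (τ none)⁻¹ * z' * (τ (some ()) * τ none * b) = τ (some ()) * (z' * b) by field_simp,
    mul_pow]
  refine ⟨⟨smul_ne_zero a h1, h2.imp (mul_ne_zero (mul_ne_zero a c)) (mul_ne_zero c)⟩,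
    fun k => by rw [ev_smul (h.W.hom k), h3, mul_zero], by field_simp; ring, by field_simp; ring⟩

omit h in
variable (f) in
/-- A linear relation between the differentials. -/
def Rel (x : J → ℂ) (c : K → ℂ) (p q : ℂ) : Prop := ∀ j,
  ∑ k, c k * eval x (pderiv j (f.H k)) + p * eval x (pderiv j f.F) + q * eval x (pderiv j f.G) = 0

theorem rel_W (hx : x ≠ 0) (h1 : ∀ k, eval x (f.H k) = 0) {c : K → ℂ} (r : Rel f x c 0 0) (k : K) :
    c k = 0 :=
  Fintype.linearIndependent_iff.1 (h.W.li x ⟨hx, h1⟩) c (funext fun j => by simpa using r j) k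

theorem rel_D (hx : x ≠ 0) (h1 : ∀ k, eval x (f.H k) = 0) (h2 : eval x f.G = 0) {c : K → ℂ} {q : ℂ}
    (r : Rel f x c 0 q) : q = 0 :=
  Fintype.linearIndependent_iff.1 (h.D.li x ⟨hx, fun o => by cases o; exacts [h2, h1 _]⟩)
    (fun o => o.elim q c) (funext fun j => by simpa [eD, add_comm] using r j) none

theorem rel_Z (hx : x ≠ 0) (h1 : ∀ k, eval x (f.H k) = 0) (h2 : eval x f.G = 0)
    (h3 : eval x f.F = 0) {c : K → ℂ} {p q : ℂ} (r : Rel f x c p q) : p = 0 :=
  Fintype.linearIndependent_iff.1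
    (h.Z.li x ⟨hx, fun o => by rcases o with _ | _ | _; exacts [h3, h2, h1 _]⟩)
    (fun o => o.elim p fun o => o.elim q c)
    (funext fun j => by simpa [eZ, eD, add_comm, add_left_comm] using r j) none

omit h in
theorem reg_iff : (∀ c : K ⊕ Bool → ℂ, ∃ v : J ⊕ Fin 4 → ℂ, v (f.pD Ω).z = 0 ∧ v (f.pD Ω).z' = 0 ∧
    ∀ k, ∑ j, eval (pt x b z z' e) (pderiv j ((f.pD Ω).F k)) * v j = c k) ↔
    ∀ c p q, Rel f x c p q → q * (f.a * (z' * b) ^ (f.a - 1) * z') = p * e → q * z + p * b = 0 →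
      (∀ k, c k = 0) ∧ p = 0 ∧ q = 0 := by
  have i0 : ∀ (i : Fin 4) (p : MvPolynomial J ℂ), pderiv (Sum.inr i) (rename Sum.inl p) = 0 :=
    fun i => pderiv_rename_zero fun _ => Sum.inl_ne_inr
  have e1 : ∀ (g : K ⊕ Bool → ℂ) j, ∑ k, g k * eval (pt x b z z' e) (pderiv (.inl j)
      ((f.pD Ω).F k)) = ∑ k, g (.inl k) * eval x (pderiv j (f.H k)) +
        g (.inr false) * eval x (pderiv j f.F) + g (.inr true) * eval x (pderiv j f.G) := by
    intro g j
    simp [pD, pderiv_rename Sum.inl_injective, eval_rename, pderiv_X_of_ne]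
    ring
  have e0 : ∀ g : K ⊕ Bool → ℂ, ∑ k, g k * eval (pt x b z z' e) (pderiv (.inr 0) ((f.pD Ω).F k)) =
      g (.inr true) * (f.a * (z' * b) ^ (f.a - 1) * z') - g (.inr false) * e := by
    intro g
    simp [pD, i0, pderiv_X_of_ne]
    ring
  have e3 : ∀ g : K ⊕ Bool → ℂ, ∑ k, g k * eval (pt x b z z' e) (pderiv (.inr 3) ((f.pD Ω).F k)) =
      -(g (.inr true) * z + g (.inr false) * b) := by
    intro g
    simp [pD, i0, pderiv_X_of_ne]
    ring
  rw [surj_iff]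
  refine ⟨fun a c p q r1 r2 r3 => ?_, fun a g r => ?_⟩
  · have := a (Sum.elim c fun o => cond o q p) fun j u v => by
      rcases j with j | j
      · exact (e1 _ j).trans (r1 j)
      · fin_cases j
        exacts [(e0 _).trans (sub_eq_zero.2 r2), (u rfl).elim, (v rfl).elim,
          (e3 _).trans (neg_eq_zero.2 r3)]
    exact ⟨fun k => this (.inl k), this (.inr false), this (.inr true)⟩
  · obtain ⟨r1, r2, r3⟩ := a (fun k => g (.inl k)) (g (.inr false)) (g (.inr true))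
      (fun j => (e1 g j).symm.trans (r _ Sum.inl_ne_inr Sum.inl_ne_inr))
      (sub_eq_zero.1 ((e0 g).symm.trans (r _ (by simp [pD]) (by simp [pD]))))
      (neg_eq_zero.1 ((e3 g).symm.trans (r _ (by simp [pD]) (by simp [pD]))))
    rintro (k | _ | _)
    exacts [r1 k, r2, r3]

omit h in
variable (f) in
/-- The singular points of the member `t`, with a relation. -/
def Bad (t : ℂ) (s : ((J → ℂ) × ℂ) × (K → ℂ) × ℂ × ℂ) : Prop :=
  (∀ k, eval s.1.1 (f.H k) = 0) ∧ eval s.1.1 f.G = -(f.a + 1) * s.1.2 ^ f.a ∧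
    t * eval s.1.1 f.F = -f.a * s.1.2 ^ (f.a + 1) ∧
    s.2.2.1 * eval s.1.1 f.F = f.a * s.2.2.2 * s.1.2 ^ f.a ∧ Rel f s.1.1 s.2.1 s.2.2.1 s.2.2.2

theorem not_bad_zero {s : ((J → ℂ) × ℂ) × (K → ℂ) × ℂ × ℂ} (h1 : s.1 ≠ 0) (hs : Bad f 0 s) :
    s.2 = 0 := by
  obtain ⟨⟨x, u⟩, c, p, q⟩ := s
  obtain ⟨r1, r2, r3, r4, r5⟩ := hs
  have a : (f.a : ℂ) ≠ 0 := Nat.cast_ne_zero.2 (by have := a_pos h; omega)
  have a' : f.a ≠ 0 := by have := a_pos h; omega
  obtain rfl : u = 0 := by simpa [a] using r3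
  have hx : x ≠ 0 := fun k => h1 (Prod.ext k rfl)
  simp only [zero_pow a', mul_zero, mul_eq_zero] at r2 r4
  obtain rfl : p = 0 := r4.elim id fun k => rel_Z h hx r1 r2 k r5
  obtain rfl : q = 0 := rel_D h hx r1 r2 r5
  exact Prod.ext (funext (rel_W h hx r1 r5)) rfl

theorem bad_scale {u : ℂ} {c : K → ℂ} {p q : ℂ} (hs : Bad f t ((x, u), c, p, q)) {s : ℂ}
    (s0 : s ≠ 0) (r : ℂ) : Bad f t (s • (x, u),
      r • (fun k => c k / s ^ f.d k, p / s ^ (f.a + 1), q / s ^ f.a)) := by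
  obtain ⟨r1, r2, r3, r4, r5⟩ := hs
  simp only at r1 r2 r3 r4 r5
  refine ⟨fun k => ?_, ?_, ?_, ?_, fun j => ?_⟩
  all_goals simp only [Prod.smul_mk, smul_eq_mul, Pi.smul_apply]
  · rw [ev_smul (h.W.hom k), r1, mul_zero]
  · rw [ev_smul (hG h), r2]
    ring
  · rw [ev_smul (hF h)]
    linear_combination s ^ (f.a + 1) * r3
  · rw [ev_smul (hF h), mul_pow]
    field_simp
    linear_combination r * r4
  · refine mul_left_cancel₀ s0 ?_
    have e : ∀ {g : MvPolynomial J ℂ} {n : ℕ}, g.IsHomogeneous n → 1 ≤ n → ∀ a : ℂ,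
        s * (r * (a / s ^ n) * eval (s • x) (pderiv j g)) = r * (a * eval x (pderiv j g)) := by
      intro g n hg hn a
      rw [mul_left_comm, dv_smul hg hn]
      field_simp
    simp only [mul_add, Finset.mul_sum, e (hF h) (by omega), e (hG h) (a_pos h),
      e (h.W.hom _) (h.W.pos _)]
    rw [← Finset.mul_sum, ← mul_add, ← mul_add, r5 j, mul_zero, mul_zero]

omit h in
theorem isClosed_bad : IsClosed {s : ℂ × ((J → ℂ) × ℂ) × (K → ℂ) × ℂ × ℂ | Bad f s.1 s.2} := by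
  have c : ∀ g : MvPolynomial J ℂ, Continuous fun s : ℂ × ((J → ℂ) × ℂ) × (K → ℂ) × ℂ × ℂ =>
      eval s.2.1.1 g := fun g => (continuous_eval g).comp (by fun_prop)
  simp only [Bad, Rel, ofPred_and, ofPred_forall]
  refine (isClosed_iInter fun k => isClosed_eq (c _) continuous_const).inter
    ((isClosed_eq (c _) (by fun_prop)).inter ((isClosed_eq (continuous_fst.mul (c _))
      (by fun_prop)).inter ((isClosed_eq (Continuous.mul (by fun_prop) (c _)) (by fun_prop)).inter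
        (isClosed_iInter fun j => isClosed_eq ?_ continuous_const))))
  exact ((continuous_finsetSum _ fun k _ => Continuous.mul (by fun_prop) (c _)).add
    (Continuous.mul (by fun_prop) (c _))).add (Continuous.mul (by fun_prop) (c _))

theorem exists_good : ∃ r, 0 < r ∧ ∀ t ∈ Metric.ball (0 : ℂ) r, ∀ x u c p q, x ≠ 0 →
    Bad f t ((x, u), c, p, q) → (∀ k, c k = 0) ∧ p = 0 ∧ q = 0 := by
  have k := ((isCompact_sphere (0 : (J → ℂ) × ℂ) 1).prod (isCompact_sphere (0 : (K → ℂ) × ℂ × ℂ)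
    1)).eventually_forall_of_forall_eventually (x₀ := (0 : ℂ)) (P := fun t s => ¬Bad f t s)
    fun s hs => isClosed_bad.isOpen_compl.mem_nhds fun a => by
      have e := not_bad_zero h (fun e => by simpa [show s.1 = 0 from e] using hs.1) a
      simpa [show s.2 = 0 from e] using hs.2
  obtain ⟨r, hr, k⟩ := Metric.eventually_nhds_iff_ball.1 k
  refine ⟨r, hr, fun t ht x u c p q hx hs => ?_⟩
  have n1 : ‖(x, u)‖ ≠ 0 := norm_ne_zero_iff.2 fun e => hx (congrArg Prod.fst e)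
  have s0 : ((‖(x, u)‖⁻¹ : ℝ) : ℂ) ≠ 0 := by simpa using n1
  set s := ((‖(x, u)‖⁻¹ : ℝ) : ℂ) with hs'
  by_cases e : ((fun k => c k / s ^ f.d k, p / s ^ (f.a + 1), q / s ^ f.a) : (K → ℂ) × ℂ × ℂ) = 0
  · simpa [s0, _root_.funext_iff] using e
  · refine (k t ht _ ⟨?_, ?_⟩ (bad_scale h hs s0 ((‖((fun k => c k / s ^ f.d k, p / s ^ (f.a + 1),
      q / s ^ f.a) : (K → ℂ) × ℂ × ℂ)‖⁻¹ : ℝ) : ℂ))).elim
    · rw [mem_sphere_zero_iff_norm, norm_smul, hs', Complex.norm_real, norm_inv, norm_norm,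
        inv_mul_cancel₀ n1]
    · rw [mem_sphere_zero_iff_norm, norm_smul, Complex.norm_real, norm_inv, norm_norm,
        inv_mul_cancel₀ (norm_ne_zero_iff.2 e)]

theorem bad_of (hy : pt x b z z' e ∈ (f.pD Ω).cone) {c : K → ℂ} {p q : ℂ} (r1 : Rel f x c p q)
    (r2 : q * (f.a * (z' * b) ^ (f.a - 1) * z') = p * e) (r3 : q * z + p * b = 0)
    (h0 : p ≠ 0 ∨ q ≠ 0) : Bad f (z * z') ((x, z' * b), c, p, q) := by
  obtain ⟨-, h3, h4, h5⟩ := mem_pt.1 hy
  obtain ⟨n, hn⟩ := Nat.exists_eq_add_of_le' (a_pos h)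
  have e1 : p * eval x f.F = f.a * q * (z' * b) ^ f.a := by
    rw [hn, Nat.add_sub_cancel] at r2
    rw [h4, hn]
    linear_combination -b * r2
  have e2 : eval x f.G = -(f.a + 1) * (z' * b) ^ f.a := by
    by_cases q0 : q = 0
    · have p0 := h0.resolve_right (not_not.2 q0)
      obtain rfl : b = 0 := by simpa [q0, p0] using r3
      obtain rfl : e = 0 := by simpa [q0, p0] using r2
      simpa [hn] using h5
    · refine mul_left_cancel₀ q0 ?_
      linear_combination q * h5 + e * r3 + p * h4 - e1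
  exact ⟨h3, e2, by simp only; linear_combination z * z' * h4 - z' * b * h5 + z' * b * e2, e1, r1⟩

theorem cpt (ρ : ℝ) : ∃ C ⊆ (f.pD Ω).cone, IsCompact C ∧ ∀ y ∈ (f.pD Ω).cone,
    ‖y (f.pD Ω).z * y (f.pD Ω).z'‖ ≤ ρ → ∃ τ, IsUnit τ ∧ (f.pD Ω).act τ y ∈ C := by
  have c : ∀ g : MvPolynomial J ℂ, Continuous fun y : J ⊕ Fin 4 → ℂ => eval (y ∘ .inl) g :=
    fun g => (continuous_eval g).comp (by fun_prop)
  obtain ⟨B, hB⟩ := (isCompact_sphere (0 : J → ℂ) 1).exists_bound_of_continuousOn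
    (f := fun x => (eval x f.F, eval x f.G))
    ((continuous_eval _).prodMk (continuous_eval _)).continuousOn
  refine ⟨{y | (‖y ∘ Sum.inl‖ = 1 ∧ max ‖y (.inr 0)‖ ‖y (.inr 1)‖ = 1) ∧
      (∀ k, eval (y ∘ .inl) (f.H k) = 0) ∧ eval (y ∘ .inl) f.F = y (.inr 0) * y (.inr 3) ∧
      (y (.inr 2) * y (.inr 0)) ^ f.a + eval (y ∘ .inl) f.G = y (.inr 1) * y (.inr 3)} ∩
      Metric.closedBall 0 (1 + 2 * |B| + |ρ| + |ρ| ^ f.a), fun y hy => mem_cone.2
        ⟨⟨fun e => by simpa [e] using hy.1.1.1, by_contra fun e => ?_⟩, hy.1.2⟩,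
    (isCompact_closedBall _ _).inter_left ?_, fun y hy hρ => ?_⟩
  · rw [not_or, not_not, not_not] at e
    simpa [e.1, e.2] using hy.1.1.2
  · simp only [ofPred_and, ofPred_forall]
    exact ((isClosed_eq (by fun_prop) continuous_const).inter
      (isClosed_eq (by fun_prop) continuous_const)).inter
      ((isClosed_iInter fun k => isClosed_eq (c _) continuous_const).inter
        ((isClosed_eq (c _) (by fun_prop)).inter
          (isClosed_eq (Continuous.add (by fun_prop) (c _)) (by fun_prop))))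
  obtain ⟨x, b, z, z', e, rfl⟩ := exists_pt y
  obtain ⟨h1, h2⟩ := (mem_pt.1 hy).1
  have n1 : 0 < ‖x‖ := norm_pos_iff.2 h1
  have n2 : 0 < max (‖x‖⁻¹ * ‖b‖) ‖z‖ := lt_max_iff.2 (h2.imp
    (fun a => mul_pos (inv_pos.2 n1) (norm_pos_iff.2 a)) norm_pos_iff.2)
  have hτ : IsUnit fun o : Option Unit =>
      o.elim (((max (‖x‖⁻¹ * ‖b‖) ‖z‖)⁻¹ : ℝ) : ℂ) fun _ => ((‖x‖⁻¹ : ℝ) : ℂ) :=
    isUnit_pi_iff.2 fun o => by
      cases o
      exacts [Complex.ofReal_ne_zero.2 (inv_pos.2 n2).ne',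
        Complex.ofReal_ne_zero.2 (inv_pos.2 n1).ne']
  refine ⟨_, hτ, ?_⟩
  have k := cone_act h hτ hy
  have k0 := isUnit_pi_iff.1 hτ none
  rw [act_pt] at k ⊢
  simp only [Option.elim] at k k0 ⊢
  have m1 : ‖((‖x‖⁻¹ : ℝ) : ℂ) • x‖ = 1 := by
    rw [norm_smul, Complex.norm_real, norm_inv, norm_norm, inv_mul_cancel₀ n1.ne']
  have m2 : max ‖((‖x‖⁻¹ : ℝ) : ℂ) * (((max (‖x‖⁻¹ * ‖b‖) ‖z‖)⁻¹ : ℝ) : ℂ) * b‖
      ‖(((max (‖x‖⁻¹ * ‖b‖) ‖z‖)⁻¹ : ℝ) : ℂ) * z‖ = 1 := by
    simp only [norm_mul, Complex.norm_real, norm_inv, norm_norm, Real.norm_of_nonneg n2.le]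
    rw [mul_right_comm, mul_comm, ← mul_max_of_nonneg _ _ (inv_pos.2 n2).le, inv_mul_cancel₀ n2.ne']
  have m3 : ‖(((max (‖x‖⁻¹ * ‖b‖) ‖z‖)⁻¹ : ℝ) : ℂ) * z‖ *
      ‖(((max (‖x‖⁻¹ * ‖b‖) ‖z‖)⁻¹ : ℝ) : ℂ)⁻¹ * z'‖ ≤ |ρ| := by
    rw [← norm_mul, mul_mul_mul_comm, mul_inv_cancel₀ k0, one_mul]
    exact hρ.trans (le_abs_self _)
  generalize ((‖x‖⁻¹ : ℝ) : ℂ) • x = x at *
  generalize _ * _ * b = b at *
  generalize _ * z = z at *
  generalize _ * z' = z' at *
  generalize _ * _ * e = e at *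
  obtain ⟨-, h3, h4, h5⟩ := mem_pt.1 k
  refine ⟨⟨⟨m1, m2⟩, h3, h4, h5⟩, ?_⟩
  have b0 := (hB x (mem_sphere_zero_iff_norm.2 m1)).trans (le_abs_self B)
  have b1 : ‖b‖ * ‖e‖ ≤ |B| := by
    rw [← norm_mul, ← h4]
    exact (norm_fst_le (eval x f.F, eval x f.G)).trans b0
  have b2 : ‖eval x f.G‖ ≤ |B| := (norm_snd_le (eval x f.F, eval x f.G)).trans b0
  have b3 : (‖z'‖ * ‖b‖) ^ f.a ≤ ‖z‖ * ‖e‖ + |B| := by
    rw [← norm_mul, ← norm_pow, eq_sub_of_add_eq h5, ← norm_mul]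
    exact (norm_sub_le _ _).trans (add_le_add_right b2 _)
  have b4 : ‖z‖ * ‖e‖ ≤ (‖z'‖ * ‖b‖) ^ f.a + |B| := by
    rw [← norm_mul, ← norm_mul, ← norm_pow, ← h5]
    exact (norm_add_le _ _).trans (add_le_add_right b2 _)
  have p1 := abs_nonneg B
  have p2 := abs_nonneg ρ
  have p3 := pow_nonneg p2 f.a
  have l1 : ‖b‖ ≤ 1 := (le_max_left _ _).trans_eq m2
  have l2 : ‖z‖ ≤ 1 := (le_max_right _ _).trans_eq m2
  have key : ‖z'‖ ≤ 1 + 2 * |B| + |ρ| + |ρ| ^ f.a ∧ ‖e‖ ≤ 1 + 2 * |B| + |ρ| + |ρ| ^ f.a := by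
    rcases max_eq_iff.1 m2 with ⟨a, -⟩ | ⟨a, -⟩
    · rw [a, one_mul] at b1
      rw [a, mul_one] at b3
      have := mul_le_of_le_one_left (norm_nonneg e) l2
      refine ⟨(le_total ‖z'‖ 1).elim (fun i => by linarith) fun i => ?_, by linarith⟩
      have := le_self_pow₀ i (by have := a_pos h; omega : f.a ≠ 0)
      linarith
    · rw [a, one_mul] at b4 m3
      have := pow_le_pow_left₀ (by positivity)
        ((mul_le_of_le_one_right (norm_nonneg z') l1).trans m3) f.a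
      exact ⟨by linarith, by linarith⟩
  rw [mem_closedBall_zero_iff, pi_norm_le_iff_of_nonneg (by positivity)]
  rintro (j | j)
  · exact (norm_le_pi_norm x j).trans (by linarith)
  · fin_cases j
    exacts [l1.trans (by linarith), l2.trans (by linarith), key.1, key.2]

omit h in
theorem amp (σ : ℤ) (c : Option Unit → ℤ) (hσ : |σ| ≤ 1) (hc : ∀ i, |c i| ≤ (1 : ℕ) + 1)
    (hy : pt x b z z' e ∈ (f.pD Ω).cone) : ∃ α : J ⊕ Fin 4 → ℕ, (∀ i, ∑ j, α j * (f.pD Ω).w j i =
      (3 : ℕ) * (wv (3 * f.a + 7) 2 i + if i = none then σ else 0) + c i) ∧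
      ∏ j, pt x b z z' e j ^ α j ≠ 0 := by
  classical
  obtain ⟨h1, h2⟩ := (mem_pt.1 hy).1
  obtain ⟨j, hj⟩ := Function.ne_iff.1 h1
  have a := abs_le.1 hσ
  have c1 := abs_le.1 (hc none)
  have c2 := abs_le.1 (hc (some PUnit.unit))
  have k : ∀ n : ℕ, ∏ i, x i ^ (Pi.single j n : J → ℕ) i ≠ 0 := fun n =>
    Finset.prod_ne_zero_iff.2 fun i _ => by
      by_cases e : i = j
      · exact pow_ne_zero _ (e ▸ hj)
      · simp [e]
  rcases h2 with h2 | h2
  · refine ⟨Sum.elim (Pi.single j (9 * f.a + 15 + c (some PUnit.unit) - 3 * σ - c none).toNat)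
      ![(6 + 3 * σ + c none).toNat, 0, 0, 0], ?_, by simp [Fin.prod_univ_four, k, h2]⟩
    rintro (_ | ⟨⟨⟩⟩) <;> simp [pD, wv, Fin.sum_univ_four, Pi.single_apply] <;> omega
  · refine ⟨Sum.elim (Pi.single j (9 * f.a + 21 + c (some PUnit.unit)).toNat)
      ![0, (6 + 3 * σ + c none).toNat, 0, 0], ?_, by simp [Fin.prod_univ_four, k, h2]⟩
    rintro (_ | ⟨⟨⟩⟩) <;> simp [pD, wv, Fin.sum_univ_four, Pi.single_apply] <;> omega

theorem hom (k : K ⊕ Bool) : IsWeightedHomogeneous (f.pD Ω).w ((f.pD Ω).F k) ((f.pD Ω).χ k) := by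
  have x := fun j => isWeightedHomogeneous_X ℂ (f.pD Ω).w j
  have r := fun {p : MvPolynomial J ℂ} {n : ℕ} =>
    wh_rename (w := (f.pD Ω).w) (φ := .inl) (v := wv 1 0) (p := p) (n := n) fun _ => rfl
  have e : ∀ n : ℕ, n • wv 1 0 = wv n 0 := fun n => funext fun o => by cases o <;> simp [wv]
  simp only [e] at r
  rcases k with k | _ | _
  · exact r (h.W.hom k)
  · have := (x (.inr 0)).mul (x (.inr 3))
    rw [show (f.pD Ω).w (.inr 0) + (f.pD Ω).w (.inr 3) = wv (f.a + 1 : ℕ) 0 from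
      funext fun o => by cases o <;> simp [pD, wv, add_comm]] at this
    simpa [pD] using (r (hF h)).sub this
  · have a := ((x (.inr 2)).mul (x (.inr 0))).pow f.a
    have b := (x (.inr 1)).mul (x (.inr 3))
    rw [show f.a • ((f.pD Ω).w (.inr 2) + (f.pD Ω).w (.inr 0)) = wv f.a 0 from
      funext fun o => by cases o <;> simp [pD, wv]] at a
    rw [show (f.pD Ω).w (.inr 1) + (f.pD Ω).w (.inr 3) = wv f.a 0 from
      funext fun o => by cases o <;> simp [pD, wv]] at b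
    exact (a.add (r (hG h))).sub b

theorem ne_zero_Y {y : Option J → ℂ} (hy : y ∈ (ciK f.eY).cone) : y ∘ some ≠ 0 := fun e => by
  have a := hy.2 none
  simp only [ciK, eY, Option.elim, map_add, map_pow, eval_X, eval_rename, e,
    ev_zero (hG h) (a_pos h), add_zero] at a
  exact hy.1 (funext fun o => by cases o; exacts [pow_eq_zero_iff'.1 a |>.1, congrFun e _])

theorem ne_zero_X (h0 : t ≠ 0) {y : Option J → ℂ} (hy : y ∈ (ciK (f.eX t)).cone) :
    y ∘ some ≠ 0 := fun e => by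
  have a := hy.2 none
  simp only [ciK, eX, Option.elim, map_add, map_sub, map_mul, map_pow, eval_X, eval_C, eval_rename,
    e, ev_zero (hG h) (a_pos h), ev_zero (hF h) (Nat.le_add_left _ _)] at a
  exact hy.1 (funext fun o => by
    cases o
    exacts [by_contra fun c => by simp [h0, show y none ≠ 0 from c] at a, congrFun e _])

end DP

open DP

include h

theorem Ok.exists_pD : ∃ r, 0 < r ∧ (f.pD (Metric.ball 0 r)).Ok := by
  obtain ⟨r, hr, k⟩ := exists_good h
  refine ⟨r, hr, by simp [pD], ?_, ?_, rfl, ?_, fun k => wh (hom h k), ?_, ?_, ?_,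
    Metric.isOpen_ball, convex_ball _ _, Metric.mem_ball_self hr, fun y hy ht => ?_, cpt h,
    by simp [pD], fun σ c a b y hy => ?_⟩
  · exact funext fun o => by cases o <;> simp [pD, wv]
  · exact funext fun o => by cases o <;> simp [pD, wv]
  · exact fun o => by cases o <;> simp [pD, wv]; positivity
  · rintro (k | _ | _)
    · change (rename Sum.inl (f.H k)).totalDegree ≠ 0
      rw [(h.W.hom k).rename_isHomogeneous.totalDegree fun e => h.W.ne k
        (rename_injective _ Sum.inl_injective (e.trans (map_zero _).symm))]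
      exact Nat.one_le_iff_ne_zero.1 (h.W.pos k)
    · exact deg_ne (x := pt 0 1 1 0 1) (y := pt 0 1 1 0 0) (by simp [pD, eval_rename])
    · exact deg_ne (x := pt 0 1 1 0 1) (y := pt 0 1 1 0 0) (by simp [pD, eval_rename])
  · exact (isOpen_ne_fun (by fun_prop) continuous_const).inter
      ((isOpen_ne_fun (continuous_apply _) continuous_const).union
        (isOpen_ne_fun (continuous_apply _) continuous_const))
  · intro τ hτ y hy
    obtain ⟨x, b, z, z', e, rfl⟩ := exists_pt y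
    have a := isUnit_pi_iff.1 hτ (some ())
    have c := isUnit_pi_iff.1 hτ none
    rw [act_pt]
    exact ⟨smul_ne_zero a hy.1, hy.2.imp (mul_ne_zero (mul_ne_zero a c)) (mul_ne_zero c)⟩
  · obtain ⟨x, b, z, z', e, rfl⟩ := exists_pt y
    refine reg_iff.2 fun c p q r1 r2 r3 => ?_
    by_cases a : p ≠ 0 ∨ q ≠ 0
    · exact k _ ht _ _ _ _ _ (mem_pt.1 hy).1.1 (bad_of h hy r1 r2 r3 a)
    · rw [not_or, not_not, not_not] at a
      obtain ⟨rfl, rfl⟩ := a
      exact ⟨rel_W h (mem_pt.1 hy).1.1 (mem_pt.1 hy).2.1 r1, rfl, rfl⟩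
  · obtain ⟨x, b', z, z', e, rfl⟩ := exists_pt y
    exact amp σ c a b hy

theorem Ok.smY : SmCI f.eY f.dD := by
  have i0 : ∀ p : MvPolynomial J ℂ, pderiv none (rename some p) = 0 :=
    pderiv_rename_zero fun _ => Option.some_ne_none _
  refine ⟨?_, h.D.pos, ?_, fun y hy => Fintype.linearIndependent_iff.2 fun g r => ?_⟩
  · rintro (_ | k)
    exacts [(isHomogeneous_X_pow _ _).add (hG h).rename_isHomogeneous,
      (h.W.hom k).rename_isHomogeneous]
  · rintro (_ | k) e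
    · simpa [eY, eval_rename, comp_def, cc_zero (hG h) (a_pos h)] using
        congrArg (eval fun o : Option J => o.elim 1 fun _ => 0) e
    · exact h.W.ne k (rename_injective _ (Option.some_injective _) (e.trans (map_zero _).symm))
  have hx := ne_zero_Y h hy
  have h1 : ∀ k, eval (y ∘ some) (f.H k) = 0 := fun k =>
    (eval_rename _ _ _).symm.trans (hy.2 (some k))
  have r1 : Rel f (y ∘ some) (g ∘ some) 0 (g none) := fun j => by
    simpa [eY, pderiv_rename (Option.some_injective _), eval_rename, pderiv_X_of_ne, add_comm] using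
      congrFun r (some j)
  have r2 : g none = 0 := by_contra fun a => by
    have b : y none = 0 := by
      have := congrFun r none
      simp [eY, i0, a, Nat.one_le_iff_ne_zero.1 (a_pos h)] at this
      exact this.1
    refine a (rel_D h hx h1 ?_ r1)
    simpa [ciK, eY, eval_rename, b, Nat.one_le_iff_ne_zero.1 (a_pos h)] using hy.2 none
  rintro (_ | k)
  exacts [r2, rel_W h hx h1 (r2 ▸ r1) k]

theorem Ok.smX (hP : (f.pD Ω).Ok) (ht : t ∈ Ω) (h0 : t ≠ 0) : SmCI (f.eX t) f.dX := by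
  have i0 : ∀ p : MvPolynomial J ℂ, pderiv none (rename some p) = 0 :=
    pderiv_rename_zero fun _ => Option.some_ne_none _
  refine ⟨?_, ?_, ?_, fun y hy => Fintype.linearIndependent_iff.2 fun g r => ?_⟩
  · rintro (_ | k)
    · exact (hF h).rename_isHomogeneous.sub (add_comm 1 f.a ▸ (isHomogeneous_X _ _).mul
        ((isHomogeneous_C_mul_X_pow _ _ _).add (hG h).rename_isHomogeneous))
    · exact (h.W.hom k).rename_isHomogeneous
  · rintro (_ | k)
    exacts [Nat.le_add_left _ _, h.W.pos k]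
  · rintro (_ | k) e
    · simpa [eX, eval_rename, comp_def, cc_zero (hG h) (a_pos h), h0,
        cc_zero (hF h) (Nat.le_add_left _ _)] using
        congrArg (eval fun o : Option J => o.elim 1 fun _ => 0) e
    · exact h.W.ne k (rename_injective _ (Option.some_injective _) (e.trans (map_zero _).symm))
  have hp : pt (y ∘ some) (y none) 1 t (t ^ f.a * y none ^ f.a + eval (y ∘ some) f.G) ∈
      (f.pD Ω).cone := mem_pt.2 ⟨⟨ne_zero_X h h0 hy, .inr one_ne_zero⟩,
    fun k => (eval_rename _ _ _).symm.trans (hy.2 (some k)),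
    by simpa [ciK, eX, eval_rename, sub_eq_zero] using hy.2 none, by rw [mul_pow, one_mul]⟩
  obtain ⟨r1, r2, -⟩ := reg_iff.1 (hP.reg _ hp (by simpa [pD] using ht)) (g ∘ some) (g none)
    (-(g none * y none)) (fun j => by
      have := congrFun r (some j)
      simp [eX, pderiv_rename (Option.some_injective _), eval_rename, pderiv_X_of_ne] at this
      simp only [comp_apply]
      linear_combination this) (by
      have := congrFun r none
      obtain ⟨n, hn⟩ := Nat.exists_eq_add_of_le' (a_pos h)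
      simp only [Finset.sum_apply, Fintype.sum_option, eX, Option.elim, i0, map_sub, map_mul,
        map_add, map_pow, Derivation.leibniz, Derivation.leibniz_pow, pderiv_X_self, pderiv_C,
        smul_eq_mul, Pi.smul_apply, eval_X, eval_C, eval_rename, map_zero, mul_zero, map_one,
        Finset.sum_const_zero, Pi.zero_apply, nsmul_eq_mul, map_natCast] at this
      rw [hn, Nat.add_sub_cancel] at this ⊢
      linear_combination this) (by ring)
  rintro (_ | k)
  exacts [r2, r1 k]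

end Vale.Agent.P269.Flag
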