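import Vale.Agent.P269.Asm.DE
import Vale.Agent.P269.Asm.Gr
import Vale.Agent.P269.Asm.PresT

/-!
# The degeneration to the normal cone and the blow-up
-/

set_option linter.unusedSectionVars false

namespace Vale.Agent.P269.Flag

open P291Z Set Function Topology Filter MvPolynomial

namespace EP

section gen

variable {R R₀ J J₀ K K₀ I : Type} [Fintype R] [Fintype R₀] [Fintype J] [Fintype J₀] [Fintype K]
  [Fintype K₀] [Fintype I]

theorem wh_iff {w : J → ℤ} {p : MvPolynomial J ℂ} {m : ℤ} :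
    IsWeightedHomogeneous w p m ↔ ∀ α ∈ p.support, ∑ j, α j * w j = m :=
  forall_congr' fun α => imp_congr mem_support_iff.symm (by
    rw [Finsupp.weight_apply, Finsupp.sum_fintype _ _ (by simp)]
    simp)

theorem wh_X {w : J → ℤ} {j : J} {m : ℤ} (h : w j = m) :
    IsWeightedHomogeneous w (X j : MvPolynomial J ℂ) m := h ▸ isWeightedHomogeneous_X ℂ w j

theorem wh_C {w : J → ℤ} {c : ℂ} {m : ℤ} (h : 0 = m) : IsWeightedHomogeneous w (C c) m :=
  h ▸ isWeightedHomogeneous_C w c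

theorem wh_hom {g : MvPolynomial J ℂ} {n : ℕ} (hg : g.IsHomogeneous n) {c m : ℤ} (h : n * c = m) :
    IsWeightedHomogeneous (fun _ => c) g m := wh_iff.2 fun α hα => by
  rw [← h, ← sum_eq_of_hom hg hα, Finset.sum_mul]

theorem wh_ren {g : MvPolynomial J ℂ} {n : ℕ} (hg : g.IsHomogeneous n) {w : J ⊕ I → ℤ} {c m : ℤ}
    (hw : ∀ j, w (.inl j) = c) (h : n * c = m) : IsWeightedHomogeneous w (rename .inl g) m :=
  wh_iff.2 fun α hα => by
    classical
    rw [support_rename_of_injective Sum.inl_injective] at hα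
    obtain ⟨α, hβ, rfl⟩ := Finset.mem_image.1 hα
    rw [sum_mapDomain_inl, ← wh_iff.1 (wh_hom hg h) α hβ]
    simp only [hw]

theorem wh_eq {g : MvPolynomial J ℂ} {n : ℕ} (hg : g.IsHomogeneous n) {w : J ⊕ I → ℤ} {c m : ℤ}
    (hw : ∀ j, w (.inl j) = c) (h : n * c = m) {a b : J ⊕ I} (h' : w a + w b = m) :
    IsWeightedHomogeneous w (rename .inl g - X a * X b) m :=
  (wh_ren hg hw h).sub (h' ▸ (wh_X rfl).mul (wh_X rfl))

theorem deg_ne {g : MvPolynomial J ℂ} {n : ℕ} (hg : g.IsHomogeneous n) (hn : 1 ≤ n) (h0 : g ≠ 0)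
    {p : MvPolynomial (J ⊕ I) ℂ} (h : aeval (Sum.elim X 0) p = g) : p.totalDegree ≠ 0 := fun e => by
  rw [totalDegree_eq_zero_iff_eq_C.1 e, aeval_C, algebraMap_eq] at h
  have := hg.totalDegree h0
  rw [← h, totalDegree_C] at this
  omega

theorem aeval_ren (g : MvPolynomial J ℂ) :
    aeval (Sum.elim X 0 : J ⊕ I → MvPolynomial J ℂ) (rename .inl g) = g := by
  rw [aeval_rename]
  exact aeval_X_left_apply g

theorem aeval_eq (g : MvPolynomial J ℂ) (a b : I) : aeval (Sum.elim X 0 : J ⊕ I → MvPolynomial J ℂ)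
    (rename .inl g - X (.inr a) * X (.inr b)) = g := by
  rw [map_sub, aeval_ren]
  simp

theorem sum_pderiv_eq (g : MvPolynomial J ℂ) (a b : J ⊕ I) (y η : J ⊕ I → ℂ) :
    ∑ j, eval y (pderiv j (rename Sum.inl g - X a * X b)) * η j =
      ∑ j, eval (y ∘ .inl) (pderiv j g) * η (.inl j) - (y a * η b + y b * η a) := by
  classical
  simp only [map_sub, sub_mul, Finset.sum_sub_distrib, sum_pderiv_rename]
  simp [pderiv_X, Pi.single_apply, add_mul, Finset.sum_add_distrib,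
    apply_ite (MvPolynomial.eval y), -Fintype.sum_sum_type]

theorem mon2 (w : J → R → ℤ) {y : J → ℂ} {a b : J} (ha : y a ≠ 0) (hb : y b ≠ 0) {m n : ℤ}
    (hm : 0 ≤ m) (hn : 0 ≤ n) {c : R → ℤ} (h : ∀ i, m * w a i + n * w b i = c i) :
    ∃ α : J → ℕ, (∀ i, ∑ j, α j * w j i = c i) ∧ ∏ j, y j ^ α j ≠ 0 := by
  classical
  lift m to ℕ using hm
  lift n to ℕ using hn
  have e : ∀ a (m : ℕ), y a ≠ 0 → ∀ j, y j ^ (Pi.single a m : J → ℕ) j ≠ 0 := fun a m ha j => by
    by_cases e : j = a <;> simp [e, ha]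
  refine ⟨Pi.single a m + Pi.single b n, fun i => ?_, Finset.prod_ne_zero_iff.2 fun j _ => ?_⟩
  · simp [← h, add_mul, Finset.sum_add_distrib, Pi.single_apply]
  · rw [Pi.add_apply, pow_add]
    exact mul_ne_zero (e a m ha j) (e b n hb j)

theorem mem_fam {T : Tgt R J K} {χ z} : z ∈ (T.fam χ).cone ↔ z.2 ∈ T.cone :=
  ⟨fun h => ⟨h.2.1.1, fun k => by rw [← h.2.2 k, ← map_eval_map_C z.1 (T.F k)]; rfl⟩,
    fun h => ⟨trivial, ⟨h.1, trivial, fun _ h => h.elim⟩, fun k =>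
      (congrArg _ (map_eval_map_C z.1 (T.F k))).trans (h.2 k)⟩⟩

theorem fam_act (T : Tgt R J K) (χ t z) : ((T.fam χ).actT t z).2 = T.act t.2 z.2 :=
  funext fun j => by simp [Wt.actT, Tgt.fam, Tgt.act]

theorem act_act (T : Tgt R J K) (s t y) : T.act s (T.act t y) = T.act (s * t) y :=
  funext fun j => by simp only [Tgt.act, prod_zpow_mul, mul_assoc]

theorem act_one (T : Tgt R J K) (y) : T.act 1 y = y := funext fun j => by simp [Tgt.act]

theorem act_ne (T : Tgt R J K) {t : R → ℂ} (ht : IsUnit t) {y j} : T.act t y j ≠ 0 ↔ y j ≠ 0 :=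
  mul_ne_zero_iff_left (prod_zpow_ne (isUnit_pi_iff.1 ht) _)

theorem act_zero (T : Tgt R J K) (t : R → ℂ) {y j} (h : y j = 0) : T.act t y j = 0 := by
  rw [Tgt.act, h, mul_zero]

theorem fam_inv {T : Tgt R J K} {χ : K → R → ℤ}
    (hom : ∀ k, ∀ α ∈ (T.F k).support, ∀ i, ∑ j, α j * T.w j i = χ k i) (openU : IsOpen T.U)
    (invU : ∀ t, IsUnit t → ∀ y ∈ T.U, T.act t y ∈ T.U) : (T.fam χ).Inv where
  hom k α hα := hom k α (support_map_subset _ _ hα)
  homS _ _ _ _ _ i := i.elim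
  openU := openU.preimage continuous_snd
  invU t ht z hz := by
    change ((T.fam χ).actT t z).2 ∈ T.U
    rw [fam_act]
    exact invU _ (Prod.isUnit_iff.1 ht).2 _ hz
  closedE := isClosed_univ
  invE _ _ _ _ := trivial
  baseE _ _ _ _ _ := trivial
  zer_base := empty_disjoint _
  lcB := isClosed_univ.isLocallyClosed
  invB _ _ _ _ := trivial

theorem cone_act {T : Tgt R J K} {χ : K → R → ℤ} (h : (T.fam χ).Inv) {t : R → ℂ} (ht : IsUnit t)
    {y : J → ℂ} (hy : y ∈ T.cone) : T.act t y ∈ T.cone :=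
  fam_act T χ (1, t) (Empty.elim, y) ▸
    mem_fam.1 (h.cone_act (Prod.isUnit_iff.2 ⟨isUnit_one, ht⟩) (mem_fam.2 hy))

theorem lev_cone {P : Pre R J K} {A : Set (J → ℂ)} (hA : A ⊆ P.cone)
    (inv : ∀ t, IsUnit t → ∀ y ∈ A, P.act t y ∈ A) {T : Fam Empty Empty R₀ J₀ K₀}
    {σ : J → MvPolynomial J₀ ℂ} (hσ : ∀ z ∈ T.cone, (fun j => eval z.2 (σ j)) ∈ A)
    (nf : ∀ y ∈ A, ∃ t, IsUnit t ∧ ∃ z ∈ T.cone, y = P.act t fun j => eval z.2 (σ j)) (z') :
    z' ∈ (P.lev A).cone ↔ ∃ t, IsUnit t ∧ ∃ z ∈ T.cone,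
      z'.2 = ((P.lev A).actT (1, t) (z.1, fun j => eval z.2 (σ j))).2 := by
  have e : ∀ t z, ((P.lev A).actT t z).2 = P.act t.2 z.2 := fam_act P.toTgt P.χ
  simp only [e, Fam.mem_lev hA]
  exact ⟨nf _, fun ⟨t, ht, z, hz, e⟩ => e ▸ inv t ht _ (hσ z hz)⟩

end gen

variable {J K : Type} [Fintype J] [Fintype K] {f : Flag J K} (h : f.Ok) {t : ℂ}

theorem mem_Z {x : J → ℂ} : x ∈ (ciK f.eZ).cone ↔
    x ≠ 0 ∧ (∀ k, eval x (f.H k) = 0) ∧ eval x f.F = 0 ∧ eval x f.G = 0 :=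
  and_congr_right fun _ => by
    simp only [Option.forall]
    exact ⟨fun a => ⟨a.2.2, a.1, a.2.1⟩, fun a => ⟨a.2.1, a.2.2, a.1⟩⟩

/-- the fields `u, v, z` -/
def tl (y : J ⊕ Fin 4 → ℂ) : Fin 3 → ℂ := fun l => y (.inr l.castSucc)

theorem mem_U {y : J ⊕ Fin 4 → ℂ} : y ∈ f.pE.U ↔ y ∘ .inl ≠ 0 ∧ tl y ≠ 0 :=
  and_congr_right fun _ => by
    rw [Function.ne_iff, Fin.exists_fin_succ, Fin.exists_fin_two]
    rfl

theorem mem_pE {y : J ⊕ Fin 4 → ℂ} : y ∈ f.pE.cone ↔ (y ∘ .inl ≠ 0 ∧ tl y ≠ 0) ∧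
    (∀ k, eval (y ∘ .inl) (f.H k) = 0) ∧ eval (y ∘ .inl) f.F = y (.inr 3) * y (.inr 0) ∧
      eval (y ∘ .inl) f.G = y (.inr 3) * y (.inr 1) :=
  and_congr mem_U (by simp [pE, eval_rename, sub_eq_zero])

theorem mem_tB {z : (Empty → ℂ) × (J ⊕ Fin 3 → ℂ)} : z ∈ f.tB.cone ↔
    (z.2 ∘ .inl ≠ 0 ∧ (z.2 (.inr 0) ≠ 0 ∨ z.2 (.inr 1) ≠ 0)) ∧
    (∀ k, eval (z.2 ∘ .inl) (f.H k) = 0) ∧ eval (z.2 ∘ .inl) f.F = z.2 (.inr 0) * z.2 (.inr 2) ∧
      eval (z.2 ∘ .inl) f.G = z.2 (.inr 1) * z.2 (.inr 2) :=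
  mem_fam.trans (and_congr_right fun _ => by simp [blT, eval_rename, sub_eq_zero])

theorem act_inl (t : Option Unit → ℂ) (y) : f.pE.act t y ∘ .inl = t (some ()) • y ∘ .inl :=
  funext fun j => by simp [Tgt.act, pE, wv]

theorem act_tl {t : Option Unit → ℂ} (h : t (some ()) = 1) (y) :
    tl (f.pE.act t y) = t none • tl y := funext fun l => by
  fin_cases l <;> simp [Tgt.act, pE, wv, tl, h]

theorem act_zz {t : Option Unit → ℂ} (ht : IsUnit t) (y) :
    f.pE.act t y (.inr 2) * f.pE.act t y (.inr 3) = y (.inr 2) * y (.inr 3) := by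
  have := isUnit_pi_iff.1 ht none
  simp [Tgt.act, pE, wv]
  field_simp

include h

theorem hF : f.F.IsHomogeneous (f.a + 1) := h.Z.hom none

theorem hG : f.G.IsHomogeneous f.a := h.D.hom none

theorem lin {x : J → ℂ} (h0 : x ≠ 0) (hH : ∀ k, eval x (f.H k) = 0) {e : ℂ}
    (he : e = 0 → eval x f.F = 0 ∧ eval x f.G = 0) (c : K ⊕ Bool → ℂ) :
    ∃ (η : J → ℂ) (p q : ℂ), (∀ k, ∑ j, eval x (pderiv j (f.H k)) * η j = c (.inl k)) ∧
      ∑ j, eval x (pderiv j f.F) * η j - e * p = c (.inr false) ∧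
      ∑ j, eval x (pderiv j f.G) * η j - e * q = c (.inr true) := by
  by_cases e0 : e = 0
  · obtain ⟨η, hη⟩ := (li_iff_surj _).1 (h.Z.li x (mem_Z.2 ⟨h0, hH, he e0⟩)) fun o =>
      o.elim (c (.inr false)) fun o => o.elim (c (.inr true)) (c ∘ .inl)
    exact ⟨η, 0, 0, fun k => hη (some (some k)), by rw [mul_zero, sub_zero]; exact hη none,
      by rw [mul_zero, sub_zero]; exact hη (some none)⟩
  · obtain ⟨η, hη⟩ := (li_iff_surj _).1 (h.W.li x ⟨h0, hH⟩) (c ∘ .inl)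
    exact ⟨η, _ / e, _ / e, hη, by rw [mul_div_cancel₀ _ e0]; exact sub_sub_cancel _ _,
      by rw [mul_div_cancel₀ _ e0]; exact sub_sub_cancel _ _⟩

theorem pE_hom (k : K ⊕ Bool) (i) :
    IsWeightedHomogeneous (fun j => f.pE.w j i) (f.pE.F k) (f.pE.χ k i) := by
  rcases k with k | _ | _
  · exact wh_ren (h.W.hom k) (fun _ => rfl) (by rcases i with _ | _ <;> simp [pE, wv])
  · exact wh_eq (hF h) (fun _ => rfl) (by rcases i with _ | _ <;> simp [pE, wv])
      (by rcases i with _ | _ <;> simp [pE, wv])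
  · exact wh_eq (hG h) (fun _ => rfl) (by rcases i with _ | _ <;> simp [pE, wv])
      (by rcases i with _ | _ <;> simp [pE, wv])

omit h in
theorem pE_open : IsOpen f.pE.U := by
  rw [show f.pE.U = _ from Set.ext fun _ => mem_U]
  exact (isOpen_ne_fun (by fun_prop) continuous_const).inter
    (isOpen_ne_fun (continuous_pi fun _ => continuous_apply _) continuous_const)

omit h in
theorem pE_invU (t) (ht : IsUnit t) (y) (hy : y ∈ f.pE.U) : f.pE.act t y ∈ f.pE.U :=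
  ⟨act_inl (f := f) t y ▸ smul_ne_zero (isUnit_pi_iff.1 ht _) hy.1, by simpa only [act_ne _ ht] using hy.2⟩

theorem pE_act {t} (ht : IsUnit t) {y} (hy : y ∈ f.pE.cone) : f.pE.act t y ∈ f.pE.cone :=
  cone_act (fam_inv (fun k α hα i => wh_iff.1 (pE_hom h k i) α hα) pE_open pE_invU) ht hy

theorem pE_cpt (ρ : ℝ) : ∃ C ⊆ f.pE.cone, IsCompact C ∧ ∀ y ∈ f.pE.cone,
    ‖y (.inr 2) * y (.inr 3)‖ ≤ ρ → ∃ t, IsUnit t ∧ f.pE.act t y ∈ C := by
  obtain ⟨M, hM⟩ := (isCompact_sphere (0 : J → ℂ) 1).exists_bound_of_continuousOn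
    ((continuous_eval f.F).prodMk (continuous_eval f.G)).continuousOn
  have c : Continuous (tl : (J ⊕ Fin 4 → ℂ) → _) := continuous_pi fun _ => continuous_apply _
  refine ⟨{y | (‖y ∘ .inl‖ = 1 ∧ ‖tl y‖ = 1) ∧ ‖y (.inr 3)‖ ≤ max M ρ ∧
    ∀ k, eval y (f.pE.F k) = 0}, fun y hy => ⟨mem_U.2
      ⟨norm_ne_zero_iff.1 (by rw [hy.1.1]; exact one_ne_zero),
        norm_ne_zero_iff.1 (by rw [hy.1.2]; exact one_ne_zero)⟩, hy.2.2⟩, ?_, fun y hy hρ => ?_⟩
  · refine (isCompact_closedBall 0 (max 1 (max M ρ))).of_isClosed_subset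
      (((isClosed_eq (continuous_pi fun _ => continuous_apply _).norm continuous_const).inter
        (isClosed_eq c.norm continuous_const)).inter
        ((isClosed_le (continuous_apply _).norm continuous_const).inter ?_)) fun y hy =>
      mem_closedBall_zero_iff.2 ((pi_norm_le_iff_of_nonneg (by positivity)).2 ?_)
    · change IsClosed {y : J ⊕ Fin 4 → ℂ | ∀ k, eval y (f.pE.F k) = 0}
      rw [ofPred_forall]
      exact isClosed_iInter fun k => isClosed_eq (continuous_eval _) continuous_const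
    · rintro (j | l)
      · exact le_max_of_le_left ((norm_le_pi_norm (y ∘ .inl) j).trans hy.1.1.le)
      · induction l using Fin.lastCases with
        | last => exact le_max_of_le_right hy.2.1
        | cast l => exact le_max_of_le_left ((norm_le_pi_norm (tl y) l).trans hy.1.2.le)
  · let s : Option Unit → ℂ := fun o => o.elim 1 fun _ => (‖y ∘ .inl‖⁻¹ : ℝ)
    have h0 := norm_ne_zero_iff.2 (mem_pE.1 hy).1.1
    have hs : IsUnit s := isUnit_pi_iff.2 (by
      rintro (_ | _)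
      exacts [one_ne_zero, by simpa [s] using h0])
    have h1 := pE_act h hs hy
    let r : Option Unit → ℂ := fun o => o.elim (‖tl (f.pE.act s y)‖⁻¹ : ℝ) fun _ => 1
    have h2 := norm_ne_zero_iff.2 (mem_pE.1 h1).1.2
    have hr : IsUnit r := isUnit_pi_iff.2 (by
      rintro (_ | _)
      exacts [by simpa [r] using h2, one_ne_zero])
    have h3 := pE_act h hr h1
    have h4 : ‖f.pE.act r (f.pE.act s y) ∘ .inl‖ = 1 := by
      rw [act_inl, act_inl, norm_smul, norm_smul]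
      simp [r, s, inv_mul_cancel₀ h0]
    have h5 : ‖tl (f.pE.act r (f.pE.act s y))‖ = 1 := by
      rw [act_tl rfl, norm_smul]
      simp [r, inv_mul_cancel₀ h2]
    rw [← act_zz (f := f) hs, ← act_zz (f := f) hr] at hρ
    refine ⟨r * s, hr.mul hs, act_act f.pE.toTgt r s y ▸ ⟨⟨h4, h5⟩, ?_, h3.2⟩⟩
    generalize f.pE.act r (f.pE.act s y) = y at h3 h4 h5 hρ
    obtain ⟨-, -, h6, h7⟩ := mem_pE.1 h3
    have h8 := hM _ (mem_sphere_zero_iff_norm.2 h4)
    rw [Prod.norm_mk, h6, h7, norm_mul, norm_mul, max_le_iff] at h8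
    rw [norm_mul] at hρ
    obtain ⟨l, hl⟩ : ∃ l, 1 ≤ ‖tl y l‖ := by
      by_contra! e
      exact ((pi_norm_lt_iff one_pos).2 e).ne h5
    have h9 := le_mul_of_one_le_right (norm_nonneg (y (.inr 3))) hl
    fin_cases l
    exacts [le_max_of_le_left (h9.trans h8.1), le_max_of_le_left (h9.trans h8.2),
      le_max_of_le_right (h9.trans ((mul_comm _ _).trans_le hρ))]

end EP

open EP

variable {J K : Type} [Fintype J] [Fintype K] {f : Flag J K} (h : f.Ok) {t : ℂ}

theorem κ_pE (A) : (f.pE.lev A).κ₁ = wv (Fintype.card J - ∑ k, f.d k) 2 := by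
  funext o
  rcases o with _ | _ <;> simp [Fam.κ₁, Tgt.fam, pE, wv, Fin.sum_univ_four]
  ring

theorem κ_tB :
    f.tB.κ₁ = wv (Fintype.card J - ∑ k, f.d k) (Fintype.card J - ∑ k, f.d k - 1) := by
  funext o
  rcases o with _ | _ <;> simp [Fam.κ₁, Tgt.fam, tB, blT, wv, Fin.sum_univ_three] <;> ring

theorem tB_pl : f.tB.Pl := ⟨rfl, rfl, rfl, rfl⟩

theorem tB_grd : ∀ d, 3 * f.gB.deg d = ∑ r, f.tB.θ r * d r := fun d => by
  rw [show f.gB.deg d = ∑ r, f.θB r * d r from rfl, Finset.mul_sum]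
  exact Finset.sum_congr rfl fun r _ => by simp [tB, blT, Tgt.fam, mul_assoc]

include h

theorem Ok.pE : f.pE.Ok where
  ne := by simp [Flag.pE]
  wz := funext fun o => by rcases o with _ | _ <;> simp [Flag.pE, wv]
  wz' := funext fun o => by rcases o with _ | _ <;> simp [Flag.pE, wv]
  θη := rfl
  θ0 o := by rcases o with _ | _ <;> simp only [Flag.pE, wv, Option.elim, Pi.zero_apply] <;> positivity
  hom k α hα i := wh_iff.1 (pE_hom h k i) α hα
  deg k := by
    rcases k with k | _ | _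
    · exact deg_ne (h.W.hom k) (h.W.pos k) (h.W.ne k) (aeval_ren _)
    · exact deg_ne (hF h) (h.Z.pos none) (h.Z.ne none) (aeval_eq _ _ _)
    · exact deg_ne (hG h) (h.D.pos none) (h.D.ne none) (aeval_eq _ _ _)
  openU := pE_open
  invU := pE_invU
  opn := isOpen_univ
  cvx := convex_univ
  zero := trivial
  reg y hy _ c := by
    obtain ⟨a, b, d, e⟩ := mem_pE.1 hy
    obtain ⟨η, p, q, h1, h2, h3⟩ := lin h a.1 b (e := y (.inr 3))
      (fun h0 => by rw [d, e, h0, zero_mul, zero_mul]; exact ⟨rfl, rfl⟩) c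
    refine ⟨Sum.elim η ![p, q, 0, 0], rfl, rfl, ?_⟩
    rintro (k | _ | _)
    · exact (sum_pderiv_rename _ _ _).trans (h1 k)
    · exact (sum_pderiv_eq _ _ _ _ _).trans (by simpa using h2)
    · exact (sum_pderiv_eq _ _ _ _ _).trans (by simpa using h3)
  cpt := pE_cpt h
  le := le_rfl
  amp σ c hσ hc y hy := by
    obtain ⟨j, hj⟩ := Function.ne_iff.1 hy.1.1
    have h1 := abs_le.1 hσ
    have h2 := abs_le.1 (hc none)
    have h3 := abs_le.1 (hc (some ()))
    have h4 : (0 : ℤ) ≤ f.a := Int.natCast_nonneg _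
    change -(2 + 1) ≤ _ ∧ _ ≤ 2 + 1 at h2 h3
    rcases hy.1.2 with a | a | a
    · refine mon2 _ (a := .inl j) hj a (n := 3 * (4 + σ) + c none)
        (m := 3 * (6 * f.a + 7) + c (some ()) - (f.a + 1) * (3 * (4 + σ) + c none))
        (by nlinarith) (by omega) ?_
      rintro (_ | _) <;> simp [Flag.pE, wv]
      ring
    · refine mon2 _ (a := .inl j) hj a (n := 3 * (4 + σ) + c none)
        (m := 3 * (6 * f.a + 7) + c (some ()) - f.a * (3 * (4 + σ) + c none))
        (by nlinarith) (by omega) ?_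
      rintro (_ | _) <;> simp [Flag.pE, wv]
      ring
    · refine mon2 _ (a := .inl j) hj a (n := 3 * (4 + σ) + c none)
        (m := 3 * (6 * f.a + 7) + c (some ())) (by omega) (by omega) ?_
      rintro (_ | _) <;> simp [Flag.pE, wv]

theorem Ok.ret_W : f.pE.Ret f.pE.cone f.tW (f.σW t) (fun _ => wv 1 0) (X ∘ .inl) where
  hom j α hα i := wh_iff.1 (wh_X (by simp [Flag.pE, ciF, ciK, Tgt.fam])) α hα
  maps y hy := mem_ciF.2 (by
    simp only [comp_apply, eval_X]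
    exact ⟨hy.1.1, (mem_pE.1 hy).2.1⟩)
  inv j := aeval_X _ _

theorem Ok.pres_W (ht : t ≠ 0) : f.tW.Pres (f.pE.lev (f.pE.mem true t)) .inl ![.inr 2]
    (fun r _ => wv 1 0 r) fun j => MvPolynomial.map C (f.σW t j) := by
  have e : ∀ x : J → ℂ, (fun j => eval x (f.σW t j)) =
      Sum.elim x ![t⁻¹ * eval x f.F, t⁻¹ * eval x f.G, 1, t] := fun x => funext fun j => by
    rcases j with j | l
    · simp [σW]
    · fin_cases l <;> simp [σW]
  refine Fam.Pl.pres ⟨rfl, rfl, rfl, rfl⟩ (Fam.lev_pl _ _) Sum.inl_injective (fun _ => rfl)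
    (fun i => by fin_cases i; rfl) (fun j α hα r => (wh_iff (w := fun _ => 1)).1 ?_ α hα)
    (fun d e => funext fun _ => by simpa [wv] using e (some ()))
    (fun d e => ⟨fun _ => d (some ()), funext fun r => ?_⟩) (fun n => ⟨wv 0 (n 0), fun i => ?_⟩)
    (lev_cone (fun _ a => a.1) (fun s hs y hy => And.intro (pE_act h hs hy.1) ((act_zz hs y).trans hy.2))
      (fun z hz => ?_) fun y hy => ?_)
  · rcases j with j | l
    · exact wh_X (by simp [Flag.pE, Tgt.fam, wv])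
    · fin_cases l
      · exact (wh_hom (hF h) (by simp [Flag.pE, Tgt.fam, wv])).C_mul _
      · exact (wh_hom (hG h) (by simp [Flag.pE, Tgt.fam, wv])).C_mul _
      · exact wh_C (c := 1) (by simp [Flag.pE, Tgt.fam, wv])
      · exact wh_C (by simp [Flag.pE, Tgt.fam, wv])
  · rcases r with _ | _
    · simpa [Flag.pE, Tgt.fam, wv] using e 0
    · simp [wv]
  · fin_cases i
    simp [Flag.pE, Tgt.fam, wv]
  · rw [e]
    exact ⟨mem_pE.2 ⟨⟨(mem_ciF.1 hz).1, Function.ne_iff.2 ⟨2, one_ne_zero⟩⟩, (mem_ciF.1 hz).2,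
      (mul_inv_cancel_left₀ ht _).symm, (mul_inv_cancel_left₀ ht _).symm⟩, one_mul t⟩
  · obtain ⟨a, b, c, d⟩ := mem_pE.1 hy.1
    have h1 : y (.inr 2) * y (.inr 3) = t := hy.2
    have h2 := left_ne_zero_of_mul (h1 ▸ ht)
    have h3 := right_ne_zero_of_mul (h1 ▸ ht)
    refine ⟨fun o => o.elim (y (.inr 2)) 1, isUnit_pi_iff.2 ?_, (Empty.elim, y ∘ .inl),
      mem_ciF.2 ⟨a.1, b⟩, ?_⟩
    · rintro (_ | _)
      exacts [h2, one_ne_zero]
    · rw [e, c, d, ← h1]
      funext j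
      rcases j with j | l
      · simp [Tgt.act, Flag.pE, wv]
      · fin_cases l <;> simp [Tgt.act, Flag.pE, wv] <;> field_simp

omit h in
theorem EP.ev_B (y : J ⊕ Fin 3 → ℂ) : (fun j => eval y (σB j)) =
    Sum.elim (y ∘ .inl) ![y (.inr 0), y (.inr 1), 0, y (.inr 2)] := funext fun j => by
  rcases j with j | l
  · simp [σB]
  · fin_cases l <;> simp [σB]

omit h in
theorem EP.mem_lft {y} (hy : y ∈ f.pE.lft) : (Empty.elim, y ∘ φB) ∈ f.tB.cone := by
  obtain ⟨a, b, c, d⟩ := mem_pE.1 hy.1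
  exact mem_tB.2 ⟨⟨a.1, hy.1.1.2.imp_right fun e => e.resolve_right fun e => e hy.2⟩, b,
    c.trans (mul_comm _ _), d.trans (mul_comm _ _)⟩

omit h in
theorem EP.lft_mem {z} (hz : z ∈ f.tB.cone) : (fun j => eval z.2 (σB j)) ∈ f.pE.lft := by
  obtain ⟨a, b, c, d⟩ := mem_tB.1 hz
  rw [ev_B]
  exact ⟨mem_pE.2 ⟨(mem_U (f := f)).1 ⟨a.1, a.2.imp_right .inl⟩, b, c.trans (mul_comm _ _),
    d.trans (mul_comm _ _)⟩, rfl⟩

omit h in
theorem EP.σB_φB (j : J ⊕ Fin 3) : σB (φB j) = X j := by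
  rcases j with j | l
  · rfl
  · fin_cases l <;> rfl

theorem Ok.ret_B' : f.pE.Ret f.pE.lft f.tB σB mB' (X ∘ φB) where
  hom j α hα i := wh_iff.1 (wh_X (by
    rcases j with j | l
    · rcases i with _ | _ <;> simp [Flag.pE, tB, blT, Tgt.fam, φB, mB', wv]
    · fin_cases l <;> rcases i with _ | _ <;>
        simp [Flag.pE, tB, blT, Tgt.fam, φB, mB', wv])) α hα
  maps y hy := by
    simp only [comp_apply, eval_X]
    exact mem_lft hy
  inv j := (aeval_X _ _).trans (σB_φB j)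

theorem Ok.pres_B' : f.tB.Pres (f.pE.lev f.pE.lft) φB Empty.elim mB'
    fun j => MvPolynomial.map C (σB j) := by
  refine Fam.Pl.pres tB_pl (Fam.lev_pl _ _)
    (Sum.map_injective.2 ⟨injective_id, by decide⟩) σB_φB (fun i => i.elim)
    (fun j α hα r => (wh_iff (w := fun j => f.tB.w j r)).1 ?_ α hα) (fun d e => funext fun r => ?_)
    (fun d _ => ⟨wv (d (some ()) + d none) (-d none), funext fun r => ?_⟩)
    (fun n => ⟨0, fun i => i.elim⟩)
    (lev_cone (fun _ a => a.1) (fun s hs y hy => And.intro (pE_act h hs hy.1) (act_zero _ _ hy.2))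
      (fun z => lft_mem) fun y hy => ⟨1, isUnit_one, _, mem_lft hy, ?_⟩)
  · rcases j with j | l
    · exact wh_X (by rcases r with _ | _ <;> simp [Flag.pE, tB, blT, Tgt.fam, mB', wv])
    · fin_cases l
      · exact wh_X (by rcases r with _ | _ <;> simp [Flag.pE, tB, blT, Tgt.fam, mB', wv])
      · exact wh_X (by
          rcases r with _ | _ <;> simp [Flag.pE, tB, blT, Tgt.fam, mB', wv, sub_eq_neg_add])
      · exact isWeightedHomogeneous_zero _ _ _
      · exact wh_X (by rcases r with _ | _ <;> simp [Flag.pE, tB, blT, Tgt.fam, mB', wv])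
  · have h1 := e none
    have h2 := e (some ())
    simp [mB', wv] at h1 h2
    rcases r with _ | _
    exacts [h1, by simpa [h1] using h2]
  · rcases r with _ | _ <;> simp [mB', wv]
  · rw [act_one, ev_B]
    funext j
    rcases j with j | l
    · rfl
    · fin_cases l
      exacts [rfl, rfl, hy.2, rfl]

theorem EP.tB_inv : f.tB.Inv := by
  refine fam_inv (fun k α hα i => (wh_iff (w := fun j => f.blT.w j i)).1 ?_ α hα) ?_
    fun t ht y hy => ⟨?_, by simpa only [act_ne _ ht] using hy.2⟩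
  · rcases k with k | _ | _
    · exact wh_ren (h.W.hom k) (fun _ => rfl) (by rcases i with _ | _ <;> simp [wv])
    · exact wh_eq (hF h) (fun _ => rfl) (by rcases i with _ | _ <;> simp [wv])
        (by rcases i with _ | _ <;> simp [blT, wv])
    · exact wh_eq (hG h) (fun _ => rfl) (by rcases i with _ | _ <;> simp [wv])
        (by rcases i with _ | _ <;> simp [blT, wv])
  · have c : ∀ j : J ⊕ Fin 3, IsOpen {y : J ⊕ Fin 3 → ℂ | y j ≠ 0} :=
      fun j => isOpen_ne_fun (by fun_prop) continuous_const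
    exact (isOpen_ne_fun (by fun_prop) continuous_const).inter ((c _).union (c _))
  · obtain ⟨j, hj⟩ := Function.ne_iff.1 hy.1
    exact Function.ne_iff.2 ⟨j, (act_ne _ ht).2 hj⟩

theorem Ok.tB : f.tB.Tg := by
  have h4 : (1 : ℤ) ≤ f.a := by exact_mod_cast h.D.pos none
  refine ⟨Fam.Weak.good' (θ := f.θB) (N := 1) ⟨tB_inv h, fun k => ?_,
    fun _ _ _ _ _ => Subsingleton.elim _ _, fun _ _ _ _ _ _ _ _ _ _ => ⟨0, fun _ i => i.elim⟩,
    fun _ _ _ => ?_, univ_nonempty⟩ ⟨rfl, one_pos, fun c hc z hz => ?_⟩ (fun j o => ?_),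
    Fam.reg_univ fun z hz c => ?_, rfl, rfl, rfl⟩
  · change (MvPolynomial.map C (f.blT.F k)).totalDegree ≠ 0
    rw [totalDegree, support_map_of_injective _ (C_injective _ _), ← totalDegree]
    rcases k with k | _ | _
    · exact deg_ne (h.W.hom k) (h.W.pos k) (h.W.ne k) (aeval_ren _)
    · exact deg_ne (hF h) (h.Z.pos none) (h.Z.ne none) (aeval_eq _ _ _)
    · exact deg_ne (hG h) (h.D.pos none) (h.D.ne none) (aeval_eq _ _ _)
  · obtain ⟨D, h1, h2, h3⟩ := pE_cpt h 0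
    refine ⟨(fun y => (Empty.elim, y ∘ φB)) '' (D ∩ {y | y (.inr 2) = 0}), ?_,
      (h2.inter_right (isClosed_eq (continuous_apply _) continuous_const)).image (by fun_prop),
      fun z hz _ => ?_⟩
    · rintro _ ⟨y, hy, rfl⟩
      exact mem_lft ⟨h1 hy.1, hy.2⟩
    · have h5 := lft_mem hz
      obtain ⟨s, hs, h6⟩ := h3 _ h5.1 (by simp [σB])
      have h7 := isUnit_pi_iff.1 hs
      let r : Option Unit → ℂ := fun o => o.elim (s none)⁻¹ fun _ => s (some ()) * s none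
      have hr : IsUnit r := isUnit_pi_iff.2 (by
        rintro (_ | _)
        exacts [inv_ne_zero (h7 _), mul_ne_zero (h7 _) (h7 _)])
      have e := congrArg Prod.snd ((h.pres_B').evσ_act hr z)
      rw [show (fun r' => ∏ i, r i ^ mB' r' i) = s from funext fun o => by
        rcases o with _ | _ <;> simp [r, mB', wv, mul_comm (s (some ())), h7], evσ_C, evσ_C] at e
      refine ⟨r, hr, _, ⟨h6, act_zero _ _ h5.2⟩, Prod.ext (Subsingleton.elim _ _) ?_⟩
      rw [← fam_act f.pE.toTgt f.pE.χ (1, s) (z.1, _)]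
      exact funext fun j => (congrFun e _).symm.trans (by simp only [σB_φB, eval_X])
  · obtain ⟨j, hj⟩ := Function.ne_iff.1 (mem_tB.1 hz).1.1
    have h1 : 2 ≤ c (some ()) - c none ∧ c (some ()) - c none ≤ 4 ∧ 6 * f.a + 6 ≤ c (some ()) := by
      rcases hc with rfl | ⟨_ | _, rfl | rfl⟩ <;> simp [θB, wv] <;> omega
    rcases (mem_tB.1 hz).1.2 with a | a
    · refine mon2 _ (a := .inl j) hj a (n := c (some ()) - c none)
        (m := c (some ()) - (f.a + 1) * (c (some ()) - c none)) (by nlinarith) (by omega) ?_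
      rintro (_ | _) <;> simp [Flag.tB, blT, Tgt.fam, wv] <;> ring
    · refine mon2 _ (a := .inl j) hj a (n := c (some ()) - c none)
        (m := c (some ()) - f.a * (c (some ()) - c none)) (by nlinarith) (by omega) ?_
      rintro (_ | _) <;> simp [Flag.tB, blT, Tgt.fam, wv] <;> ring
  · rcases j with j | l
    · rcases o with _ | _ <;> exact zero_le_one
    · fin_cases l <;> rcases o with _ | _ <;> simp [Flag.tB, blT, Tgt.fam, wv] <;> omega
  · obtain ⟨a, b, d, e⟩ := mem_tB.1 hz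
    obtain ⟨η, p, q, h1, h2, h3⟩ := lin h a.1 b (e := z.2 (.inr 2))
      (fun h0 => by rw [d, e, h0, mul_zero, mul_zero]; exact ⟨rfl, rfl⟩) c
    refine ⟨Sum.elim η ![p, q, 0], fun _ a => (a trivial).elim, fun k => ?_⟩
    simp only [Fam.jac, show (f.tB.fib z.1).F k = f.blT.F k from map_eval_map_C _ _]
    rcases k with k | _ | _
    · exact (sum_pderiv_rename _ _ _).trans (h1 k)
    · exact (sum_pderiv_eq _ _ _ _ _).trans (by simpa using h2)
    · exact (sum_pderiv_eq _ _ _ _ _).trans (by simpa using h3)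

omit h in
theorem EP.mem_pj {r : ℕ} {a : Fin (r + 1) → Unit → ℤ} {θ z} : z ∈ (f.tZ.proj a θ).cone ↔
    (z.2 ∘ .inl ≠ 0 ∧ (∀ k, eval (z.2 ∘ .inl) (f.H k) = 0) ∧ eval (z.2 ∘ .inl) f.F = 0 ∧
      eval (z.2 ∘ .inl) f.G = 0) ∧ z.2 ∘ .inr ≠ 0 :=
  (Fam.Pl.mem_proj ⟨rfl, rfl, rfl, rfl⟩).trans (and_congr_left' (mem_ciF.trans mem_Z))

omit h in
theorem EP.ev_Q (y : J ⊕ Fin 3 → ℂ) : (fun j => eval y (σQ j)) =
    Sum.elim (y ∘ .inl) ![y (.inr 0), y (.inr 1), y (.inr 2), 0] := funext fun j => by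
  rcases j with j | l
  · simp [σQ]
  · fin_cases l <;> simp [σQ]

omit h in
theorem EP.mem_Q {θ y} (hy : y ∈ f.pE.mem false t) :
    (Empty.elim, y ∘ Sum.map id Fin.castSucc) ∈ (f.tQ θ).cone := by
  obtain ⟨a, b, c, d⟩ := mem_pE.1 hy.1
  rw [show y (.inr 3) = 0 from hy.2, zero_mul] at c d
  exact mem_pj.2 ⟨⟨a.1, b, c, d⟩, a.2⟩

omit h in
theorem EP.σQ_φ (j : J ⊕ Fin 3) : σQ (Sum.map id Fin.castSucc j) = X j := by
  rcases j with j | l
  · rfl
  · fin_cases l <;> rfl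

theorem Ok.pres_Q (θ) : (f.tQ θ).Pres (f.pE.lev (f.pE.mem false t)) (Sum.map id Fin.castSucc)
    Empty.elim (fun r r' => if r = r' then 1 else 0) fun j => MvPolynomial.map C (σQ j) := by
  refine Fam.Pl.pres (Fam.proj_pl _ _ _) (Fam.lev_pl _ _)
    (Sum.map_injective.2 ⟨injective_id, Fin.castSucc_injective _⟩) σQ_φ (fun i => i.elim)
    (fun j α hα r => (wh_iff (w := fun j => (f.tQ θ).w j r)).1 ?_ α hα)
    (fun d e => funext fun r => by simpa using e r) (fun d _ => ⟨d, by simp⟩)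
    (fun n => ⟨0, fun i => i.elim⟩)
    (lev_cone (fun _ a => a.1) (fun s hs y hy => And.intro (pE_act h hs hy.1) (act_zero _ _ hy.2))
      (fun z hz => ?_) fun y hy => ⟨1, isUnit_one, _, mem_Q hy, ?_⟩)
  · simp only [mul_ite, mul_one, mul_zero, Finset.sum_ite_eq', Finset.mem_univ, if_true]
    rcases j with j | l
    · exact wh_X (by rcases r with _ | _ <;> rfl)
    · fin_cases l
      exacts [wh_X (by rcases r with _ | _ <;> rfl), wh_X (by rcases r with _ | _ <;> rfl),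
        wh_X (by rcases r with _ | _ <;> rfl), isWeightedHomogeneous_zero _ _ _]
  · obtain ⟨⟨a, b, c, d⟩, e⟩ := mem_pj.1 hz
    rw [ev_Q]
    refine ⟨mem_pE.2 ⟨⟨a, fun e' => e (funext fun l => ?_)⟩, b, c.trans (zero_mul _).symm,
      d.trans (zero_mul _).symm⟩, rfl⟩
    fin_cases l
    exacts [congrFun e' 0, congrFun e' 1, congrFun e' 2]
  · rw [act_one, ev_Q]
    funext j
    rcases j with j | l
    · rfl
    · fin_cases l
      exacts [rfl, rfl, rfl, hy.2]

theorem Ok.ret_Q (θ) : f.pE.Ret (f.pE.mem false t) (f.tQ θ) σQ (fun r r' => if r = r' then 1 else 0)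
    (X ∘ Sum.map id Fin.castSucc) where
  hom j α hα i := wh_iff.1 (wh_X (by
    simp only [mul_ite, mul_one, mul_zero, Finset.sum_ite_eq', Finset.mem_univ, if_true]
    rcases j with j | l
    · rcases i with _ | _ <;> rfl
    · fin_cases l <;> rcases i with _ | _ <;> rfl)) α hα
  maps y hy := by
    simp only [comp_apply, eval_X]
    exact mem_Q hy
  inv j := (aeval_X _ _).trans (σQ_φ j)

omit h in
theorem EP.ev_E (y : J ⊕ Fin 2 → ℂ) : (fun j => eval y (σE j)) =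
    Sum.elim (y ∘ .inl) ![y (.inr 0), y (.inr 1), 0, 0] := funext fun j => by
  rcases j with j | l
  · simp [σE]
  · fin_cases l <;> simp [σE]

omit h in
theorem EP.mem_E {θ y} (hy : y ∈ f.pE.dvs) :
    (Empty.elim, y ∘ Sum.map id ![0, 1]) ∈ (f.tE θ).cone := by
  obtain ⟨a, b, c, d⟩ := mem_pE.1 hy.1
  rw [show y (.inr 3) = 0 from hy.2.2, zero_mul] at c d
  exact mem_pj.2 ⟨⟨a.1, b, c, d⟩, fun e => hy.1.1.2.elim (fun e' => e' (congrFun e 0))
    fun e' => e'.elim (fun e' => e' (congrFun e 1)) fun e' => e' hy.2.1⟩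

omit h in
theorem EP.σE_φ (j : J ⊕ Fin 2) : σE (Sum.map id ![0, 1] j) = X j := by
  rcases j with j | l
  · rfl
  · fin_cases l <;> rfl

theorem Ok.pres_E (θ) : (f.tE θ).Pres (f.pE.lev f.pE.dvs) (Sum.map id ![0, 1])
    Empty.elim (fun r r' => if r = r' then 1 else 0) fun j => MvPolynomial.map C (σE j) := by
  refine Fam.Pl.pres (Fam.proj_pl _ _ _) (Fam.lev_pl _ _)
    (Sum.map_injective.2 ⟨injective_id, by decide⟩) σE_φ (fun i => i.elim)
    (fun j α hα r => (wh_iff (w := fun j => (f.tE θ).w j r)).1 ?_ α hα)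
    (fun d e => funext fun r => by simpa using e r) (fun d _ => ⟨d, by simp⟩)
    (fun n => ⟨0, fun i => i.elim⟩)
    (lev_cone (fun _ a => a.1) (fun s hs y hy => And.intro (pE_act h hs hy.1)
      ⟨act_zero _ _ hy.2.1, act_zero _ _ hy.2.2⟩)
      (fun z hz => ?_) fun y hy => ⟨1, isUnit_one, _, mem_E hy, ?_⟩)
  · simp only [mul_ite, mul_one, mul_zero, Finset.sum_ite_eq', Finset.mem_univ, if_true]
    rcases j with j | l
    · exact wh_X (by rcases r with _ | _ <;> rfl)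
    · fin_cases l
      exacts [wh_X (by rcases r with _ | _ <;> rfl), wh_X (by rcases r with _ | _ <;> rfl),
        isWeightedHomogeneous_zero _ _ _, isWeightedHomogeneous_zero _ _ _]
  · obtain ⟨⟨a, b, c, d⟩, e⟩ := mem_pj.1 hz
    rw [ev_E]
    refine ⟨mem_pE.2 ⟨⟨a, fun e' => e (funext fun l => ?_)⟩, b, c.trans (zero_mul _).symm,
      d.trans (zero_mul _).symm⟩, rfl, rfl⟩
    fin_cases l
    exacts [congrFun e' 0, congrFun e' 1]
  · rw [act_one, ev_E]
    funext j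
    rcases j with j | l
    · rfl
    · fin_cases l
      exacts [rfl, rfl, hy.2.1, hy.2.2]

theorem Ok.ret_E (θ) : f.pE.Ret f.pE.dvs (f.tE θ) σE (fun r r' => if r = r' then 1 else 0)
    (X ∘ Sum.map id ![0, 1]) where
  hom j α hα i := wh_iff.1 (wh_X (by
    simp only [mul_ite, mul_one, mul_zero, Finset.sum_ite_eq', Finset.mem_univ, if_true]
    rcases j with j | l
    · rcases i with _ | _ <;> rfl
    · fin_cases l <;> rcases i with _ | _ <;> rfl)) α hα
  maps y hy := by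
    simp only [comp_apply, eval_X]
    exact mem_E hy
  inv j := (aeval_X _ _).trans (σE_φ j)

end Vale.Agent.P269.Flag
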