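import Vale.Agent.P269.Asm.Fin0
import Vale.Agent.P269.Glu.NdG
import Vale.Agent.P269.LG.HN
import Vale.Agent.P269.LG.HS
import Vale.Agent.P269.LG.HV
import Vale.Agent.P269.Edg.Main
import Vale.Agent.P269.Pub.T7
import Vale.Agent.P269.Hdx.Fin

/-!
# The Virasoro conjecture for complete intersections
-/

namespace Vale.Agent.P269

theorem St.lFour : St.LFour := fun G h hD =>
  ⟨G.hN h hD St.gnc, G.hS h hD, G.hE h hD,
    G.hV h hD (St.spec_of St.well) St.wellD (St.rel St.dg)⟩

theorem St.main : St.Main := St.main_fr St.lFour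

open MvPolynomial in
theorem Tf.conj (N r : ℕ) (d : Fin r → ℕ) (F : Fin r → MvPolynomial (Fin (N + 1)) ℂ)
    (hF : ∀ k, (F k).IsHomogeneous (d k))
    (hs : ∀ x ∈ Pub.cone F, LinearIndependent ℂ fun k j => eval x (pderiv j (F k)))
    (hc : ConnectedSpace (Pub.Var F)) : Pub.Conj F (N - r) :=
  Tf.conj_of St.main St.well St.pres St.hdgEx N r d F hF hs hc

end Vale.Agent.P269
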