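import Vale.Agent.P269.Asm.QGood
import Vale.Agent.P269.Prj.Tgt

/-!
# The projection of the caps to the divisor
-/

set_option linter.unusedSectionVars false

namespace Vale.Agent.P269.Pre

open P291Z Set Function Topology Filter MvPolynomial Holo Mono Tq

variable {S Λ R J K : Type} [Fintype S] [Fintype Λ] [Fintype R] [Fintype J] [Fintype K]
  [DecidableEq R] (P : Pre R J K)

/-- The point of the divisor with the old fields `x`. -/
noncomputable def kp (x : J → ℂ) : (Option Empty → ℂ) × (P.QJ → ℂ) :=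
  (lt 0, Sum.elim (Sum.elim x ![0, 0, 1, 1]) fun p => ∏ j, Sum.elim x ![0, 0, 1, 1] j ^ p.α j)

/-- The projection to the divisor. -/
noncomputable def kap (z : (Λ → ℂ) × (P.QJ → ℂ)) : (Option Empty → ℂ) × (P.QJ → ℂ) :=
  P.kp (z.2 ∘ P.o)

/-- The homomorphism of tori that belongs to `kp`. -/
noncomputable def kt (τ : R → ℂ) : R ⊕ Bool → ℂ :=
  Sum.elim (fun r => if r = P.η then 1 else τ r) fun o => cond o (τ P.η ^ P.β) (τ P.η)

/-- The homomorphism of tori that belongs to `kap`. -/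
noncomputable def kth (t : (S → ℂ) × (R ⊕ Bool → ℂ)) : (Empty → ℂ) × (R ⊕ Bool → ℂ) :=
  (1, P.kt (P.dn t.2))

/-- The restriction of a character to the divisor. -/
def dχ (χ : R ⊕ Bool → ℤ) (r : R) : ℤ :=
  if r = P.η then χ (.inr false) + P.β * χ (.inr true) else χ (.inl r)

theorem dχ_up (c : R → ℤ) : P.dχ (P.up c) = c := funext fun r => by
  by_cases h : r = P.η <;> simp [dχ, up, h]

theorem dχ_b : P.dχ (P.W.w P.b) = Pi.single P.η 1 := funext fun r => by
  by_cases h : r = P.η <;> simp [dχ, qw, b, h]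

theorem dχ_c : P.dχ (P.W.w P.c) = -Pi.single P.η 1 := funext fun r => by
  by_cases h : r = P.η <;> simp [dχ, qw, c, h]

variable {P}

theorem prod_kt {τ : R → ℂ} (h : ∀ r, τ r ≠ 0) (χ : R ⊕ Bool → ℤ) :
    ∏ i, P.kt τ i ^ χ i = ∏ r, τ r ^ P.dχ χ r := by
  rw [Fintype.prod_sum_type, ← Finset.mul_prod_erase _ _ (Finset.mem_univ P.η),
    ← Finset.mul_prod_erase _ (fun r => τ r ^ P.dχ χ r) (Finset.mem_univ P.η),
    Finset.prod_congr rfl fun r hr => show P.kt τ (.inl r) ^ χ (.inl r) = τ r ^ P.dχ χ r by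
      simp [kt, dχ, (Finset.mem_erase.1 hr).1]]
  simp only [kt, dχ, Sum.elim_inl, Sum.elim_inr, if_true, one_zpow, one_mul, Fintype.prod_bool,
    cond_true, cond_false, zpow_add₀ (h _), zpow_mul, zpow_natCast]
  ring

theorem dn_ne {t : R ⊕ Bool → ℂ} (h : ∀ i, t i ≠ 0) (r : R) : P.dn t r ≠ 0 :=
  mul_ne_zero (h _) (by split_ifs; exacts [h _, one_ne_zero])

theorem kt_ne {τ : R → ℂ} (h : ∀ r, τ r ≠ 0) : ∀ i, P.kt τ i ≠ 0
  | .inl r => by simp only [kt, Sum.elim_inl]; split_ifs; exacts [one_ne_zero, h r]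
  | .inr true => pow_ne_zero _ (h _)
  | .inr false => h _

theorem kp_act {τ : R → ℂ} (h : ∀ r, τ r ≠ 0) (x : J → ℂ) :
    P.kp (P.act τ x) = P.W.actT (1, P.kt τ) (P.kp x) := by
  have e : ∀ j, Sum.elim (P.act τ x) ![0, 0, 1, 1] j =
      (P.W.actT (1, P.kt τ) (P.kp x)).2 (.inl j) := by
    intro j
    rw [Wt.actT_snd, chT, Fintype.prod_empty, one_mul, prod_kt h]
    rcases j with j | j
    · exact congrArg (fun c => (∏ r, τ r ^ c r) * x j) (P.dχ_up (P.w j)).symm
    · have z : ∀ c : R → ℤ, c = 0 → (1 : ℂ) = (∏ r, τ r ^ c r) * 1 := fun c hc => by simp [hc]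
      fin_cases j
      · exact (mul_zero _).symm
      · exact (mul_zero _).symm
      · exact z _ (funext fun r => by by_cases h : r = P.η <;> simp [dχ, qw, h])
      · exact z _ (funext fun r => by by_cases h : r = P.η <;> simp [dχ, qw, h])
  refine Prod.ext (P.W.actL_one _).symm (funext fun j => ?_)
  rcases j with j | p
  · exact e j
  · have := (P.qW (Λ₀ := Empty) Empty.elim Empty.elim).mon_act (t := P.kt τ)
      (isUnit_pi_iff.2 (kt_ne h)) (lt 0, Sum.elim x ![0, 0, 1, 1]) p.wt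
    rw [Wt.actT_snd, chT, Fintype.prod_empty, one_mul]
    exact (Finset.prod_congr rfl fun j _ => congrArg (· ^ p.α j) (e j)).trans this

theorem kp_mem {x : J → ℂ} (hx : x ∈ P.dvs) (e e' : Bool) : P.kp x ∈ (P.pD e e').cone :=
  (cone_pD false false e e').le (fam_mem.2 ⟨⟨trivial, rfl⟩,
    ⟨hx.1, hx.2.1, hx.2.2, .inl one_ne_zero, .inl one_ne_zero, .inl one_ne_zero⟩, mul_zero _,
    fun _ h => h.elim (fun e => e ▸ rfl) fun e => e ▸ rfl, fun _ => rfl⟩)

theorem continuous_kp : Continuous P.kp := by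
  have : ∀ j, Continuous fun x : J → ℂ => Sum.elim x ![0, 0, 1, 1] j :=
    Sum.rec (fun j => continuous_apply j) fun _ => continuous_const
  exact continuous_const.prodMk (continuous_pi (Sum.rec this fun p =>
    continuous_finsetProd _ fun j _ => (this j).pow _))

theorem hm_kth : Hm (P.kth : (S → ℂ) × (R ⊕ Bool → ℂ) → _) := by
  have c : ∀ r, Continuous fun t : (S → ℂ) × (R ⊕ Bool → ℂ) => P.dn t.2 r := fun r => by
    unfold dn; split_ifs <;> fun_prop
  have m : ∀ a b : R ⊕ Bool → ℂ, P.dn (a * b) = P.dn a * P.dn b := fun a b => funext fun r => by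
    simp only [dn, Pi.mul_apply]; split_ifs <;> ring
  refine ⟨Prod.ext rfl (funext fun i => ?_), fun a b _ _ => Prod.ext (mul_one _).symm
    (funext fun i => ?_), fun a _ => (continuous_const.prodMk (continuous_pi fun i => ?_)).continuousAt⟩
  · rcases i with r | _ | _ <;> simp [kth, kt, dn]
  · rcases i with r | _ | _ <;> simp [kth, kt, m, mul_pow]
    split_ifs <;> simp
  · rcases i with r | _ | _
    · simp only [kt, Sum.elim_inl]; split_ifs; exacts [continuous_const, c r]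
    · exact c _
    · exact (c _).pow _

variable {W : Wt S Λ (R ⊕ Bool) P.QJ} (hw : W.w = P.W.w) (ho : ∀ j, W.wt (P.o j) = 0)
  {A : Set ((Λ → ℂ) × (P.QJ → ℂ))} (hA : ∀ z ∈ A, z.2 ∘ P.o ∈ P.dvs)
include hw ho

theorem old_act {t : (S → ℂ) × (R ⊕ Bool → ℂ)} (ht : IsUnit t) (z) :
    (W.actT t z).2 ∘ P.o = P.act (P.dn t.2) (z.2 ∘ P.o) := funext fun j => by
  rw [comp_apply, Wt.actT_snd, chT, ho, hw]
  simp only [Pi.zero_apply, zpow_zero, Finset.prod_const_one, one_mul]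
  exact congrArg (· * _) (prod_up t.2 (Prod.isUnit_iff.1 ht).2 (P.w j))

include hA

theorem eqh_kap (e e' : Bool) : Eqh W.actT P.W.actT A (P.pD e e').cone P.kth P.kap :=
  ⟨hm_kth, fun z hz => kp_mem (hA z hz) e e',
    (continuous_kp.comp (continuous_pi fun _ => (continuous_apply _).comp continuous_snd)).continuousOn,
    fun t ht z _ => by rw [kap, old_act hw ho ht, kp_act (dn_ne (isUnit_T.1 ht).2)]; rfl⟩

theorem kap_lc (e e' : Bool) [FP W.actT A] [FP P.W.actT (P.pD e e').cone] (χ : R ⊕ Bool → ℤ) :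
    W.pb P.W P.kap A (P.W.lc (P.pD e e').cone 0 χ) = W.lc A 0 (P.up (P.dχ χ)) :=
  Wt.pb_lc (eqh_kap hw ho hA e e') fun t ht => by
    simp only [chT, Pi.zero_apply, zpow_zero, Finset.prod_const_one, one_mul]
    rw [prod_up t.2 (Prod.isUnit_iff.1 ht).2]
    exact prod_kt (dn_ne (isUnit_T.1 ht).2) χ

omit hw ho hA

theorem Pt.dvs {x : J → ℂ} {q : Fin 4 → ℂ} (h : P.Pt false false x q) : x ∈ P.dvs :=
  ⟨h.mem, h.z, h.z'⟩

theorem old_pD {e e' : Bool} : ∀ z ∈ (P.pD e e').cone, z.2 ∘ P.o ∈ P.dvs := fun _ hz =>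
  (fam_mem.1 ((cone_pD e e' false false).le hz)).2.1.dvs

/-- On the divisor the projection is the identity. -/
theorem kap_eq {e e' : Bool} {z} (hz : z ∈ (P.pD e e').cone) :
    ∃ t, IsUnit t ∧ P.kap z = P.W.actT t z := by
  obtain ⟨h1, h2, -, h4, h5⟩ := fam_mem.1 hz
  have hb := h4 _ (.inl rfl)
  have hc := h4 _ (.inr rfl)
  have hy : z.2 P.y ≠ 0 := h2.y.resolve_right fun a => a.2 hb
  have hy' : z.2 P.y' ≠ 0 := h2.y'.resolve_right fun a => a.2 hc
  obtain ⟨t, ht, e⟩ := QAmp.exists_t (P := P) (S := Empty) (Λ₀ := Empty) Empty.elim Empty.elim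
    (τ := 1) (s := z.2 P.y' / z.2 P.y) (u := (z.2 P.y)⁻¹) isUnit_one (div_ne_zero hy' hy)
    (inv_ne_zero hy)
  have e' : ∀ j, Sum.elim (z.2 ∘ P.o) ![0, 0, 1, 1] j =
      ((P.qW (Λ₀ := Empty) Empty.elim Empty.elim).actT (1, t) (z.1, z.2 ∘ .inl)).2 j := by
    rw [e]
    rintro (j | j)
    · simp [Tgt.act]
    · fin_cases j
      · exact (mul_eq_zero_of_right _ hb).symm
      · exact (mul_eq_zero_of_right _ hc).symm
      · exact (inv_mul_cancel₀ hy).symm
      · change (1 : ℂ) = 1 * (z.2 P.y' / z.2 P.y)⁻¹ * (z.2 P.y)⁻¹ * z.2 P.y'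
        field_simp
  refine ⟨(1, t), Prod.isUnit_iff.2 ⟨isUnit_one, ht⟩, Prod.ext ?_ (funext fun j => ?_)⟩
  · exact ((slab_eq 0).le h1).symm.trans (P.W.actL_one _).symm
  rcases j with j | p
  · exact e' j
  · have := (P.qW (Λ₀ := Empty) Empty.elim Empty.elim).mon_act ht (z.1, z.2 ∘ .inl) p.wt
    rw [Wt.actT_snd, chT, Fintype.prod_empty, one_mul, h5]
    exact (Finset.prod_congr rfl fun j _ => congrArg (· ^ p.α j) (e' j)).trans this

theorem pb_kap_self (e e' : Bool) (c : H (P.W.X (P.pD e e').cone)) :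
    P.W.pb P.W P.kap (P.pD e e').cone c = c := by
  have h := (eqh_kap (P := P) (W := P.W) rfl (fun _ => rfl) (old_pD (e := e) (e' := e')) e e').toEqv
  rw [Wt.pb_eq h]
  exact H.map_id (h.qm_id fun _ => kap_eq) c

end Vale.Agent.P269.Pre
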