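import Vale.Agent.P269.Asm.Prj
import Vale.Agent.P269.Prj.Geo

/-!
# The projective line as a parameter space
-/

set_option linter.unusedSectionVars false
set_option linter.style.haveILetI false

namespace Vale.Agent.P269

open P291Z Set Function Topology Filter Holo Mono Tq

/-- The parameters of the projective line. -/
abbrev bP1 : Set (Option (Fin 2) → ℂ) := slab {0}ᶜ 0

theorem mfd_P10 {l : Fin 2 → ℂ} (hl : l ≠ 0) : MfdAt {0}ᶜ 2 l := by
  simpa using (MfdAt.univ l).congr ((isOpen_compl_singleton.eventually_mem hl).mono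
    fun _ a => iff_of_true trivial a)

theorem eta_P1 {l : Option (Fin 2) → ℂ} (hl : l ∈ bP1) :
    (fun o : Option (Fin 2) => o.elim 0 (l ∘ some)) = l :=
  funext fun o => o.rec hl.2.symm fun _ => rfl

theorem mfd_P1 (l : bP1) : IsMfd (Subtype.val : bP1 → _) 2 l := by
  have := (mfd_P10 l.2.1).iso (S' := bP1) (F := fun s o => o.elim 0 s) (G := fun s => s ∘ some)
    (analyticAt_pi_iff.2 fun o => o.rec analyticAt_const (analyticAt_pi_iff.1 analyticAt_id))
    (analyticAt_pi_iff.2 fun _ => analyticAt_pi_iff.1 analyticAt_id _)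
    (.of_forall fun s a => ⟨⟨a, rfl⟩, rfl⟩) (.of_forall fun s a => ⟨a.1, eta_P1 a⟩)
  rw [eta_P1 l.2] at this
  exact this.isMfd l.2

theorem mfd_P1' : ∃ n, ∀ l : ({0}ᶜ : Set (Fin 2 → ℂ)), IsMfd Subtype.val n l :=
  ⟨2, fun l => (mfd_P10 l.2).isMfd l.2⟩

variable {R J : Type} [Fintype R] [Fintype J] {W : Wt Unit (Option (Fin 2)) R J}
  (h : ∀ i, W.wl (some i) = -1)
include h

theorem Wt.some_P1 (τ l) : W.actL τ l ∘ some = (τ ())⁻¹ • l ∘ some :=
  funext fun i => by simp [Wt.actL, h]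

theorem Wt.act_P1 {τ : Unit → ℂ} (hτ : IsUnit τ) {l} (hl : l ∈ bP1) : W.actL τ l ∈ bP1 :=
  ⟨by
    rw [Wt.some_P1 h]
    exact smul_ne_zero (inv_ne_zero (isUnit_pi_iff.1 hτ _)) hl.1,
    (congrArg (_ * ·) hl.2).trans (mul_zero _)⟩

theorem Wt.fp_P1 : FP W.actL bP1 := by
  refine fp_of (fun _ hτ _ => Wt.act_P1 h hτ) ((isOpen_compl_singleton.preimage
    (f := fun l : Option (Fin 2) → ℂ => l ∘ some) (by fun_prop)).isLocallyClosed.inter
      (isClosed_eq (continuous_apply none) continuous_const).isLocallyClosed)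
    (fun τ hτ l hl e => ?_) fun x a x₀ x₁ _ _ h3 h4 h5 h6 h7 => ?_
  · have h1 := Wt.some_P1 h τ l
    rw [e, eq_comm, ← sub_eq_zero] at h1
    nth_rw 2 [← one_smul ℂ (l ∘ _)] at h1
    rw [← sub_smul, smul_eq_zero, sub_eq_zero, inv_eq_one] at h1
    exact funext fun _ => h1.resolve_right hl.1
  · obtain ⟨C, hC⟩ := bdd_of_smul h3.1 h4.1
      (((continuous_pi fun _ => continuous_apply _).tendsto _).comp h5)
      ((((continuous_pi fun _ => continuous_apply _).tendsto _).comp h6).congr fun n =>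
        Wt.some_P1 h (a n) (x n))
    obtain ⟨n, h8, h9⟩ := (hC.and (h7.eventually_gt_atTop (max C 0))).exists
    exact h9.not_ge ((pi_norm_le_iff_of_nonneg (le_max_right _ _)).2 fun _ =>
      le_max_of_le_left (by simpa using h8.2))

theorem Wt.eqh_P1 : Eqh W.actL (pjT 1).actT bP1 (pjT 1).cone
    (fun τ => (1, fun o => o.elim (τ ())⁻¹ 1)) fun l => (0, Sum.elim 1 (l ∘ some)) :=
  ⟨⟨Prod.ext rfl (funext fun o => o.rec inv_one fun _ => rfl), fun _ _ _ _ =>
    Prod.ext (mul_one _).symm (funext fun o => o.rec (mul_inv _ _) fun _ => (mul_one _).symm),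
    fun _ ha => continuousAt_const.prodMk (continuousAt_pi.2 fun o => o.rec
      ((continuous_apply ()).continuousAt.inv₀ (isUnit_pi_iff.1 ha _)) fun _ => continuousAt_const)⟩,
    fun _ hl => mem_pjT.2 ⟨one_ne_zero, hl.1⟩,
    (continuous_const.prodMk (continuous_pi fun j => j.rec (fun _ => continuous_const)
      fun _ => continuous_apply _)).continuousOn,
    fun τ _ l _ => Prod.ext (Subsingleton.elim _ _) (funext fun j => j.rec
      (fun j => ((congrFun (pjT_inl _ _) j).trans (one_mul _)).symm) fun j =>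
        (congrFun (Wt.some_P1 h τ l) j).trans (congrFun (pjT_inr (r := 1)
          (1, fun o => o.elim (τ ())⁻¹ 1) (0, Sum.elim 1 (l ∘ some))) j).symm)⟩

theorem Wt.homeo_P1 : IsHomeomorph (Wt.eqh_P1 h).toEqv.qm := by
  have k : Eqv (pjT 1).actT W.actL (pjT 1).cone bP1 fun z o => o.elim 0 (z.2 ∘ .inr) := by
    refine ⟨fun z hz => ⟨(mem_pjT.1 hz).2, rfl⟩, (continuous_pi fun o => o.rec continuous_const
      fun j => (continuous_apply (Sum.inr j)).comp continuous_snd).continuousOn, fun t ht z _ =>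
      ⟨fun _ => (t.2 none)⁻¹, isUnit_pi_iff.2 fun _ => inv_ne_zero ((isUnit_T.1 ht).2 _),
        funext ?_⟩⟩
    rintro (_ | j)
    · exact (mul_zero _).symm
    · exact (congrFun (pjT_inr t z) j).trans
        ((congrFun (Wt.some_P1 h _ _) j).trans (by rw [inv_inv]; rfl)).symm
  refine ((Wt.eqh_P1 h).toEqv.homeo k
    (fun l hl => ⟨1, isUnit_one, (eta_P1 hl).trans (W.actL_one l).symm⟩) fun z hz => ?_).isHomeomorph
  have h0 : z.2 (.inl ()) ≠ 0 := (Function.ne_iff.1 (mem_pjT.1 hz).1).choose_spec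
  refine ⟨(1, fun o => o.elim 1 fun _ => (z.2 (.inl ()))⁻¹), isUnit_T.2 ⟨fun _ => one_ne_zero, ?_⟩,
    Prod.ext (Subsingleton.elim _ _) (funext ?_)⟩
  · rintro (_ | _)
    exacts [one_ne_zero, inv_ne_zero h0]
  · rintro (j | j)
    exacts [((congrFun (pjT_inl _ _) j).trans (inv_mul_cancel₀ h0)).symm,
      ((congrFun (pjT_inr _ _) j).trans (one_mul _)).symm]

theorem Wt.compact_P1 : CompactSpace (W.Bs bP1) :=
  haveI := (pjT_tg (r := 1)).compact
  ((Wt.homeo_P1 h).homeomorph _).symm.compactSpace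

omit h in
theorem Wt.connected_P1' : ConnectedSpace (W.Bs bP1) := by
  haveI := isConnected_iff_connectedSpace.1 (isConnected_compl_singleton_of_one_lt_rank
    (E := Fin 2 → ℂ) (by
      rw [← Module.finrank_eq_rank, Module.finrank_pi_fintype]; simp) 0)
  refine Surjective.connectedSpace (f := fun l : ({0}ᶜ : Set (Fin 2 → ℂ)) =>
    Quo.mk W.actL (⟨fun o => o.elim 0 l.1, l.2, rfl⟩ : bP1)) (fun z => ?_)
    (Tq.continuous_mk.comp ((continuous_pi fun o => o.rec continuous_const fun _ =>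
      (continuous_apply _).comp continuous_subtype_val).subtype_mk _))
  obtain ⟨l, rfl⟩ := mk_surj z
  exact ⟨⟨_, l.2.1⟩, congrArg _ (Subtype.ext (eta_P1 l.2))⟩

theorem Wt.connected_P1 : ConnectedSpace (W.Bs bP1) := Wt.connected_P1'

omit h in
theorem hm_P1 : Hm fun s : Unit → ℂ => s () :=
  ⟨rfl, fun _ _ _ _ => rfl, fun _ _ => (continuous_apply ()).continuousAt⟩

/-- The cohomology of the projective line. -/
theorem Wt.span_P1 (c : H (W.Bs bP1)) :
    ∃ a b : ℂ, c = a • 1 + b • lcq W.actL bP1 fun s => s () := by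
  haveI := Wt.fp_P1 h
  haveI := (pjT_good (r := 1)).fp
  obtain ⟨π, -, LE, -, h2, -, -, -, -, h7, -⟩ :=
    St.prjLH ptT 0 _ (smCI_of_isEmpty _ _).tg one_pos pjT_good
  obtain ⟨c, rfl⟩ := (H.map_bijective_of_homeomorph ((Wt.homeo_P1 h).homeomorph _)).2 c
  obtain ⟨v, rfl⟩ := h7.2 c
  obtain ⟨a, ha⟩ := exists_smul_one (v 0)
  obtain ⟨b, hb⟩ := exists_smul_one (v 1)
  have e : H.map (Wt.eqh_P1 h).toEqv.qm (LE (Pi.single none 1)).1 +
      lcq W.actL bP1 (fun s => s ()) = 0 := by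
    rw [h2, Wt.lc_eq, (Wt.eqh_P1 h).map_lcq (hm_chT _ _),
      ← lcq_mul ((Wt.eqh_P1 h).hm.comp (hm_chT _ _)) hm_P1, ← lcq_one (act := W.actL) (S := bP1)]
    exact lcq_congr Hm.const fun s hs => by
      simp [chT, Fintype.prod_option, isUnit_pi_iff.1 hs ()]
  refine ⟨a, -b, ?_⟩
  change H.map (Wt.eqh_P1 h).toEqv.qm _ = _
  rw [← eq_neg_iff_add_eq_zero] at e
  simp [ha, hb, H.map_smulC, e]

theorem Wt.exists_P1 : ∃ (lam : H (W.Bs bP1)) (τ : ℂ), τ ≠ 0 ∧ H.IsDeg 2 lam ∧ lam ∈ Ch.Hev _ ∧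
    W.intB _ lam = τ ∧ W.intB _ (τ⁻¹ • lam) = 1 ∧ W.intB bP1 (τ⁻¹ • 1) = 0 ∧
    W.CasB _ ![1, lam] ![τ⁻¹ • lam, τ⁻¹ • 1] ∧
    ∀ A, FP W.actT A → MapsTo Prod.fst A bP1 → W.pB A lam = W.lc A 1 0 := by
  haveI := Wt.fp_P1 h
  haveI := Wt.compact_P1 h
  haveI := Wt.connected_P1 h
  have hd : Dim W.actL bP1 1 := fun l hl => ⟨hl, by simpa using mfd_P1 ⟨l, hl⟩⟩
  have h1 : H.IsDeg 2 (lcq W.actL bP1 fun s => s ()) := lcq_deg hm_P1
  have h2 : (lcq W.actL bP1 fun s => s ()) ∈ Ch.Hev _ := lcq_mem hm_P1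
  have h3 := hd.intg_deg H.isDeg_one (by norm_num)
  have h4 := hd.H_eq_zero (h1.mul h1) (by norm_num)
  have h5 : Loc.intg (fnd W.actL bP1) (lcq W.actL bP1 fun s => s ()) ≠ 0 := fun k => by
    obtain ⟨a, h6, h7⟩ := hd.ori.gen (Classical.arbitrary _)
    obtain ⟨x, y, e⟩ := Wt.span_P1 h (hcls a)
    exact h7 (by rw [← Loc.intg_hcls _ h6.cyc, e]; simp [h3, k])
  refine ⟨_, _, h5, h1, h2, Wt.intB_eq _, by simp [Wt.intB_eq, h5], by simp [Wt.intB_eq, h3],
    ⟨Fin.forall_fin_two.2 ⟨⟨one_mem _, SMulMemClass.smul_mem _ h2⟩, h2,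
      SMulMemClass.smul_mem _ (one_mem _)⟩, fun c c' => ?_⟩, fun A hA hB => ?_⟩
  · obtain ⟨x, y, rfl⟩ := Wt.span_P1 h c
    obtain ⟨x', y', rfl⟩ := Wt.span_P1 h c'
    simp [Wt.intB_eq, mul_add, add_mul, h3, h4]
    field_simp
  · have k : Eqh W.actT W.actL A bP1 Prod.fst Prod.fst :=
      ⟨⟨rfl, fun _ _ _ _ => rfl, fun _ _ => continuousAt_fst⟩, hB, continuousOn_fst,
        fun _ _ _ _ => rfl⟩
    rw [Wt.pB, dif_pos hB, show (fun x => Quo.mk W.actL ⟨_, hB (Quo.out x).2⟩) = k.toEqv.qm from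
      funext k.toEqv.qm_out, hpull_eq, k.map_lcq hm_P1, Wt.lc_eq]
    exact lcq_congr (hm_chT _ _) fun t _ => by simp [chT]

end Vale.Agent.P269
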