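import Vale.Agent.P269.Asm.QMem

/-!
# The four degenerations: ampleness, regularity, properness
-/

set_option linter.unusedSectionVars false

namespace Vale.Agent.P269.Pre

open P291Z Set Function Topology Filter MvPolynomial

variable {S Λ₀ R J K : Type} [Fintype S] [Fintype Λ₀] [Fintype R] [Fintype J] [Fintype K]
  [DecidableEq R] {P : Pre R J K}

namespace QAmp

theorem mem {ws : S → ℤ} {wl : Λ₀ → S → ℤ} {B₀ Ω e e'}
    {p : (Option Λ₀ → ℂ) × (J ⊕ Fin 4 → ℂ)} :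
    p ∈ (P.quad ws wl B₀ Ω e e').cone ↔ (p.1 ∘ some ∈ B₀ ∧ p.1 none ∈ Ω) ∧
      P.Pt e e' (p.2 ∘ .inl) (p.2 ∘ .inr) ∧ p.2 (.inr 0) * p.2 (.inr 1) = p.1 none :=
  (quad_mem (B₀ := B₀) (Ω := Ω) (B := (P.quad ws wl B₀ Ω e e').B) (Z := ∅)).trans
    (and_congr_right' (and_congr_right' (and_iff_left fun _ h => h.elim)))

theorem amp_aux (h : P.Ok) {z : J ⊕ Fin 4 → ℂ} (hz : z ∘ .inl ∈ P.cone) {ε : R ⊕ Bool → ℤ}
    (hε : ∀ r, |ε (.inl r)| ≤ 1) (σ c₁ n₀ n₁ n₂ n₃ : ℤ) (hσ : |σ| ≤ 1) (hc : |c₁| ≤ P.β + 1)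
    (p₀ : 0 ≤ n₀) (p₁ : 0 ≤ n₁) (p₂ : 0 ≤ n₂) (p₃ : 0 ≤ n₃)
    (e₁ : P.N * σ + c₁ + n₃ = P.N + ε (.inl P.η))
    (e₂ : P.N * σ + c₁ + n₀ - n₁ - P.β * ε (.inr true) = ε (.inr false))
    (e₃ : n₂ + n₃ = 2 * P.N + ε (.inr true))
    (q₀ : n₀ = 0 ∨ z (.inr 0) ≠ 0) (q₁ : n₁ = 0 ∨ z (.inr 1) ≠ 0) (q₂ : n₂ = 0 ∨ z (.inr 2) ≠ 0)
    (q₃ : n₃ = 0 ∨ z (.inr 3) ≠ 0) :
    ∃ α : J ⊕ Fin 4 → ℕ, (∀ i, ∑ j, α j * P.qw j i = (P.N • P.θ₀ + ε) i) ∧ ∏ j, z j ^ α j ≠ 0 := by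
  lift n₀ to ℕ using p₀
  lift n₁ to ℕ using p₁
  lift n₂ to ℕ using p₂
  lift n₃ to ℕ using p₃
  obtain ⟨α, hα, hα'⟩ := h.amp σ (fun r => if r = P.η then c₁ else ε (.inl r)) hσ (fun r => by
    split_ifs
    · exact hc
    · exact (hε r).trans (by omega)) _ hz
  have hη := hα P.η
  rw [if_pos rfl, if_pos rfl, h.θη] at hη
  have key : ∀ {n : ℕ} {w : ℂ}, (n : ℤ) = 0 ∨ w ≠ 0 → w ^ n ≠ 0 := fun hw =>
    hw.elim (fun a => by rw [Int.natCast_eq_zero.1 a, pow_zero]; exact one_ne_zero) (pow_ne_zero _)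
  refine ⟨Sum.elim α ![n₀, n₁, n₂, n₃], fun i => ?_, ?_⟩
  · rw [Fintype.sum_sum_type, Fin.sum_univ_four]
    rcases i with r | _ | _
    · have := hα r
      by_cases hr : r = P.η
      · subst hr
        simp [qw, up, θ₀, hη, h.θη]
        linear_combination e₁
      · simp [qw, up, θ₀, hr, this]
    · simp [qw, up, θ₀, hη]
      linear_combination e₂ - P.β * e₃
    · simp [qw, up, θ₀]
      linear_combination e₃
  · rw [Fintype.prod_sum_type, Fin.prod_univ_four]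
    exact mul_ne_zero hα' (mul_ne_zero (mul_ne_zero (mul_ne_zero (key q₀) (key q₁)) (key q₂))
      (key q₃))

theorem ampl (h : P.Ok) {e e' : Bool} {z : J ⊕ Fin 4 → ℂ} (hz : P.Pt e e' (z ∘ .inl) (z ∘ .inr))
    {ε : R ⊕ Bool → ℤ} (hε : ∀ r, |ε (.inl r)| ≤ 1)
    (h3 : (ε (.inl P.η)).natAbs + (ε (.inr false)).natAbs + (ε (.inr true)).natAbs ≤ 1) :
    ∃ α : J ⊕ Fin 4 → ℕ, (∀ i, ∑ j, α j * P.qw j i = (P.N • P.θ₀ + ε) i) ∧ ∏ j, z j ^ α j ≠ 0 := by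
  have hN : (P.β : ℤ) + 1 ≤ P.N := by exact_mod_cast h.le
  have hβ : (0 : ℤ) ≤ P.β := Int.natCast_nonneg _
  obtain ⟨m, hm, hm'⟩ : ∃ m : ℤ, m = P.β * ε (.inr true) ∧ ((ε (.inr true) = 0 ∧ m = 0) ∨
      (ε (.inr true) = 1 ∧ m = P.β) ∨ (ε (.inr true) = -1 ∧ m = -P.β)) := by
    refine ⟨_, rfl, ?_⟩
    rcases (by omega : ε (.inr true) = 0 ∨ ε (.inr true) = 1 ∨ ε (.inr true) = -1) with a | a | a <;>
      simp [a]
  by_cases h2 : z (.inr 2) = 0
  · exact amp_aux h hz.mem hε (-1) (ε (.inl P.η) - ε (.inr true))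
      (P.N + ε (.inr false) + m - ε (.inl P.η) + ε (.inr true)) 0 0 (2 * P.N + ε (.inr true))
      (by simp) (abs_le.2 (by omega)) (by omega) le_rfl le_rfl (by omega) (by ring) (by rw [hm]; ring)
      (by ring) (.inr (hz.y.resolve_left fun a => a h2).2) (.inl rfl) (.inl rfl)
      (.inr (hz.yy.resolve_left fun a => a h2))
  by_cases h4 : z (.inr 3) = 0
  · exact amp_aux h hz.mem hε 1 (ε (.inl P.η)) 0 (P.N + ε (.inl P.η) - m - ε (.inr false))
      (2 * P.N + ε (.inr true)) 0 (by simp) (abs_le.2 (by omega)) le_rfl (by omega) (by omega) le_rfl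
      (by ring) (by rw [hm]; ring) (by ring) (.inl rfl)
      (.inr (hz.y'.resolve_left fun a => a h4).2) (.inr h2) (.inl rfl)
  · exact amp_aux h hz.mem hε 0 (ε (.inr false) + m) 0 0
      (P.N + ε (.inr true) - ε (.inl P.η) + ε (.inr false) + m)
      (P.N + ε (.inl P.η) - ε (.inr false) - m) (by simp) (abs_le.2 (by omega)) le_rfl le_rfl
      (by omega) (by omega) (by ring) (by rw [hm]; ring) (by ring) (.inl rfl) (.inl rfl) (.inr h2) (.inr h4)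

theorem single_le (η : R) (i : R ⊕ Bool) :
    (∀ r, |(Pi.single i 1 : R ⊕ Bool → ℤ) (.inl r)| ≤ 1) ∧
      ((Pi.single i 1 : R ⊕ Bool → ℤ) (.inl η)).natAbs +
        ((Pi.single i 1 : R ⊕ Bool → ℤ) (.inr false)).natAbs +
        ((Pi.single i 1 : R ⊕ Bool → ℤ) (.inr true)).natAbs ≤ 1 := by
  refine ⟨fun r => ?_, ?_⟩
  · rw [Pi.single_apply]
    split_ifs <;> simp
  · rcases i with r | _ | _
    · simp only [Pi.single_apply]
      split_ifs <;> simp_all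
    · simp
    · simp

theorem mapC (l : Option Λ₀ → ℂ) (f : MvPolynomial (J ⊕ Fin 4) ℂ) :
    MvPolynomial.map (eval l) (MvPolynomial.map C f) = f := by
  have : (MvPolynomial.eval l).comp (C : ℂ →+* MvPolynomial (Option Λ₀) ℂ) = RingHom.id ℂ :=
    RingHom.ext fun _ => eval_C _
  rw [MvPolynomial.map_map, this, MvPolynomial.map_id]

/-- Normal forms for the new fields. -/
theorem norm_q {a b c y y' : ℂ} (ha : a ≠ 0) (hy : y ≠ 0 ∨ b ≠ 0) (hy' : y' ≠ 0 ∨ c ≠ 0)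
    (hyy : y ≠ 0 ∨ y' ≠ 0) {M : ℝ} (h1 : 1 ≤ M) (ht : ‖b * c‖ ≤ M) :
    ∃ s u : ℂ, s ≠ 0 ∧ u ≠ 0 ∧ ‖s * b‖ ≤ M ∧ ‖s⁻¹ * c‖ ≤ M ∧ ‖u * y‖ ≤ M ∧
      ‖a * s⁻¹ * u * y'‖ ≤ M ∧ ((u * y = 1 ∧ s⁻¹ * c = 1) ∨ (u * y = 1 ∧ a * s⁻¹ * u * y' = 1) ∨
        (a * s⁻¹ * u * y' = 1 ∧ s * b = 1)) := by
  have n1 : ‖(1 : ℂ)‖ ≤ M := by rwa [norm_one]
  have dv : ∀ {v w : ℂ}, ‖v‖ ≤ ‖w‖ → ‖v / w‖ ≤ M := fun hv => by
    rw [norm_div]
    exact (div_le_one_of_le₀ hv (norm_nonneg _)).trans h1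
  by_cases hA : ‖a * y'‖ ≤ ‖y * c‖
  · have h2 : y * c ≠ 0 := fun e => by
      have h3 : y' = 0 := (mul_eq_zero.1 (norm_le_zero_iff.1
        (by rwa [e, norm_zero] at hA))).resolve_left ha
      exact mul_ne_zero (hyy.resolve_right fun a => a h3) (hy'.resolve_left fun a => a h3) e
    have h3 := left_ne_zero_of_mul h2
    have h4 := right_ne_zero_of_mul h2
    refine ⟨c, y⁻¹, h4, inv_ne_zero h3, by rwa [mul_comm], ?_, ?_, ?_,
      .inl ⟨inv_mul_cancel₀ h3, inv_mul_cancel₀ h4⟩⟩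
    · rwa [inv_mul_cancel₀ h4]
    · rwa [inv_mul_cancel₀ h3]
    · rw [show a * c⁻¹ * y⁻¹ * y' = a * y' / (y * c) by field_simp]
      exact dv hA
  by_cases hC : ‖y‖ ≤ ‖a * y' * b‖
  · have h2 : a * y' * b ≠ 0 := fun e => by
      have h3 : y = 0 := by simpa [e] using hC
      exact mul_ne_zero (mul_ne_zero ha (hyy.resolve_left fun a => a h3))
        (hy.resolve_left fun a => a h3) e
    have h3 := right_ne_zero_of_mul (left_ne_zero_of_mul h2)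
    have h4 := right_ne_zero_of_mul h2
    have h5 : a * b⁻¹⁻¹ * (a * y' * b)⁻¹ * y' = 1 := by field_simp
    refine ⟨b⁻¹, (a * y' * b)⁻¹, inv_ne_zero h4, inv_ne_zero h2, ?_, by rwa [inv_inv], ?_, ?_,
      .inr (.inr ⟨h5, inv_mul_cancel₀ h4⟩)⟩
    · rwa [inv_mul_cancel₀ h4]
    · rw [mul_comm, ← div_eq_mul_inv]
      exact dv hC
    · rwa [h5]
  · have h3 : y ≠ 0 := fun e => hC (by simp [e, mul_nonneg])
    have h4 : y' ≠ 0 := fun e => hA (by simp [e, mul_nonneg])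
    have h5 : a * (a * y' / y)⁻¹ * y⁻¹ * y' = 1 := by field_simp
    refine ⟨a * y' / y, y⁻¹, div_ne_zero (mul_ne_zero ha h4) h3, inv_ne_zero h3, ?_, ?_, ?_, ?_,
      .inr (.inl ⟨inv_mul_cancel₀ h3, h5⟩)⟩
    · rw [div_mul_eq_mul_div]
      exact dv (not_le.1 hC).le
    · rw [inv_div, div_mul_eq_mul_div]
      exact dv (not_le.1 hA).le
    · rwa [inv_mul_cancel₀ h3]
    · rwa [h5]

theorem exists_t (ws : S → ℤ) (wl : Λ₀ → S → ℤ) {τ : R → ℂ} (hτ : IsUnit τ) {s u : ℂ} (hs : s ≠ 0)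
    (hu : u ≠ 0) : ∃ t : R ⊕ Bool → ℂ, IsUnit t ∧ ∀ z, (P.qW ws wl).actT (1, t) z =
      (z.1, Sum.elim (P.act τ (z.2 ∘ .inl)) ![s * z.2 (.inr 0), s⁻¹ * z.2 (.inr 1),
        u * z.2 (.inr 2), τ P.η * s⁻¹ * u * z.2 (.inr 3)]) := by
  have hτ' : ∀ r, τ r ≠ 0 := fun r => (Pi.isUnit_iff.1 hτ r).ne_zero
  let t : R ⊕ Bool → ℂ := Sum.elim (fun r => τ r * if r = P.η then s⁻¹ else 1)
    fun o => cond o (u * s ^ P.β) s
  have ht : IsUnit t := Pi.isUnit_iff.2 fun i => IsUnit.mk0 _ <| by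
    rcases i with r | _ | _
    · refine mul_ne_zero (hτ' r) ?_
      split_ifs
      · exact inv_ne_zero hs
      · exact one_ne_zero
    · exact hs
    · exact mul_ne_zero hu (pow_ne_zero _ hs)
  have hd : P.dn t = τ := funext fun r => by
    by_cases hr : r = P.η <;> simp [dn, t, hr, hs]
  refine ⟨t, ht, fun z => Prod.ext (funext fun a => by simp [Wt.actT, Wt.actL]) (funext fun j => ?_)⟩
  rcases j with j | i
  · show (∏ i, (1 : S → ℂ) i ^ _) * (∏ i, t i ^ P.up (P.w j) i) * z.2 (.inl j) = _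
    rw [prod_up t ht, hd]
    simp [Tgt.act]
  · have h1 : ∏ r, t (.inl r) ^ (Pi.single P.η 1 : R → ℤ) r = τ P.η * s⁻¹ := by
      rw [Fintype.prod_eq_single P.η fun r hr => by simp [hr]]
      simp [t]
    fin_cases i
    · simp [Wt.actT, qw, Fintype.prod_sum_type, t]
    · simp [Wt.actT, qw, Fintype.prod_sum_type, t]
    · simp [Wt.actT, qw, Fintype.prod_sum_type, t, hs]
    · simp only [Wt.actT, qw, Fintype.prod_sum_type, Fin.reduceFinMk, Sum.elim_inr, Matrix.cons_val,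
        Sum.elim_inl, h1]
      simp [t, hs, mul_assoc]

end QAmp

open QAmp

variable (h : P.Ok)
include h

theorem Ok.quad_ample (ws : S → ℤ) (wl : Λ₀ → S → ℤ) (B₀ Ω e e') :
    (P.quad ws wl B₀ Ω e e').Ample P.θ₀ P.N := by
  refine ⟨rfl, by have := h.le; omega, fun c hc z hz => ?_⟩
  have hp := (QAmp.mem.1 hz).2.1
  rcases hc with rfl | ⟨i, rfl | rfl⟩
  · simpa using ampl h hp (ε := 0) (by simp) (by simp)
  · exact ampl h hp (single_le P.η i).1 (single_le P.η i).2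
  · rw [sub_eq_add_neg]
    exact ampl h hp (ε := -Pi.single i 1) (by simpa using (single_le P.η i).1)
      (by simpa using (single_le P.η i).2)

theorem Ok.quad_reg (ws : S → ℤ) (wl : Λ₀ → S → ℤ) (B₀ Ω e e') (hΩ : e = true → e' = true → Ω ⊆ P.Ω) :
    (P.quad ws wl B₀ Ω e e').Reg univ := by
  classical
  refine Fam.reg_univ fun z hz c => ?_
  obtain ⟨hB, hp, hE⟩ := QAmp.mem.1 hz
  have h1 : cond e (z.2 (.inr 2)) 1 ≠ 0 := by
    cases e
    · exact one_ne_zero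
    · simpa using hp.y
  have h2 : cond e' (z.2 (.inr 3)) 1 ≠ 0 := by
    cases e'
    · exact one_ne_zero
    · simpa using hp.y'
  have h3 : (z.2 ∘ .inl) P.z * (z.2 ∘ .inl) P.z' ∈ P.Ω := by
    have a := hp.z
    have b := hp.z'
    cases e
    · rw [show (z.2 ∘ .inl) P.z = 0 from a, zero_mul]
      exact h.zero
    cases e'
    · rw [show (z.2 ∘ .inl) P.z' = 0 from b, mul_zero]
      exact h.zero
    · have a' : z.2 (.inr 2) * z.2 (.inl P.z) = z.2 (.inr 0) * z.2 (.inr 3) := a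
      have b' : z.2 (.inr 3) * z.2 (.inl P.z') = z.2 (.inr 1) * z.2 (.inr 2) := b
      have e : z.2 (.inl P.z) * z.2 (.inl P.z') = z.1 none :=
        mul_left_cancel₀ (mul_ne_zero h1 h2) (by
          simp only [cond_true]
          linear_combination z.2 (.inr 3) * z.2 (.inl P.z') * a' +
            z.2 (.inr 0) * z.2 (.inr 3) * b' + z.2 (.inr 2) * z.2 (.inr 3) * hE)
      exact hΩ rfl rfl (e.symm ▸ hB.2 : z.2 (.inl P.z) * z.2 (.inl P.z') ∈ Ω)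
  set s := c (.inr false) / cond e (z.2 (.inr 2)) 1 with hs
  set s' := c (.inr true) / cond e' (z.2 (.inr 3)) 1 with hs'
  obtain ⟨v, v1, v2, hv⟩ := h.reg _ hp.mem h3 fun k => c (.inl k) -
    eval (z.2 ∘ .inl) (pderiv P.z (P.F k)) * s - eval (z.2 ∘ .inl) (pderiv P.z' (P.F k)) * s'
  refine ⟨Sum.elim (v + Pi.single P.z s + Pi.single P.z' s') 0, ?_, fun k => ?_⟩
  · intro j hj
    rcases not_not.1 hj with rfl | rfl <;> rfl
  · rw [Fintype.sum_sum_type]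
    simp only [Sum.elim_inr, Pi.zero_apply, mul_zero, Finset.sum_const_zero, add_zero,
      Sum.elim_inl]
    rcases k with k | _ | _
    · have e1 : ∀ j, (P.quad ws wl B₀ Ω e e').jac z (.inl k) (.inl j) =
          eval (z.2 ∘ .inl) (pderiv j (P.F k)) := fun j => by
        show eval z.2 (pderiv (.inl j) (MvPolynomial.map (eval z.1)
          (MvPolynomial.map C (rename .inl (P.F k))))) = _
        rw [mapC, pderiv_rename Sum.inl_injective, eval_rename]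
      simp only [e1, Pi.add_apply, mul_add, Finset.sum_add_distrib, hv, Pi.single_apply, mul_ite,
        mul_zero, Finset.sum_ite_eq', Finset.mem_univ, if_true]
      ring
    · have e1 : ∀ j, (P.quad ws wl B₀ Ω e e').jac z (.inr false) (.inl j) =
          if j = P.z then cond e (z.2 (.inr 2)) 1 else 0 := fun j => by
        by_cases hj : j = P.z <;> cases e <;> simp [Fam.jac, Fam.fib, pderiv_X, hj, Ne.symm]
      simp only [e1, ite_mul, zero_mul, Finset.sum_ite_eq', Finset.mem_univ, if_true]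
      rw [Pi.add_apply, Pi.add_apply, v1, Pi.single_eq_same, Pi.single_eq_of_ne h.ne, zero_add,
        add_zero, hs, mul_div_cancel₀ _ h1]
    · have e1 : ∀ j, (P.quad ws wl B₀ Ω e e').jac z (.inr true) (.inl j) =
          if j = P.z' then cond e' (z.2 (.inr 3)) 1 else 0 := fun j => by
        by_cases hj : j = P.z' <;> cases e' <;> simp [Fam.jac, Fam.fib, pderiv_X, hj, Ne.symm]
      simp only [e1, ite_mul, zero_mul, Finset.sum_ite_eq', Finset.mem_univ, if_true]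
      rw [Pi.add_apply, Pi.add_apply, v2, Pi.single_eq_same, Pi.single_eq_of_ne h.ne.symm,
        zero_add, zero_add, hs', mul_div_cancel₀ _ h2]

theorem Ok.quad_cpt (ws : S → ℤ) (wl : Λ₀ → S → ℤ) (B₀ Ω e e') :
    ∀ B' ⊆ (P.quad ws wl B₀ Ω e e').B, IsCompact B' → ∃ C ⊆ (P.quad ws wl B₀ Ω e e').cone,
      IsCompact C ∧ ∀ z ∈ (P.quad ws wl B₀ Ω e e').cone, z.1 ∈ B' →
        ∃ t : R ⊕ Bool → ℂ, IsUnit t ∧ (P.qW ws wl).actT (1, t) z ∈ C := by
  intro B' hB hc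
  obtain ⟨ρ, hρ⟩ := hc.exists_bound_of_continuousOn (f := fun l => l none) (by fun_prop)
  obtain ⟨C₀, hC₀, hc₀, hcov⟩ := h.cpt (max 1 ρ)
  refine ⟨(fun p : (Option Λ₀ → ℂ) × (J → ℂ) × (Fin 4 → ℂ) => (p.1, Sum.elim p.2.1 p.2.2)) ''
    (B' ×ˢ C₀ ×ˢ Metric.closedBall 0 (max 1 ρ) ∩ {p |
      cond e (p.2.2 2 * p.2.1 P.z = p.2.2 0 * p.2.2 3) (p.2.1 P.z = 0) ∧
      cond e' (p.2.2 3 * p.2.1 P.z' = p.2.2 1 * p.2.2 2) (p.2.1 P.z' = 0) ∧
      p.2.2 0 * p.2.2 1 = p.1 none ∧ ((p.2.2 2 = 1 ∧ p.2.2 1 = 1) ∨ (p.2.2 2 = 1 ∧ p.2.2 3 = 1) ∨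
        (p.2.2 3 = 1 ∧ p.2.2 0 = 1))}), ?_, ?_, fun z hz hz' => ?_⟩
  · rintro _ ⟨⟨l, x, q⟩, ⟨⟨h1, h2, -⟩, h3, h4, h5, h6⟩, rfl⟩
    dsimp only at h1 h2 h3 h4 h5 h6
    have k2 : q 2 ≠ 0 ∨ e = false ∧ q 0 ≠ 0 := by
      rcases h6 with a | a | a
      · exact .inl (a.1 ▸ one_ne_zero)
      · exact .inl (a.1 ▸ one_ne_zero)
      · cases e
        · exact .inr ⟨rfl, a.2 ▸ one_ne_zero⟩
        · exact .inl fun b => by simp [a.1, a.2, b] at h3
    have k3 : q 3 ≠ 0 ∨ e' = false ∧ q 1 ≠ 0 := by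
      rcases h6 with a | a | a
      · cases e'
        · exact .inr ⟨rfl, a.2 ▸ one_ne_zero⟩
        · exact .inl fun b => by simp [a.1, a.2, b] at h4
      · exact .inl (a.2 ▸ one_ne_zero)
      · exact .inl (a.1 ▸ one_ne_zero)
    have k4 : q 2 ≠ 0 ∨ q 3 ≠ 0 := by
      rcases h6 with a | a | a
      · exact .inl (a.1 ▸ one_ne_zero)
      · exact .inl (a.1 ▸ one_ne_zero)
      · exact .inr (a.1 ▸ one_ne_zero)
    exact QAmp.mem.2 ⟨hB h1, ⟨hC₀ h2, h3, h4, k2, k3, k4⟩, h5⟩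
  · refine ((hc.prod (hc₀.prod (isCompact_closedBall _ _))).inter_right ?_).image
      (continuous_fst.prodMk (continuous_pi fun j => by cases j <;> dsimp <;> fun_prop))
    refine IsClosed.and ?_ (IsClosed.and ?_ (IsClosed.and (isClosed_eq (by fun_prop) (by fun_prop))
      (IsClosed.union ?_ (IsClosed.union ?_ ?_))))
    · cases e <;> exact isClosed_eq (by fun_prop) (by fun_prop)
    · cases e' <;> exact isClosed_eq (by fun_prop) (by fun_prop)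
    all_goals
      exact IsClosed.and (isClosed_eq (by fun_prop) (by fun_prop))
        (isClosed_eq (by fun_prop) (by fun_prop))
  · obtain ⟨-, hp, hE⟩ := QAmp.mem.1 hz
    have hb : ‖z.2 (.inr 0) * z.2 (.inr 1)‖ ≤ max 1 ρ := hE ▸ (hρ _ hz').trans (le_max_right _ _)
    have h0 : ‖(0 : ℂ)‖ ≤ max 1 ρ := by simp
    have a := hp.z
    have b := hp.z'
    have h3 : ‖(z.2 ∘ .inl) P.z * (z.2 ∘ .inl) P.z'‖ ≤ max 1 ρ := by
      cases e
      · rwa [show (z.2 ∘ .inl) P.z = 0 from a, zero_mul]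
      cases e'
      · rwa [show (z.2 ∘ .inl) P.z' = 0 from b, mul_zero]
      · have a' : z.2 (.inr 2) * z.2 (.inl P.z) = z.2 (.inr 0) * z.2 (.inr 3) := a
        have b' : z.2 (.inr 3) * z.2 (.inl P.z') = z.2 (.inr 1) * z.2 (.inr 2) := b
        have h1 : z.2 (.inr 2) ≠ 0 := by simpa using hp.y
        have h2 : z.2 (.inr 3) ≠ 0 := by simpa using hp.y'
        have e : z.2 (.inl P.z) * z.2 (.inl P.z') = z.2 (.inr 0) * z.2 (.inr 1) :=
          mul_left_cancel₀ (mul_ne_zero h1 h2) (by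
            linear_combination z.2 (.inr 3) * z.2 (.inl P.z') * a' +
              z.2 (.inr 0) * z.2 (.inr 3) * b')
        exact (congrArg norm e).trans_le hb
    obtain ⟨τ, hτ, hx⟩ := hcov _ hp.mem h3
    have hη : τ P.η ≠ 0 := (Pi.isUnit_iff.1 hτ _).ne_zero
    obtain ⟨s, u, hs, hu, n0, n1, n2, n3, hn⟩ := norm_q hη (hp.y.imp_right And.right)
      (hp.y'.imp_right And.right) hp.yy (le_max_left 1 ρ) hb
    obtain ⟨t, ht, hact⟩ := exists_t (P := P) ws wl hτ hs hu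
    have x1 : P.act τ (z.2 ∘ .inl) P.z = τ P.η * z.2 (.inl P.z) := by
      rw [Tgt.act, h.wz, Fintype.prod_eq_single P.η fun r hr => by simp [hr]]
      simp
    have x2 : P.act τ (z.2 ∘ .inl) P.z' = (τ P.η)⁻¹ * z.2 (.inl P.z') := by
      rw [Tgt.act, h.wz', Fintype.prod_eq_single P.η fun r hr => by simp [hr]]
      simp
    refine ⟨t, ht, (z.1, _, _), ⟨⟨hz', hx, ?_⟩, ?_, ?_, ?_, hn⟩, (hact z).symm⟩
    · refine mem_closedBall_zero_iff.2 ((pi_norm_le_iff_of_nonneg (by positivity)).2 fun i => ?_)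
      fin_cases i
      exacts [n0, n1, n2, n3]
    · cases e
      · exact x1.trans (mul_eq_zero_of_right _ a)
      · have a' : z.2 (.inr 2) * z.2 (.inl P.z) = z.2 (.inr 0) * z.2 (.inr 3) := a
        show u * z.2 (.inr 2) * P.act τ (z.2 ∘ .inl) P.z =
          s * z.2 (.inr 0) * (τ P.η * s⁻¹ * u * z.2 (.inr 3))
        rw [x1]
        field_simp
        linear_combination a'
    · cases e'
      · exact x2.trans (mul_eq_zero_of_right _ b)
      · have b' : z.2 (.inr 3) * z.2 (.inl P.z') = z.2 (.inr 1) * z.2 (.inr 2) := b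
        show τ P.η * s⁻¹ * u * z.2 (.inr 3) * P.act τ (z.2 ∘ .inl) P.z' =
          s⁻¹ * z.2 (.inr 1) * (u * z.2 (.inr 2))
        rw [x2]
        field_simp
        linear_combination b'
    · show s * z.2 (.inr 0) * (s⁻¹ * z.2 (.inr 1)) = z.1 none
      field_simp
      exact hE

end Vale.Agent.P269.Pre
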