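import Vale.Agent.P269.Asm.Gr
import Vale.Agent.P269.Asm.QAmp
import Vale.Agent.P269.Gen.Act

/-!
# The four degenerations satisfy the standing hypotheses
-/

set_option linter.unusedSectionVars false

namespace Vale.Agent.P269.Pre

open P291Z Set Function Topology Filter MvPolynomial

variable {S Λ₀ R J K : Type} [Fintype S] [Fintype Λ₀] [Fintype R] [Fintype J] [Fintype K]
  [DecidableEq R] {P : Pre R J K} {ws : S → ℤ} {wl : Λ₀ → S → ℤ} {B₀ : Set (Λ₀ → ℂ)} {Ω : Set ℂ}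
  {e e' : Bool}

/-- The equations, with constant coefficients. -/
noncomputable def qG (P : Pre R J K) (e e' : Bool) : K ⊕ Bool → MvPolynomial (J ⊕ Fin 4) ℂ :=
  Sum.elim (fun k => rename .inl (P.F k)) fun o => cond o
    (cond e' (X (.inr 3) * X (.inl P.z') - X (.inr 1) * X (.inr 2)) (X (.inl P.z')))
    (cond e (X (.inr 2) * X (.inl P.z) - X (.inr 0) * X (.inr 3)) (X (.inl P.z)))

theorem qg_G (k : K ⊕ Bool) :
    (P.quad ws wl B₀ Ω e e').G k = MvPolynomial.map C (P.qG e e' k) := by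
  rcases k with k | _ | _ <;> cases e <;> cases e' <;> simp [qG]

theorem qg_iff {σ : Type} [Fintype σ] {w : σ → ℤ} {p : MvPolynomial σ ℂ} {m : ℤ} :
    IsWeightedHomogeneous w p m ↔ ∀ α ∈ p.support, ∑ j, α j * w j = m :=
  forall_congr' fun α => imp_congr mem_support_iff.symm (by
    rw [Finsupp.weight_apply, Finsupp.sum_fintype _ _ (by simp)]
    simp)

theorem qg_hom {w : J ⊕ Fin 4 → ℤ} {χ : K ⊕ Bool → ℤ}
    (h1 : ∀ k, ∀ α ∈ (P.F k).support, ∑ j, α j * w (.inl j) = χ (.inl k))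
    (h2 : χ (.inr false) = cond e (w (.inr 2)) 0 + w (.inl P.z))
    (h3 : χ (.inr true) = cond e' (w (.inr 3)) 0 + w (.inl P.z'))
    (h4 : e = true → w (.inr 0) + w (.inr 3) = w (.inr 2) + w (.inl P.z))
    (h5 : e' = true → w (.inr 1) + w (.inr 2) = w (.inr 3) + w (.inl P.z')) (k : K ⊕ Bool) :
    ∀ α ∈ (P.qG e e' k).support, ∑ j, α j * w j = χ k := by
  have x := fun j => isWeightedHomogeneous_X ℂ w j
  rcases k with k | _ | _
  · classical
    intro α hα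
    rw [qG, Sum.elim_inl, support_rename_of_injective Sum.inl_injective] at hα
    obtain ⟨α, hβ, rfl⟩ := Finset.mem_image.1 hα
    rw [← h1 k α hβ, Fintype.sum_sum_type]
    simp [Finsupp.mapDomain_apply Sum.inl_injective, Finsupp.mapDomain_of_notMem_range]
  · rw [← qg_iff, h2]
    cases e
    · simpa [qG] using x _
    · exact ((weightedHomogeneousSubmodule ℂ w _).sub_mem ((x _).mul (x _))
        (h4 rfl ▸ (x _).mul (x _)) :)
  · rw [← qg_iff, h3]
    cases e'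
    · simpa [qG] using x _
    · exact ((weightedHomogeneousSubmodule ℂ w _).sub_mem ((x _).mul (x _))
        (h5 rfl ▸ (x _).mul (x _)) :)

theorem qg_ne {t : (S → ℂ) × (R ⊕ Bool → ℂ)} (ht : IsUnit t)
    {z : (Option Λ₀ → ℂ) × (J ⊕ Fin 4 → ℂ)} {j : J ⊕ Fin 4} :
    ((P.qW ws wl).actT t z).2 j ≠ 0 ↔ z.2 j ≠ 0 :=
  mul_ne_zero_iff_left (mul_ne_zero
    (prod_zpow_ne (isUnit_pi_iff.1 (Prod.isUnit_iff.1 ht).1) _)
    (prod_zpow_ne (isUnit_pi_iff.1 (Prod.isUnit_iff.1 ht).2) _))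

theorem qg_lim {τ : ℕ → ℂ} {l : ℕ → Λ₀ → ℂ} {l₀ l₁ : Λ₀ → ℂ} (h0 : ∀ n, l n ≠ 0) (a : l₀ ≠ 0)
    (b : l₁ ≠ 0) (c : Tendsto l atTop (𝓝 l₀)) (d : Tendsto (fun n => (τ n)⁻¹ • l n) atTop (𝓝 l₁)) :
    ∃ C : ℝ, ∀ n, ‖τ n‖ ≤ C ∧ ‖(τ n)⁻¹‖ ≤ C := by
  have e : Tendsto (fun n => ‖(τ n)⁻¹‖) atTop (𝓝 (‖l₁‖ / ‖l₀‖)) :=
    (d.norm.div c.norm (norm_ne_zero_iff.2 a)).congr fun n => by
      simp only [Pi.div_apply, norm_smul]
      exact mul_div_cancel_right₀ _ (norm_ne_zero_iff.2 (h0 n))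
  obtain ⟨C, hC⟩ := e.bddAbove_range
  obtain ⟨D, hD⟩ := (e.inv₀ (div_ne_zero (norm_ne_zero_iff.2 b) (norm_ne_zero_iff.2 a))).bddAbove_range
  exact ⟨max C D, fun n => ⟨le_max_of_le_right (hD ⟨n, by simp⟩), le_max_of_le_left (hC ⟨n, rfl⟩)⟩⟩

theorem qg_bor (τ : Unit → ℂ) (l : Option (Fin 2) → ℂ) :
    (P.qW 1 (-1)).actL τ l ∘ some = (τ ())⁻¹ • l ∘ some := funext fun a => by simp [Wt.actL]

variable (h : P.Ok)
include h

theorem Ok.quad_inv (hs : e' = true → ws = 0) (hB : IsOpen B₀) (hΩ : IsOpen Ω)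
    (hi : ∀ τ, IsUnit τ → ∀ l ∈ (P.quad ws wl B₀ Ω e e').B,
      (P.qW ws wl).actL τ l ∈ (P.quad ws wl B₀ Ω e e').B) : (P.quad ws wl B₀ Ω e e').Inv where
  hom k α hα i := by
    rw [qg_G] at hα
    refine qg_hom (w := fun j => P.qw j i) (χ := fun k => (P.quad ws wl B₀ Ω e e').χ k i)
      (fun k α hα => ?_) (by cases e <;> rfl) (by cases e' <;> rfl) (fun _ => ?_) (fun _ => ?_) k α
      (support_map_subset _ _ hα)
    · rcases i with r | _ | _
      exacts [h.hom k α hα r, h.hom k α hα P.η, by simp [qw, up]]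
    · rcases i with r | _ | _ <;> simp [qw, up, h.wz, add_comm]
    · rcases i with r | _ | _ <;> simp [qw, up, h.wz', add_comm]
  homS k α hα β hβ i := by
    rw [qg_G] at hα hβ
    classical
    rw [coeff_map] at hβ
    obtain rfl : β = 0 := Finset.mem_singleton.1 (support_monomial_subset hβ)
    simpa using qg_hom (w := fun j => (P.qW ws wl).wt j i) (χ := 0) (by simp)
      (by cases e <;> simp) (by cases e' <;> simp) (by simp) (fun a => by simp [hs a]) k α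
      (support_map_subset _ _ hα)
  openU := by
    have c : ∀ j : J ⊕ Fin 4, IsOpen {p : (Option Λ₀ → ℂ) × (J ⊕ Fin 4 → ℂ) | p.2 j ≠ 0} :=
      fun j => isOpen_ne_fun (by fun_prop) continuous_const
    exact (h.openU.preimage (by fun_prop)).inter (((c _).union (isOpen_const.inter (c _))).inter
      (((c _).union (isOpen_const.inter (c _))).inter ((c _).union (c _))))
  invU t ht z hz := by
    have u := (Prod.isUnit_iff.1 ht).2
    have e : ((P.qW ws wl).actT t z).2 ∘ .inl = P.act (P.dn t.2) (z.2 ∘ .inl) := funext fun j =>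
      congrArg (· * _) ((congrArg₂ (· * ·) (by simp) (prod_up _ u _)).trans (one_mul _))
    refine ⟨e ▸ h.invU _ (isUnit_pi_iff.2 fun r => mul_ne_zero (isUnit_pi_iff.1 u _) ?_) _ hz.1, ?_⟩
    · split_ifs
      exacts [isUnit_pi_iff.1 u _, one_ne_zero]
    · simp only [qg_ne ht]
      exact hz.2
  closedE := isClosed_eq (by fun_prop) (by fun_prop)
  invE t ht z hz := by
    have u := isUnit_pi_iff.1 (Prod.isUnit_iff.1 ht).2 (.inr false)
    have e : z.2 (.inr 0) * z.2 (.inr 1) = z.1 none := hz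
    have a : ∀ n : ℤ, ∏ i, t.2 i ^ (Pi.single (.inr false) n : R ⊕ Bool → ℤ) i =
        t.2 (.inr false) ^ n := fun n => by
      rw [Finset.prod_eq_single (.inr false) (fun _ _ b => by simp [b]) (by simp), Pi.single_eq_same]
    change (∏ i, t.1 i ^ (0 : ℤ)) * (∏ i, t.2 i ^ (Pi.single (.inr false) 1 : R ⊕ Bool → ℤ) i) * _ *
      ((∏ i, t.1 i ^ ws i) * (∏ i, t.2 i ^ (-Pi.single (.inr false) 1 : R ⊕ Bool → ℤ) i) * _) =
      (∏ i, t.1 i ^ ws i) * _
    rw [← Pi.single_neg, a, a, ← e]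
    simp only [zpow_zero, Finset.prod_const_one, zpow_neg, zpow_one]
    field_simp
  baseE l y y' a b := by
    change y' _ * y' _ = _
    rw [← a _ (by simp), ← a _ (by simp)]
    exact b
  zer_base := empty_disjoint _
  lcB := ((hB.preimage (by fun_prop)).inter (hΩ.preimage (continuous_apply none))).isLocallyClosed
  invB := hi

theorem Ok.quad_dg (k : K ⊕ Bool) : ((P.quad ws wl B₀ Ω e e').G k).totalDegree ≠ 0 := by
  rw [qg_G, totalDegree, support_map_of_injective _ (C_injective _ _), ← totalDegree, Ne,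
    totalDegree_eq_zero_iff_eq_C]
  generalize coeff 0 (P.qG e e' k) = a
  intro b
  rcases k with k | o
  · refine h.deg k ?_
    rw [rename_injective _ Sum.inl_injective (b.trans (rename_C _ a).symm), totalDegree_C]
  · have c := (congrArg (MvPolynomial.eval (Sum.elim 1 ![0, 0, 1, 1])) b).trans
      ((eval_C _).trans ((congrArg (MvPolynomial.eval 0) b).trans (eval_C _)).symm)
    cases o <;> cases e <;> cases e' <;> simp [qG] at c

theorem Ok.quad_deg (hΩ : IsOpen Ω) (hc : Convex ℝ Ω) (h0 : 0 ∈ Ω) :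
    (P.quad ws wl B₀ Ω e e').Deg (.inr false) (.inr 0) (.inr 1) B₀ Ω :=
  ⟨by simp, rfl, rfl, rfl, rfl, by simp [θ₀], rfl, hΩ, hc, h0, rfl⟩

theorem Ok.θ₀_nonneg : 0 ≤ P.θ₀ := by
  rintro (r | _ | _)
  · exact add_nonneg (h.θ0 r) (by rw [Pi.single_apply]; positivity)
  · exact le_rfl
  · exact zero_le_two

theorem Ok.good (e e' : Bool) : (P.fam e e').Good :=
  Fam.gr_good ⟨h.quad_inv (fun _ => Subsingleton.elim _ _) isOpen_univ h.opn
    fun _ _ l hl => ⟨trivial, by simpa [Wt.actL] using hl.2⟩, h.quad_dg,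
    fun _ _ _ _ _ => Subsingleton.elim _ _, fun _ _ _ _ _ _ _ _ _ _ => ⟨0, fun _ i => i.elim⟩,
    h.quad_cpt _ _ _ _ _ _, .inr 2, by simp⟩ (h.quad_ample _ _ _ _ _ _) h.θ₀_nonneg
    (fun _ _ _ i => i.elim) fun _ _ _ => ⟨0, (map_one _).trans_ne one_ne_zero⟩

theorem Ok.fam_reg (e e' : Bool) : (P.fam e e').Reg univ :=
  Fam.gr_reg (h.quad_reg _ _ _ _ _ _ fun _ _ => subset_rfl)

theorem Ok.fam_deg (e e' : Bool) : (P.fam e e').Deg (.inr false) P.b P.c univ P.Ω :=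
  Fam.gr_deg (h.quad_deg h.opn h.cvx h.zero)

theorem Ok.big (e e' : Bool) {B} (hB : B ⊆ (P.fam e e').B) (Z) :
    ((P.fam e e').sub B Z).Big P.k :=
  ⟨_, _, (Fam.gr_ample (h.quad_ample _ _ _ _ _ _)).sub hB (by simp), le_rfl⟩

theorem Ok.bor_good : P.bor.Good := by
  refine Fam.gr_good ⟨h.quad_inv nofun isOpen_compl_singleton isOpen_univ fun τ hτ l hl =>
    ⟨?_, trivial⟩, h.quad_dg, fun τ hτ l hl e => ?_, fun τ l l₀ l₁ _ a b c d e => ?_,
    h.quad_cpt _ _ _ _ _ _, .inr 2, by simp⟩ (h.quad_ample _ _ _ _ _ _) h.θ₀_nonneg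
    (fun p β hβ i => ?_) fun l hl q => ?_
  · rw [qg_bor]
    exact smul_ne_zero (inv_ne_zero (isUnit_pi_iff.1 hτ _)) hl.1
  · have a := (qg_bor τ l).symm.trans (congrArg (· ∘ some) e)
    exact funext fun _ => inv_eq_one.1 (smul_left_injective ℂ hl.1 (a.trans (one_smul _ _).symm))
  · have k : Continuous fun l : Option (Fin 2) → ℂ => l ∘ some := by fun_prop
    obtain ⟨C, hC⟩ := qg_lim (τ := fun n => τ n ()) (fun n => (a n).1) b.1 c.1
      ((k.tendsto _).comp d) (((k.tendsto _).comp e).congr fun n => qg_bor _ _)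
    exact ⟨C, fun n _ => hC n⟩
  · rw [X_pow_eq_monomial] at hβ
    obtain rfl := Finset.mem_singleton.1 (support_monomial_subset hβ)
    simp [Fin.sum_univ_four, Finsupp.single_apply]
  · obtain ⟨i, hi⟩ := Function.ne_iff.1 hl.1
    exact ⟨i, by rw [map_pow, eval_X]; exact pow_ne_zero _ hi⟩

theorem Ok.bor_reg : P.bor.Reg univ := Fam.gr_reg (h.quad_reg _ _ _ _ _ _ nofun)

theorem Ok.bor_deg : P.bor.Deg (.inr false) P.b P.c {0}ᶜ univ :=
  Fam.gr_deg (h.quad_deg isOpen_univ convex_univ trivial)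

theorem Ok.bor_big {B} (hB : B ⊆ P.bor.B) (Z) : (P.bor.sub B Z).Big P.k :=
  ⟨_, _, (Fam.gr_ample (h.quad_ample _ _ _ _ _ _)).sub hB (by simp), le_rfl⟩

end Vale.Agent.P269.Pre
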