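import Vale.Agent.P269.Asm.G2A
import Vale.Agent.P269.Asm.Kap
import Vale.Agent.P269.Asm.P1
import Vale.Agent.P269.Kit.Pre

/-!
# The input `G2` for the two caps
-/

set_option linter.unusedSectionVars false

namespace Vale.Agent.P269

open P291Z Set Function Topology Filter MvPolynomial Fock Holo Mono Tq

section gen

variable {S S' Λ Λ' R J K K' : Type} [Fintype S] [Fintype S'] [Fintype Λ] [Fintype Λ'] [Fintype R]
  [Fintype J] [Fintype K] [Fintype K'] {V : Type} [AddCommGroup V] [Module ℂ V] {p : Fock.Par ℂ V}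

theorem monR_cons (D : Deg.Dv) (x : ℕ × V) (l₁ l₂ l₃) : monR p D (x :: l₁) l₂ l₃ =
    ι _ ((Finsupp.single x.1 x.2, 0), 0) * monR p D l₁ l₂ l₃ := by
  simp [monR, monT_cons, mul_assoc]

theorem exists_smul_ne {α M : Type} [AddCommGroup M] [Module ℂ M] {a b : α → M} {c c' : ℂ}
    (h : ∀ x, a x = c • b x) (h' : ∀ x, b x = c' • a x) : ∃ c ≠ (0 : ℂ), ∀ x, a x = c • b x := by
  rcases eq_or_ne c 0 with rfl | e
  · exact ⟨1, one_ne_zero, fun x => by rw [h', h, zero_smul, smul_zero, smul_zero]⟩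
  · exact ⟨c, e, h⟩

theorem Wt.eqh_fgt (W : Wt S Λ R J) (W' : Wt S' Λ' R J) {A A'} (hw : W'.w = W.w)
    {φ : (Λ → ℂ) → Λ' → ℂ} (hc : Continuous φ) (hφ : ∀ τ l, φ (W.actL τ l) = φ l)
    (hz : ∀ j, W.wt j = 0 ∨ ∀ z ∈ A, z.2 j = 0) (hm : MapsTo (fun z => (φ z.1, z.2)) A A') :
    Eqh W.actT W'.actT A A' (fun t => (1, t.2)) fun z => (φ z.1, z.2) :=
  ⟨⟨rfl, fun _ _ _ _ => Prod.ext (mul_one _).symm rfl, fun _ _ => by fun_prop⟩, hm, by fun_prop,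
    fun t _ z a => Prod.ext ((hφ _ _).trans (W'.actL_one _).symm) (funext fun j => by
      rcases hz j with e | e <;> simp [Wt.actT_snd, chT, hw, e, a])⟩

theorem Wt.rsB_self {W : Wt S Λ R J} {B} (h : B ⊆ B) (c : H (W.Bs B)) : W.rsB h c = c :=
  H.map_id ((Eqv.incl h).qm_id fun x _ => ⟨1, isUnit_one, (W.actL_one x).symm⟩) c

theorem Wt.pb_mul {R' J' : Type} [Fintype R'] [Fintype J'] {W : Wt S Λ R J} {W' : Wt S' Λ' R' J'}
    {A A' f} (h : Eqv W.actT W'.actT A A' f) (a b : H (W'.X A')) :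
    W.pb W' f A (a * b) = W.pb W' f A a * W.pb W' f A b := by
  simp only [Wt.pb_eq h, map_mul]

theorem Wt.pb_add {R' J' : Type} [Fintype R'] [Fintype J'] {W : Wt S Λ R J} {W' : Wt S' Λ' R' J'}
    {A A' f} (h : Eqv W.actT W'.actT A A' f) (a b : H (W'.X A')) :
    W.pb W' f A (a + b) = W.pb W' f A a + W.pb W' f A b := by
  simp only [Wt.pb_eq h, map_add]

theorem Wt.exists_pb {R' J' : Type} [Fintype R'] [Fintype J'] {W : Wt S Λ R J} {W' : Wt S' Λ' R' J'}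
    {A A' f} (h : Eqv W.actT W'.actT A A' f) {i : V →ₗ[ℂ] H (W'.X A')} (e : IsEv p (parH _) i) :
    ∃ i' : V →ₗ[ℂ] H (W.X A), IsEv p (parH _) i' ∧ ∀ v, i' v = W.pb W' f A (i v) :=
  ⟨(H.mapA h.qm).toLinearMap ∘ₗ i, (isEv_map _).comp e, fun _ => (Wt.pb_eq h _).symm⟩

theorem isEv_mulRight {X : Type} [TopologicalSpace X] {c : H X} (h : c ∈ Ch.Hev X) :
    IsEv (parH X) (parH X) (LinearMap.mulRight ℂ c) := fun a => by
  rw [LinearMap.mulRight_apply, parH_mul, parH_Hev h, LinearMap.mulRight_apply]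

/-- The relative series of a trivial family. -/
theorem Fam.Triv.serR [DecidableEq R] (hK : St.Kit) {F : Fam S Λ R J K} {F₀ : Fam Empty Λ' R J K'}
    {l₀ δ k} (h : F.Triv F₀ l₀) (hF : F.Nice δ) (hc : F.Cp) (hF₀ : F₀.Nice δ) (hk : F.Big k)
    (hk₀ : F₀.Big k) {B} {c : H (F.Bs B)} (hB : F.B ⊆ B) (ec : c ∈ Ch.Hev _) {A A' A₀ A₀' : Set _}
    (hA : F.cone ⊆ A) (hA' : F.dvs δ ⊆ A') (hA₀ : F₀.cone ⊆ A₀) (hA₀' : F₀.dvs δ ⊆ A₀')
    (m : MapsTo (fun z => (l₀, z.2)) A A₀) (m' : MapsTo (fun z => (l₀, z.2)) A' A₀')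
    (hz : ∀ j ∈ F.zer, ∀ z ∈ A ∪ A', z.2 j = 0) {D : Deg.Dv} {i : V →ₗ[ℂ] H (F.X A)}
    {i₀ : V →ₗ[ℂ] H (F₀.X A₀)} {i' : D.H →ₗ[ℂ] H (F.X A')} {i₀' : D.H →ₗ[ℂ] H (F₀.X A₀')}
    (ei : IsEv p (parH _) i) (ei₀ : IsEv p (parH _) i₀) (ei' : IsEv D.p (parH _) i')
    (ei₀' : IsEv D.p (parH _) i₀') (hi : ∀ v, i v = F.pb F₀.toWt (fun z => (l₀, z.2)) _ (i₀ v))
    (hi' : ∀ v, i' v = F.pb F₀.toWt (fun z => (l₀, z.2)) _ (i₀' v)) (d j) :
    F.serR k (F.exB c) p i δ D i' d j =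
      F.intB _ (F.rsB hB c) • F₀.serR k F₀.ex0 p i₀ δ D i₀' d j := by
  have he : F.ExOk k (F.exB c) := (hK.selC F k 1 B c hF.toGood hk hB ec).1
  have he₀ := Fam.exOk0 hK.selC hF₀.toGood hk₀
  refine monR_ext fun l₁ l₂ l₃ => ?_
  rw [(hK.spec F δ k _ p i hF hc hk he hA ei).2 D i' hA' ei', LinearMap.smul_apply,
    (hK.spec F₀ δ k _ p i₀ hF₀ (Fam.cp_of_subsingleton (h.B ▸ subsingleton_singleton)) hk₀ he₀ hA₀
      ei₀).2 D i₀' hA₀' ei₀', ← Fam.map_map_id i₀ _ i hi, ← Fam.map_map_id i₀' _ i' hi']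
  exact hK.triv F F₀ l₀ δ k _ _ B c hB hF hc hF₀ h hk hk₀ he he₀ (fun _ _ _ _ => Iff.rfl) hA hA' m m'
    hz d j _ l₂ _

theorem Fam.serR_rs [DecidableEq R] (hK : St.Kit) {F : Fam S Λ R J K} {δ k B} {c : H (F.Bs B)}
    (hF : F.Nice δ) (hc : F.Cp) (hk : F.Big k) (hB : F.B ⊆ B) (ec : c ∈ Ch.Hev _) {A A' : Set _}
    (hA : F.cone ⊆ A) (hA' : F.dvs δ ⊆ A') {D : Deg.Dv} {i' : D.H →ₗ[ℂ] H (F.X A')}
    (ei' : IsEv D.p (parH _) i') :
    F.serR k (F.exB c) (parH _) (.id : H (F.X A) →ₗ[ℂ] _) δ D i' = fun β j =>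
      F.serR k (F.exB c) (parH _) .id δ D i' β j ∘ₗ
        (Fock.map _ (isEv_lr (F.isEv_rs hA) (Deg.isEv_id' D.p))).toLinearMap :=
  have a : F.ExOk k (F.exB c) := (hK.selC F k 1 B c hF.toGood hk hB ec).1
  (Fam.serR_congr (i' := .id ∘ₗ (F.rs hA).toLinearMap) hK.res hF hc hk a hA subset_rfl hA' i'
    fun _ => (Wt.rs_self _ _).symm).trans (funext₂ (Fam.serR_nat hK.spec hF hc hk a subset_rfl hA'
      (Deg.isEv_id' _) (F.isEv_rs _) ei' (Deg.isEv_id' D.p)))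

end gen

namespace Pre

variable {S S' Λ Λ' R J K : Type} [Fintype S] [Fintype S'] [Fintype Λ] [Fintype Λ'] [Fintype R]
  [Fintype J] [Fintype K] [DecidableEq R] {P : Pre R J K}

section lift

variable {W : Wt S Λ (R ⊕ Bool) P.QJ} {W' : Wt S' Λ' (R ⊕ Bool) P.QJ} (hw : W.w = P.W.w)
  (ho : ∀ j, W.wt (P.o j) = 0) {A : Set ((Λ → ℂ) × (P.QJ → ℂ))} (hA : ∀ z ∈ A, z.2 ∘ P.o ∈ P.dvs)

variable {A' : Set ((Λ' → ℂ) × (P.QJ → ℂ))} {f : (Λ' → ℂ) × (P.QJ → ℂ) → _}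
  (h : Eqh W'.actT W.actT A' A (fun t => (1, t.2)) f) (e : ∀ z, (f z).2 = z.2)
  (a b : H (P.W.X P.AD))
include hw ho hA h e

theorem pb_kap : W'.pb W f A' (W.pb P.W P.kap A a) = W'.pb P.W P.kap A' a :=
  (Wt.pb_pb h.toEqv (eqh_kap hw ho hA false false).toEqv a).trans
    (congrArg (W'.pb P.W · A' a) (funext fun z => by rw [kap, e, kap]))

theorem pb_lf [FP W.actT A] [FP W'.actT A'] (χ) :
    W'.pb W f A' (W.pb P.W P.kap A a + W.pb P.W P.kap A b * W.lc A 0 χ) =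
      W'.pb P.W P.kap A' a + W'.pb P.W P.kap A' b * W'.lc A' 0 χ := by
  rw [Wt.pb_add h.toEqv, Wt.pb_mul h.toEqv, pb_kap hw ho hA h e, pb_kap hw ho hA h e,
    Wt.pb_lc (ψ := 0) (χ := χ) h fun t _ => by simp [chT]]

end lift

theorem bor_wt (j : P.QJ) : P.bor.wt j = 0 ∨ j = P.c := by
  rcases j with (j | j) | j
  · exact .inl rfl
  · fin_cases j
    exacts [.inl rfl, .inr rfl, .inl rfl, .inl rfl]
  · exact .inl rfl

theorem bor_dvs {B Z} : ∀ z ∈ (P.bor.sub B Z).cone, z.2 ∘ P.o ∈ P.dvs := fun _ a =>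
  (bor_mem.1 a).2.1.dvs

theorem bor_iff {Z : Set P.QJ} {B l y} (hl : l ∈ B) (h0 : l none = 0)
    (h : P.c ∈ Z ∨ ∀ i, l (some i) = 1) :
    (l, y) ∈ (P.bor.sub B Z).cone ↔ (lt 0, y) ∈ ((P.fam false false).sub (slab univ 0) Z).cone := by
  have e : (∀ j ∈ Z, y j = 0) → ∀ q : GI P.qw P.θ₀ P.N, l (some q.2) ^ q.α (.inr 1) *
      ∏ j, y (.inl j) ^ q.α j = ∏ j, y (.inl j) ^ q.α j := fun hz q => by
    rcases h with h | h
    · by_cases a : q.α (.inr 1) = 0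
      · rw [a, pow_zero, one_mul]
      · rw [Finset.prod_eq_zero (Finset.mem_univ (.inr 1)) (by rw [hz _ h, zero_pow a]), mul_zero]
    · rw [h, one_pow, one_mul]
  rw [bor_mem, fam_mem]
  exact ⟨fun a => ⟨⟨trivial, rfl⟩, a.2.1, a.2.2.1.trans h0, a.2.2.2.1, fun q =>
    (a.2.2.2.2 q).trans (e a.2.2.2.1 q)⟩, fun a => ⟨hl, a.2.1, a.2.2.1.trans h0.symm, a.2.2.2.1,
      fun q => (a.2.2.2.2 q).trans (e a.2.2.2.1 q).symm⟩⟩

theorem trivC {Z : Set P.QJ} (h : P.c ∈ Z) :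
    (P.bor.sub bP1 Z).TrivC ((P.fam false false).sub (slab univ 0) Z) (lt 0) :=
  ⟨rfl, slab_eq 0, fun j => (bor_wt j).imp_right fun (e : j = _) _ a => (bor_mem.1 a).2.2.2.1 _ (e ▸ h),
    fun _ hl _ => bor_iff hl hl.2 (.inl h)⟩

variable (P) in
/-- The left piece of the family over the projective line. -/
noncomputable abbrev bL : Fam Unit (Option (Fin 2)) (R ⊕ Bool) P.QJ P.QK := P.bor.sub bP1 {P.b}

variable (P) in
/-- The right piece. -/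
noncomputable abbrev bR : Fam Unit (Option (Fin 2)) (R ⊕ Bool) P.QJ P.QK := P.bor.sub bP1 {P.c}

variable (P) in
/-- The divisor. -/
noncomputable abbrev bD : Fam Unit (Option (Fin 2)) (R ⊕ Bool) P.QJ P.QK := P.bor.sub bP1 {P.b, P.c}

theorem trivR : P.bR.Triv (P.pR false false) (lt 0) :=
  ⟨trivC rfl, rfl, rfl, rfl, fun j a => (bor_wt j).resolve_right a, fun l hl y _ => by
    change y P.b * y P.c = l none ↔ y P.b * y P.c = 0
    rw [hl.2]⟩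

/-- The base point. -/
def l1 : Option (Fin 2) → ℂ := fun o => o.elim 0 1

theorem l1_mem : l1 ∈ bP1 := ⟨fun h => one_ne_zero (congrFun h 0), rfl⟩

variable (P) in
/-- A member of the left piece. -/
noncomputable abbrev aL : Fam Empty (Option (Fin 2)) (R ⊕ Bool) P.QJ P.QK := P.bL.atl l1

theorem atl_iff (Z : Set P.QJ) (y) : (l1, y) ∈ ((P.bor.sub bP1 Z).atl l1).cone ↔
    (lt 0, y) ∈ ((P.fam false false).sub (slab univ 0) Z).cone :=
  bor_iff (B := {l1}) rfl rfl (.inr fun _ => rfl)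

theorem trivL : P.aL.Triv (P.pL false false) (lt 0) :=
  ⟨⟨rfl, slab_eq 0, fun _ => .inl (Subsingleton.elim _ _), fun _ hl _ => by cases hl; exact atl_iff _ _⟩, rfl, rfl,
    rfl, fun _ _ => Subsingleton.elim _ _, fun _ hl _ _ => by cases hl; rfl⟩

theorem trivL' : (P.pL false false).Triv P.aL l1 :=
  ⟨⟨rfl, rfl, fun _ => .inl (Subsingleton.elim _ _), fun _ hl _ =>
    (slab_eq 0).le hl ▸ (atl_iff _ _).symm⟩, rfl, rfl, rfl, fun _ _ => Subsingleton.elim _ _,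
    fun _ hl _ _ => (slab_eq 0).le hl ▸ Iff.rfl⟩

variable [DecidableEq P.QJ] (h : P.Ok) (hK : St.Kit)
include h

theorem Ok.bor_nice : P.bL.Nice (Pi.single P.c 1) ∧
    P.bR.Nice (Pi.single P.b 1) ∧ P.bD.Nice 0 :=
  have a := St.degN P.bor _ _ _ _ _ h.bor_deg h.bor_good ⟨_, h.bor_reg⟩ mfd_P1'
  ⟨a.1, a.2.1, a.2.2.1⟩

theorem Ok.bor_big' (Z) : (P.bor.sub bP1 Z).Big P.k := h.bor_big (h.bor_deg.slab_sub trivial) Z

theorem Ok.bor_sub (Z) : (P.bor.sub bP1 Z).cone ⊆ P.bor.cone :=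
  Fam.cone_sub (h.bor_deg.slab_sub trivial) (h.bor_deg.zer_sub _)

omit h in
theorem bor_cp (Z) : (P.bor.sub bP1 Z).Cp := Wt.compact_P1 (W := P.bor.toWt) fun _ => rfl

omit h in
theorem bor_dvsL : P.bL.dvs (Pi.single P.c 1) ⊆ P.bD.cone :=
  fun _ h => have a := bor_mem.1 h.1
    bor_mem.2 ⟨a.1, a.2.1, a.2.2.1, fun j c => c.elim (a.2.2.2.1 j) fun d => h.2 j (by
      rw [show j = P.c from d, Pi.single_eq_same]; exact one_ne_zero), a.2.2.2.2⟩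

omit h in
theorem bor_dvsR : P.bR.dvs (Pi.single P.b 1) ⊆ P.bD.cone :=
  fun _ h => have a := bor_mem.1 h.1
    bor_mem.2 ⟨a.1, a.2.1, a.2.2.1, fun j c => c.elim (fun d => h.2 j (by
      rw [show j = P.b from d, Pi.single_eq_same]; exact one_ne_zero)) (a.2.2.2.1 j), a.2.2.2.2⟩

variable {V : Type} [AddCommGroup V] [Module ℂ V] {p : Fock.Par ℂ V} {D : Deg.Dv}
  {iD : D.H →ₗ[ℂ] H (P.W.X P.AD)} {i' : D.H →ₗ[ℂ] H (P.bor.X P.bD.cone)}
  (eD : IsEv D.p (parH _) iD) (ei' : IsEv D.p (parH _) i')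
  (hi' : ∀ u, i' u = P.bor.pb P.W P.kap _ (iD u))
include hK eD ei' hi'

/-- The coefficient of the equivariant parameter. -/
theorem Ok.lam (hE : St.PE) (hF : St.Fib) {lam : H (P.bor.Bs bP1)} (hd : H.IsDeg 2 lam)
    (hl : lam ∈ Ch.Hev _) (hτ : P.bor.intB _ lam ≠ 0)
    {l : V →ₗ[ℂ] H (P.bor.X P.bL.cone)} {iL : V →ₗ[ℂ] H (P.W.X (P.AL false))}
    (el : IsEv p (parH _) l) (eL : IsEv p (parH _) iL) {a b : V → H (P.W.X P.AD)} {χ}
    (h1 : ∀ v, l v = P.bor.pb P.W P.kap _ (a v) + P.bor.pb P.W P.kap _ (b v) * P.bor.lc _ 0 χ)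
    (h2 : ∀ v, iL v = P.W.pb P.W P.kap _ (a v) + P.W.pb P.W P.kap _ (b v) * P.W.lc _ 0 χ) :
    ∃ t ≠ (0 : ℂ), ∀ β j m v, (P.bL.serR P.k (P.bor.exB (B := bP1) 1) (parH _) .id
      (Pi.single P.c 1) D i' β j ∘ₗ LinearMap.mulLeft ℂ
        (ι _ ((Finsupp.single m (P.bor.pB _ lam * l v), 0), 0))) ∘ₗ
        (Fock.map _ (isEv_lr el (Deg.isEv_id' D.p))).toLinearMap =
      t • P.sL false p iL D iD β j ∘ₗ LinearMap.mulLeft ℂ (ι _ ((Finsupp.single m v, 0), 0)) := by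
  have n := h.bor_nice.1
  have k := h.bor_big' {P.b}
  have d := h.dk false false
  obtain ⟨na, fb⟩ := hF P.bL _ P.k 1 (1 * lam) l1 n (bor_cp _)
    (Wt.connected_P1 (W := P.bor.toWt) fun _ => rfl) mfd_P1 (by rwa [one_mul]) k l1_mem subset_rfl
    bor_dvsL
  have ka : P.aL.Big P.k := k.sub (F := P.bL) (singleton_subset_iff.2 l1_mem) subset_rfl
  have s : P.aL.cone ⊆ P.bL.cone := Fam.cone_sub (F := P.bL) (singleton_subset_iff.2 l1_mem) subset_rfl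
  have m : MapsTo (fun z => (lt 0, z.2)) P.aL.cone (P.AL false) := fun z a =>
    (trivL.cone _ a.1 _).1 a
  have m' : MapsTo (fun z => (l1, z.2)) (P.AL false) P.aL.cone := fun z a =>
    (trivL'.cone _ a.1 _).1 a
  have md : MapsTo (fun z => (lt 0, z.2)) (P.aL.dvs (Pi.single P.c 1)) P.AD := fun z a =>
    d.dvsL ⟨m a.1, a.2⟩
  have md' : MapsTo (fun z => (l1, z.2)) P.AD (P.aL.dvs (Pi.single P.c 1)) := fun z a =>
    have b := (dvs_pL false false).ge a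
    ⟨m' b.1, b.2⟩
  have e0 : ∀ {q : P.QJ → Prop} j, P.aL.wt j = 0 ∨ q j := fun _ => .inl (Subsingleton.elim _ _)
  have e1 : ∀ {q : P.QJ → Prop} j, P.W.wt j = 0 ∨ q j := fun _ => .inl (Subsingleton.elim _ _)
  have e2 : ∀ τ l, id (P.aL.actL τ l) = id l := fun τ l => by
    rw [Subsingleton.elim τ 1, Wt.actL_one]
  have q := P.aL.eqh_fgt P.bor.toWt rfl continuous_id e2 e0 s
  have q' := P.aL.eqh_fgt P.bor.toWt rfl continuous_id e2 e0
    (A := P.aL.dvs (Pi.single P.c 1)) fun z a => bor_dvsL ⟨s a.1, a.2⟩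
  have u := P.aL.eqh_fgt P.W rfl continuous_const (fun _ _ => rfl) e0 m
  have u' := P.aL.eqh_fgt P.W rfl continuous_const (fun _ _ => rfl) e0 md
  have w := P.W.eqh_fgt P.aL.toWt rfl continuous_const (fun _ _ => rfl) e1 m'
  have w' := P.W.eqh_fgt P.aL.toWt rfl continuous_const (fun _ _ => rfl) e1 md'
  have := n.toGood.fp
  have := na.toGood.fp
  have := d.nice.1.toGood.fp
  have oL : ∀ z ∈ P.AL false, z.2 ∘ P.o ∈ P.dvs := fun _ a => (fam_mem.1 a).2.1.dvs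
  obtain ⟨ia, ea, a1⟩ := Wt.exists_pb q.toEqv el
  obtain ⟨ia', ea', a1'⟩ := Wt.exists_pb q'.toEqv ei'
  have a2 := fun v => (a1 v).trans ((congrArg _ (h1 v)).trans
    (pb_lf (W := P.bor.toWt) rfl (fun _ => rfl) bor_dvs q (fun _ => rfl) _ _ _))
  have a2' := fun v => (a1' v).trans ((congrArg _ (hi' v)).trans
    (pb_kap (W := P.bor.toWt) rfl (fun _ => rfl) bor_dvs q' (fun _ => rfl) _))
  obtain ⟨c, c0, hc⟩ := exists_smul_ne
    (a := fun x : _ × _ => P.aL.serR P.k P.aL.ex0 p ia (Pi.single P.c 1) D ia' x.1 x.2)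
    (b := fun x => P.sL false p iL D iD x.1 x.2)
    (fun x => trivL.serR hK na (Fam.cp_of_subsingleton subsingleton_singleton) d.nice.1 ka
      (d.bigs h.zero _) (subset_univ _) (one_mem _) subset_rfl subset_rfl subset_rfl d.dvsL m md
      (fun j a z b => (b.elim id And.left).2.1.2.2 j a) ea eL ea' eD
      (fun v => (a2 v).trans ((pb_lf (W := P.W) rfl (fun _ => rfl) oL u (fun _ => rfl) _ _ _).symm.trans
        (congrArg _ (h2 v).symm)))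
      (fun v => (a2' v).trans ((pb_kap (W := P.W) rfl (fun _ => rfl) old_pD u' (fun _ => rfl) _).symm.trans
        (congrArg _ (pb_kap_self _ _ _)))) _ _)
    fun x => trivL'.serR hK d.nice.1 (Fam.DK.cp _ _) na (d.bigs h.zero _) ka (subset_univ _)
      (one_mem _) subset_rfl d.dvsL subset_rfl subset_rfl m' md'
      (fun j a z b => b.elim (fun b => b.2.1.2.2 j a) fun b => b.2.1.2.2 j (.inl a)) eL ea eD ea'
      (fun v => (h2 v).trans ((pb_lf (W := P.aL.toWt) rfl (fun _ => Subsingleton.elim _ _)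
        (fun z a => bor_dvs z (s a)) w (fun _ => rfl) _ _ _).symm.trans (congrArg _ (a2 v).symm)))
      (fun v => (pb_kap_self _ _ _).symm.trans ((pb_kap (W := P.aL.toWt) rfl
        (fun _ => Subsingleton.elim _ _) (fun z a => bor_dvs z (s a.1)) w' (fun _ => rfl) _).symm.trans (congrArg _ (a2' v).symm))) _ _
  have he : P.bL.ExOk P.k (P.bor.exB (B := bP1) 1) :=
    (hK.selC P.bL P.k 1 bP1 1 n.toGood k subset_rfl (one_mem _)).1
  refine ⟨_, mul_ne_zero hτ c0, fun β j m v => monR_ext fun l₁ l₂ l₃ => ?_⟩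
  have x := LinearMap.congr_fun (hc (β, j)) (monR p D ((m, v) :: l₁) l₂ l₃)
  rw [(hK.spec P.aL _ _ _ p ia na (Fam.cp_of_subsingleton subsingleton_singleton) ka
    (Fam.exOk0 hK.selC na.toGood ka) subset_rfl ea).2 D ia' subset_rfl ea', monR_cons,
    ← Fam.map_map_id l _ ia a1, ← Fam.map_map_id i' _ ia' a1'] at x
  have y := (hK.spec P.bL _ _ _ _ .id n (bor_cp _) k he subset_rfl (Deg.isEv_id' _)).2 D i'
    bor_dvsL ei' β j ((m, P.bor.pB _ lam * l v) :: l₁.map (Prod.map id l)) l₂ (l₃.map (Prod.map id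
      (LinearMap.id : D.H →ₗ[ℂ] _)))
  rw [monR_cons, ← map_monR el (Deg.isEv_id' D.p), LinearMap.id_coe, LinearMap.id_coe, Prod.map_id,
    Prod.map_id, List.map_id, List.map_id] at y
  refine y.trans ((hE P.bL _ P.k _ 1 bP1 1 lam subset_rfl bor_dvsL (fun _ a => a.1) n (bor_cp _) k he
    hl β j m _ _ _ _).trans ((fb β j _ _ _).trans ?_))
  rw [one_mul]
  exact (congrArg _ x).trans (mul_assoc _ _ _).symm

/-- The right piece is a trivial family. -/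
theorem Ok.rgt {c : H (P.bor.Bs bP1)} (hc : c ∈ Ch.Hev _) {l : V →ₗ[ℂ] H (P.bor.X P.bR.cone)}
    {iR : V →ₗ[ℂ] H (P.W.X (P.AR false))} (el : IsEv p (parH _) l) (eR : IsEv p (parH _) iR)
    (h1 : ∀ v, l v = P.bor.pb P.W (fun z => (lt 0, z.2)) _ (iR v)) (β j) :
    P.bR.serR P.k (P.bor.exB c) (parH _) .id (Pi.single P.b 1) D i' β j ∘ₗ
      (Fock.map _ (isEv_lr el (Deg.isEv_id' D.p))).toLinearMap =
      P.bor.intB _ c • P.sR false p iR D iD β j := by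
  have n := h.bor_nice.2.1
  have k := h.bor_big' {P.c}
  have d := h.dk false false
  have t := trivC (P := P) (Z := {P.b, P.c}) (.inr rfl)
  have m : MapsTo (fun z => (lt 0, z.2)) P.bD.cone P.AD := fun z a => (t.cone _ a.1 _).1 a
  have u := P.bor.eqh_fgt P.W rfl continuous_const (fun _ _ => rfl) t.wt m
  refine (Fam.serR_nat hK.spec n (bor_cp _) k (hK.selC P.bR P.k 1 bP1 c n.toGood k subset_rfl hc).1
    subset_rfl bor_dvsR (Deg.isEv_id' _) el ei' (Deg.isEv_id' D.p) β j).symm.trans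
    ((trivR.serR hK n (bor_cp _) d.nice.2.1 k (d.bigs h.zero _) subset_rfl hc subset_rfl bor_dvsR
      subset_rfl d.dvsR (fun z a => (trivR.cone _ a.1 _).1 a) m (fun j a z b => b.elim
      (fun b => b.2.1.2.2 j a) fun b => b.2.1.2.2 j (.inr a)) el eR ei' eD h1 (fun v => (hi' v).trans
      ((pb_kap (W := P.W) rfl (fun _ => rfl) old_pD u (fun _ => rfl) _).symm.trans
        (congrArg _ (pb_kap_self _ _ _)))) β j).trans ?_)
  rw [Wt.rsB_self]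
  rfl

omit eD ei' hi' in
/-- **G2** for the two caps. -/
theorem Ok.g2 (hG : St.G2) (hT : St.CasT) (hE : St.PE) (hF : St.Fib) (cD : P.W.IsCoh _ D.toCoh iD)
    {C : Deg.Cz D 1} {Q : Deg.Pz D (-1)} (X : Deg.Sm C.toPz Q)
    {iL : C.H →ₗ[ℂ] H (P.W.X (P.AL false))} {iR : Q.H →ₗ[ℂ] H (P.W.X (P.AR false))}
    (eL : IsEv C.p (parH _) iL) (eR : IsEv Q.p (parH _) iR) {ζL : C.H →ₗ[ℂ] H (P.W.X P.AD)}
    {ζR : Q.H →ₗ[ℂ] H (P.W.X P.AD)} (zL : IsEv C.p (parH _) ζL) (zR : IsEv Q.p (parH _) ζR)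
    (hL : ∀ t, iL t = P.W.pb P.W P.kap _ (iD (C.res t)) +
      P.W.pb P.W P.kap _ (ζL t) * P.W.lc _ 0 (P.W.w P.y'))
    (hR : ∀ t, iR t = P.W.pb P.W P.kap _ (iD (Q.res t)) +
      P.W.pb P.W P.kap _ (ζR t) * P.W.lc _ 0 (P.W.w P.y))
    (hs : ∀ u, ζL (C.sec u) = 0) (hg : ∀ u, ζL (C.gys u) = iD u)
    (hc : ∀ u, iD (D.c u) = P.W.lc _ 0 (P.W.w P.c) * iD u)
    (hb : ∀ u, iR (Q.gys u) = P.W.lc _ 0 (P.W.w P.b) * P.W.pb P.W P.kap _ (iD u)) :
    ∃ F1 : Deg.Ser _ (Deg.pR C.p D), F1.RelL P.g ∧ ∃ t ≠ (0 : ℂ),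
      Deg.G2 P.g X (P.sL false C.p iL D iD) F1 (P.sR false Q.p iR D iD) t := by
  obtain ⟨lam, τ, τ0, hd, hl, e1, e2, e3, cb, pb⟩ := Wt.exists_P1 (W := P.bor.toWt) fun _ => rfl
  have n := h.bor_nice
  have d := h.dk false false
  have := h.bor_good.fp
  have := n.1.toGood.fp
  have := n.2.1.toGood.fp
  have := d.nice.2.1.toGood.fp
  have := d.nice.2.2.1.toGood.fp
  have sL := h.bor_sub {P.b}
  have sR := h.bor_sub {P.c}
  have oB : ∀ z ∈ P.bor.cone, z.2 ∘ P.o ∈ P.dvs := fun z a => bor_dvs (Z := ∅) z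
    ((Fam.mem_cone_sub subset_rfl (h.bor_deg.zer_sub _)).2 ⟨a, a.1, nofun⟩)
  have oR : ∀ z ∈ P.AR false, z.2 ∘ P.o ∈ P.dvs := fun _ a => (fam_mem.1 a).2.1.dvs
  have kB := eqh_kap (W := P.bor.toWt) rfl (fun _ => rfl) oB false false
  have kL := eqh_kap (W := P.bor.toWt) rfl (fun _ => rfl) (bor_dvs (B := bP1) (Z := {P.b})) false false
  have t := trivC (P := P) (Z := {P.b, P.c}) (.inr rfl)
  have u := P.bor.eqh_fgt P.W rfl continuous_const (fun _ _ => rfl) trivR.wt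
    fun z a => (trivR.cone _ a.1 _).1 a
  have u' := P.bor.eqh_fgt P.W rfl continuous_const (fun _ _ => rfl) t.wt
    fun z a => (t.cone _ a.1 _).1 a
  have kD := eqh_kap (W := P.bor.toWt) rfl (fun _ => rfl) (bor_dvs (B := bP1) (Z := {P.b, P.c}))
    false false
  obtain ⟨π, eπ, hπ'⟩ := Wt.exists_pb kB.toEqv (Deg.isEv_id' _)
  have hπ : ∀ {A} (s : A ⊆ P.bor.cone) a, P.bor.rs s (π a) = P.bor.pb P.W P.kap A a := fun s a => by
    rw [hπ', Wt.rs_pb kB.toEqv]; rfl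
  obtain ⟨i', ei', hi'⟩ := Wt.exists_pb kD.toEqv cD.ev
  obtain ⟨L, eL', hL'⟩ : ∃ L : C.H →ₗ[ℂ] _, IsEv C.p (parH _) L ∧
      ∀ v, L v = π (iD (C.res v)) + π (ζL v) * P.bor.lc _ 0 (P.W.w P.y') :=
    ⟨_, (eπ.comp (cD.ev.comp C.hres)).add ((isEv_mulRight (Wt.lc_mem _ _)).comp (eπ.comp zL)),
      fun _ => rfl⟩
  obtain ⟨ω, eω, hω⟩ : ∃ ω : X.W →ₗ[ℂ] _, IsEv X.pw (parH _) ω ∧
      ∀ v, ω v = L (X.θ1 v) + π (ζR (X.θ2 v)) * P.bor.lc _ 0 (P.W.w P.y) :=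
    ⟨_, (eL'.comp X.h1).add ((isEv_mulRight (Wt.lc_mem _ _)).comp (eπ.comp (zR.comp X.h2))),
      fun _ => rfl⟩
  obtain ⟨l1, el1, hl1⟩ : ∃ l : C.H →ₗ[ℂ] _, IsEv C.p (parH _) l ∧ ∀ v, l v = P.bor.rs sL (L v) :=
    ⟨_, (P.bor.isEv_rs sL).comp eL', fun _ => rfl⟩
  have h1 : ∀ v, l1 v = P.bor.pb P.W P.kap _ (iD (C.res v)) +
      P.bor.pb P.W P.kap _ (ζL v) * P.bor.lc _ 0 (P.W.w P.y') := fun v => by
    rw [hl1, hL', map_add, map_mul, hπ, hπ, Wt.rs_lc]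
  obtain ⟨l2, el2, h2⟩ := Wt.exists_pb u.toEqv eR
  have y0 : P.bor.lc P.bL.cone 0 (P.W.w P.y) = 0 := Wt.lc_eq_zero (F := P.bor.toWt) (j := P.y)
    fun z a => (bor_mem.1 a).2.1.y.resolve_right fun b => b.2 ((bor_mem.1 a).2.2.2.1 _ rfl)
  have y1 : P.bor.lc P.bR.cone 0 (P.W.w P.y') = 0 := Wt.lc_eq_zero (F := P.bor.toWt) (j := P.y')
    fun z a => (bor_mem.1 a).2.1.y'.resolve_right fun b => b.2 ((bor_mem.1 a).2.2.2.1 _ rfl)
  obtain ⟨c, c0, hc'⟩ := h.lam hK cD.ev ei' hi' hE hF hd hl (e1 ▸ τ0) el1 eL h1 hL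
  have he := (hK.selC P.bL P.k 1 bP1 1 n.1.toGood (h.bor_big' _) subset_rfl (one_mem _)).1
  have o1 := (hK.okR P.bL P.c P.k _ C.toCoh l1 D i' P.g n.1 (bor_cp _) (h.bor_big' _) he subset_rfl
    bor_dvsL el1 ei' (bor_grd _ _) (h.bor_deg.not_mov.2 (.inr rfl)) h.bor_deg.ne.symm).1 fun d => by
      rw [show P.bL.w P.c = _ from h.bor_deg.wc]
      simp [g, Pi.single_apply]
  rw [show P.bL.serR P.k _ C.p l1 _ D i' = _ from funext₂ (Fam.serR_nat hK.spec n.1 (bor_cp _)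
    (h.bor_big' _) he subset_rfl bor_dvsL (Deg.isEv_id' _) el1 ei' (Deg.isEv_id' D.p))] at o1
  refine ⟨_, o1, c, c0, Deg.G2.of X
    (a := fun u => P.bor.lc _ (P.bor.wt P.c) (P.W.w P.c) * π (iD u))
    (a' := fun u => P.bor.lc _ (P.bor.wt P.b) (P.W.w P.b) * π (iD u)) el1 el2 (P.bor.isEv_rs sL)
    (P.bor.isEv_rs sR) eω (h.relL hK eL cD.ev) o1 (h.relR hK eR cD.ev) (fun w => ?_)
    (fun w => ?_) (fun v => ?_) (fun v => ?_)
    (fun β j => (h.rgt hK cD.ev ei' hi' (cb.1 0).2 el2 eR h2 β j).trans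
      ((congrArg (· • _) e2).trans (one_smul _ _)))
    (fun β j => (h.rgt hK cD.ev ei' hi' (cb.1 1).2 el2 eR h2 β j).trans
      ((congrArg (· • _) e3).trans (zero_smul _ _)))
    (fun β j m v => hc' β j m _) (A' := P.bL.serR P.k (P.bor.exB lam) (parH _) .id
      (Pi.single P.c 1) D i') fun β j m v x y hβ hy => ?_⟩
  · change P.bor.rs sL _ = _
    rw [hω, hl1, map_add, map_mul, Wt.rs_lc, y0, mul_zero, add_zero]
  · change P.bor.rs sR _ = _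
    rw [h2, hR, pb_lf (W := P.W) rfl (fun _ => rfl) oR u fun _ => rfl, hω, hL', map_add, map_add,
      map_mul, map_mul, Wt.rs_lc, Wt.rs_lc, y1, mul_zero, add_zero, hπ, hπ, ← X.mat]
  · change P.bor.rs sL _ = _
    rw [h1, h1, hs, hg, C.res_sec, C.res_gys, one_smul, hc, map_mul, Wt.rs_lc, hπ, pb _ inferInstance
      fun _ a => a.1, Wt.pb_mul kL.toEqv, kap_lc (W := P.bor.toWt) rfl (fun _ => rfl) bor_dvs,
      Wt.pb_eq kL.toEqv 0, map_zero, zero_mul, add_zero, ← Wt.lc_comm, ← add_mul, ← add_mul,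
      ← Wt.lc_add, ← Wt.lc_add, ← add_zero (P.bor.lc _ (P.bor.wt P.c) _), ← y0, ← Wt.lc_add, dχ_c]
    refine congrArg (· * _) (congrArg₂ _ (by simp) (funext ?_))
    rintro (r | _ | _) <;> simp [up, qw, Pre.c, Pre.y, y']
  · change P.bor.rs sR _ = _
    rw [h2, hb, Wt.pb_mul u.toEqv, pb_kap (W := P.W) rfl (fun _ => rfl) oR u fun _ => rfl, map_mul,
      Wt.rs_lc, hπ, Wt.pb_lc (ψ := 0) (χ := P.W.w P.b) u fun t _ => by simp [chT]]
    rfl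
  · have G := hG P.bor _ _ _ _ _ P.k P.g D i' (parH _) .id _ _ h.bor_deg h.bor_good ⟨_, h.bor_reg⟩
      mfd_P1' (h.bor_big subset_rfl _) (bor_cp ∅) three_deg (fun _ => rfl) ei' (by
        have := hT P.bD (P.pD false false) (lt 0) _ _ n.2.2 (bor_cp _) d.nice.2.2.1 t
          (hK.cas (P.pD false false) (lt 0) D.toCoh iD d.nice.2.2.1 (slab_eq 0) (Fam.isCoh_iff.2 cD))
        have e : ∀ v, P.bor.pb P.W (fun z => (lt 0, z.2)) _ (iD v) = i' v := fun v =>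
          (congrArg _ (pb_kap_self _ _ _).symm).trans ((pb_kap (W := P.W) rfl (fun _ => rfl) old_pD u'
            (fun _ => rfl) _).trans (hi' v).symm)
        exact (congrArg₂ P.bD.IsCas (funext fun b => e (D.fr.e b))
          (funext fun b => e (D.fr.f b))).mp this)
      (Deg.isEv_id' _) cb β j m _ _ (π (iD v)) x hβ rfl rfl
    have r1 := fun q => Fam.serR_rs hK n.1 (bor_cp _) (h.bor_big' _) subset_rfl (cb.1 q).1 sL
      bor_dvsL ei'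
    have r2 := fun q => Fam.serR_rs hK n.2.1 (bor_cp _) (h.bor_big' _) subset_rfl (cb.1 q).2 sR
      bor_dvsR ei'
    subst hy
    exact (congrArg₂ (· + ·) (congrArg₂ (Deg.glue P.g · · β j _) (r1 0) (r2 0))
      (congrArg₂ (Deg.glue P.g · · β j _) (r1 1) (r2 1))).symm.trans
      ((Fin.sum_univ_two _).symm.trans G)

end Pre

end Vale.Agent.P269
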