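import Vale.Agent.P269.Asm.DE
import Vale.Agent.P269.Asm.Ci
import Vale.Agent.P269.Mono.Disc
import Vale.Agent.P269.Vir.Defs

set_option linter.unusedSectionVars false

/-!
# Existence of flags of smooth complete intersections
-/

namespace Vale.Agent.P269

open P291Z Set Function Topology Filter MvPolynomial

namespace Mono.CI

variable {M J K : Type} [NormedAddCommGroup M] [NormedSpace ℂ M] [FiniteDimensional ℂ M]
  [Fintype J] [Fintype K]

/-- complete linear systems exist -/
theorem exists_fin (J : Type) [Fintype J] {d : K → ℕ} (hd : ∀ k, 1 ≤ d k) :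
    ∃ (n : ℕ) (S : CI (Fin n → ℂ) J K), S.d = d := by
  have := fun k => Module.Finite.of_fg (homogeneousSubmodule_fg J ℂ (d k))
  obtain ⟨n, f, hf⟩ := Module.Finite.exists_fin' ℂ (∀ k, homogeneousSubmodule J ℂ (d k))
  refine ⟨n, ⟨.pi fun k => (Submodule.subtype _).comp ((LinearMap.proj k).comp f), d, hd,
    fun u k => (f u k).2, fun G hG => ?_⟩, rfl⟩
  obtain ⟨u, hu⟩ := hf fun k => ⟨G k, hG k⟩
  exact ⟨u, funext fun k => congrArg Subtype.val (congrFun hu k)⟩

/-- the system without the last equation -/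
noncomputable def tail (S : CI M J (Option K)) : CI M J K where
  F := (LinearMap.funLeft ℂ _ some).comp S.F
  d k := S.d (some k)
  pos _ := S.pos _
  hom u _ := S.hom u _
  surj G hG :=
    let ⟨u, hu⟩ := S.surj (fun o => o.elim 0 G) fun o => by
      cases o
      exacts [isHomogeneous_zero _ _ _, hG _]
    ⟨u, funext fun k => congrFun hu (some k)⟩

theorem smCI (S : CI M J K) {u : M} (hu : u ∈ S.U) (h : ∀ k, S.ev u 1 k ≠ 0) :
    SmCI (S.F u) S.d := by
  refine ⟨S.hom u, S.pos, fun k e => h k (by rw [ev, e, map_zero]), fun x hx =>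
    (li_iff_surj _).2 fun c => ?_⟩
  obtain ⟨h1, h2⟩ := mem_ciK.1 hx
  obtain ⟨v, hv⟩ := not_not.1 (fun e => hu x ⟨h1, funext h2, e⟩) c
  exact ⟨v, fun k => ((Vir.hasDerivAt_eval _ x v).unique (hasDerivAt_pi.1
    ((S.diff_ev u x).hasFDerivAt.hasLineDerivAt v) k)).trans (congrFun hv k)⟩

theorem exists_ev [Nonempty J] (S : CI M J K) : ∃ u, S.ev u 1 = 1 :=
  let ⟨u, hu⟩ := S.surj (fun k => .X (Classical.arbitrary J) ^ S.d k) fun k =>
    isHomogeneous_X_pow _ _
  ⟨u, funext fun k => by simp [ev, hu]⟩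

theorem small_bad [Nonempty J] (S : CI M J K) {k : ℕ} (hk : Module.finrank ℝ M ≤ k + 2) :
    Small k {u | SmCI (S.F u) S.d}ᶜ := by
  classical
  obtain ⟨a, ha⟩ := S.exists_ev
  refine ((S.small_disc hk).union (Small.iUnion fun j : K =>
    small_zero_fun (h := fun u => S.ev u 1 j) (a := a) (contDiff_pi.1 (S.contDiff_ev.comp
      (contDiff_id.prodMk contDiff_const)) j) (by simp [ha]) (finrank_real M ▸ hk))).mono
    fun u hu => by_contra fun e => hu ?_
  rw [mem_union, not_or, mem_iUnion, not_exists] at e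
  exact S.smCI (not_not.1 e.1) e.2

end Mono.CI

theorem Flag.exists_ok (J K : Type) [Fintype J] [Fintype K] [Nonempty J] (d : K → ℕ)
    (hd : ∀ k, 1 ≤ d k) {a : ℕ} (ha : 1 ≤ a) : ∃ f : Flag J K, f.d = d ∧ f.a = a ∧ f.Ok := by
  obtain ⟨n, S, hS⟩ := Mono.CI.exists_fin J
    (d := fun o : Option (Option K) => o.elim (a + 1) fun o => o.elim a d) fun o => by
      rcases o with _ | _ | k
      exacts [Nat.le_add_left _ _, ha, hd k]
  obtain ⟨u, hu⟩ := S.exists_ev
  have : Nontrivial (Fin n → ℂ) := ⟨u, 0, fun e => by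
    simpa [e, Mono.CI.ev] using congrFun hu none⟩
  have h1 : 0 < Module.finrank ℝ (Fin n → ℂ) := Module.finrank_pos
  have h2 : Module.finrank ℝ (Fin n → ℂ) ≤ Module.finrank ℝ (Fin n → ℂ) - 1 + 2 := by omega
  obtain ⟨v, -, hv⟩ := (((S.small_bad h2).union (S.tail.small_bad h2)).union
    (S.tail.tail.small_bad h2)).exists_notMem (by omega) (univ_mem (f := 𝓝 0))
  simp only [mem_union, mem_compl_iff, mem_ofPred_eq, not_or, not_not] at hv
  have e : ∀ {α β : Type} (g : Option α → β), (fun o => o.elim (g none) fun k => g (some k)) = g :=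
    fun g => funext fun o => by cases o <;> rfl
  refine ⟨⟨S.tail.tail.F v, d, a, S.tail.F v none, S.F v none⟩, rfl, rfl, ‹_›, ?_, ?_, ?_⟩
  · have := hv.2
    rwa [show S.tail.tail.d = d from funext fun k => congrFun hS _] at this
  · have := hv.1.2
    rwa [show S.tail.d = _ from funext fun k => congrFun hS _, ← e (S.tail.F v)] at this
  · have := hv.1.1
    rwa [hS, ← e (S.F v), show (fun k => S.F v (some k)) = _ from (e (S.tail.F v)).symm] at this

end Vale.Agent.P269
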