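import Vale.Agent.P269.Bl.Main
import Vale.Agent.P269.Coh.DPk
import Vale.Agent.P269.Coh.IsoCI
import Vale.Agent.P269.Asm.G2

/-!
# The double point step
-/

set_option linter.unusedSectionVars false

namespace Vale.Agent.P269

open P291Z Set Function Topology Filter MvPolynomial Fock Coh

/-- **G2** for the caps. -/
theorem Pre.Ok.g2_cap {R J K : Type} [Fintype R] [Fintype J] [Fintype K] [DecidableEq R]
    {P : Pre R J K} [DecidableEq P.QJ] (h : P.Ok) (hK : St.Kit) (hG : St.G2) (hT : St.CasT)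
    (hE : St.PE) (hF : St.Fib) (X : Deg.Sm (h.pzL false) (h.pzR false)) :
    ∃ F1 : Deg.Ser _ (Deg.pR h.czL.p h.dv), F1.RelL P.g ∧ ∃ t ≠ (0 : ℂ),
      Deg.G2 (P' := h.czL) P.g X (h.FL false) F1 (h.FR false) t := by
  have e : ∀ z, h.czL.nul z = P.W.lc _ 0 (P.W.w P.y') * H.map (h.πD _ _) z := fun _ => rfl
  have e' : ∀ z, h.czL.sec z = H.map (h.πD _ _) z := fun _ => rfl
  refine h.g2 hK hG hT hE hF h.qD.isCoh (C := h.czL) X (Deg.isEv_id' _) (Deg.isEv_id' _) h.czL.hprj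
    h.czR.hprj (fun t => ?_) (fun t => ?_) (fun u => h.nulL_inj ?_) (fun u => h.nulL_inj ?_)
    (fun _ => rfl) fun u => (h.czR_gys u).trans (congrArg _ (h.pb_kap _ _).symm)
  · exact (h.czL.split t).symm.trans (congrArg₂ _ (h.czL_sec _) (h.czL_nul _))
  · exact (h.czR.split t).symm.trans (congrArg₂ _ (h.czR_sec _) (h.czR_nul _))
  · have := h.czL.split (h.czL.sec u)
    rw [h.czL.res_sec, add_eq_left] at this
    exact this.trans (map_zero _).symm
  · have := h.czL.split (h.czL.gys u)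
    rw [h.czL.res_gys, one_smul, ← eq_sub_iff_add_eq', e'] at this
    refine this.trans (Eq.trans ?_ (e u).symm)
    rw [h.czL_gys, h.lc_y'_cap, sub_mul, ← map_mul]
    rfl

/-- The geometric inputs of the double point step. -/
structure St.KitD : Prop extends St.Kit where
  proj : St.Proj
  dfm : St.Def
  g2 : St.G2
  casT : St.CasT
  pe : St.PE
  fib : St.Fib
  g3L : St.G3L
  g3R : St.G3R
  g3Q : St.G3Q

namespace Flag

variable {J K : Type} [Fintype J] [Fintype K] [Nonempty J] {f : Flag J K} (h : f.Ok) {Ω : Set ℂ}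
  (hP : (f.pD Ω).Ok) {t : ℂ} {r : ℝ}

variable [DecidableEq (f.pD Ω).QJ] (k : St.KitD) (s : (f.pD Ω).Disc t r) {νD ν₁ ν₂ νL νR}
  (aD : Ad hP.qD.ps (f.hq Ω _) (eigs J f.dD) νD) (g₁ : Wt.Gr (hP.qL true) ν₁)
  (g₂ : Wt.Gr (hP.qR true) ν₂) (gL : Wt.Gr (hP.qX s.mem s.ne false true) νL)
  (gR : Wt.Gr (hP.qX s.mem s.ne true false) νR) (pL : Cg (hP.πL _ _ _) ν₁ νL)
  (pR : Cg (hP.πR _ _ _) ν₂ νR)
  (vD : ∀ ν, Ad h.D.tg.ps (hyp _ _) (eigs J f.dD) ν → h.D.tg.VG ν)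
include pL pR vD

/-- The caps for the conjugates of the grading of the divisor. -/
theorem Ok.exists_v (d : VD hP.dv.fr) (hρ : d.ρ = ((h.grD hP aD).vd ((f.pD Ω).κ true true)).ρ)
    (hμ : ∃ x y, Inv.Isom hP.dv.fr.η (Mono.van (f.hq Ω _) hP.qD.ps.J) x ∧ x * y = 1 ∧
      d.μ = x * ((h.grD hP aD).vd ((f.pD Ω).κ true true)).μ * y) :
    ∃ w : (s.cap hP k.toKit k.g3L k.g3R).Vir (f.pD Ω).g d,
      (s.toSks.sm hP false true).RelD (g₁.vd ((f.pD Ω).κ true true)) w.d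
        (gL.vd ((f.pD Ω).κ false true)) ∧
      (s.toSks.sm hP true false).RelD w.d' (g₂.vd ((f.pD Ω).κ true true))
        (gR.vd ((f.pD Ω).κ true false)) := by
  obtain ⟨ν', a', rfl⟩ := h.exists_conj hP aD hρ hμ
  have gD' := h.grD hP a'
  obtain ⟨νT', cD'⟩ := (h.isD hP).exists_map ν'
  obtain ⟨μ₁, k₁, p₁⟩ := Pre.exists_grL gD'
  obtain ⟨μ₂, k₂, p₂⟩ := Pre.exists_grR gD'
  obtain ⟨μ, k₀, p⟩ := Pre.exists_grX gD' s.mem s.ne
  exact ⟨s.capVir k.toKit k.g3L k.g3R gD' k₁ k₂ k₀ p₁ p₂ p ((h.mD hP).virC s.mem s.ne k.toKit k.proj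
    (dT_D.trans n_pD.symm) κD_D cD' k₀ p (vD _ (h.eD_hq hP ▸ ((h.isD hP).ad_iff cD').2 a'))),
    s.toSks.relD_L gD' g₁ k₂ gL (h.cp_jL hP g₁ gD') p₂ pL,
    s.toSks.relD_R gD' k₁ g₂ gR p₁ (h.cp_jR hP g₂ gD') pR⟩

include k aD g₁ g₂ in
theorem Ok.virD_X (hc : Fintype.card K < Fintype.card J) {θ} {hE : (f.tE θ).Tg} {νW νZ νE νB ν}
    (b : h.BG hE νW νZ νE νB) (aW : Ad h.W.tg.ps (hyp _ _) (eigs J f.d) νW)
    (aZ : Ad h.Z.tg.ps (hyp _ _) (eigs J f.dZ) νZ)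
    (a₁ : Ad (hP.qL true).ps (f.hq Ω _) (eigs (Option J) f.dD) ν₁) (c₂ : Cg (h.mB hP).eR ν₂ νB)
    (a : Ad (hP.qX s.mem s.ne true true).ps (f.hq Ω _) (eigs (Option J) f.dX) ν)
    (w₁ : Deg.VirD (f.pD Ω).g (gL.vd ((f.pD Ω).κ false true))
      ((f.pD Ω).sX false true t (hP.qX s.mem s.ne false true).ps.coh.p .id))
    (w₂ : Deg.VirD (f.pD Ω).g (gR.vd ((f.pD Ω).κ true false))
      ((f.pD Ω).sX true false t (hP.qX s.mem s.ne true false).ps.coh.p .id)) :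
    Deg.VirD (f.pD Ω).g ((h.grX hP s.mem s.ne a).vd ((f.pD Ω).κ true true))
      ((f.pD Ω).sX true true t (hP.qX s.mem s.ne true true).ps.coh.p .id) := by
  have hK := k.toKit
  obtain ⟨ε, prD, pr, lW, eD, eX, el, r1, r2, am, rμ, hd, hl, cs⟩ :=
    h.exists_dp hP s.toSks hc b aW aZ aD a₁ g₂ c₂ a
  obtain ⟨F1, o1, u, u0, g2⟩ := hP.g2_cap hK k.g2 k.casT k.pe k.fib (s.toSks.sm hP false false)
  have V := h.exists_v hP k s aD g₁ g₂ gL gR pL pR vD
  rw [← eD] at V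
  choose v v₁ v₂ using V
  exact Deg.stepDP (f.pD Ω).g hP.dv
    { c := s.cap hP hK k.g3L k.g3R
      nodeP := s.node hP hK false false
      F1' := F1
      rel1' := o1
      t := u
      ht := u0
      g2 := g2
      ε := ε
      dD := (h.grD hP aD).vd ((f.pD Ω).κ true true)
      prD := prD
      v := v
      Y1 := hP.pzL true
      F1 := hP.FL true
      rel1 := hP.relFL hK true
      d1 := g₁.vd ((f.pD Ω).κ true true)
      cmp1 := Pre.cmpL _ g₁ (h.cp_jL hP g₁ (h.grD hP aD))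
      Y2 := hP.pzR true
      F2 := hP.FR true
      rel2 := hP.relFR hK true
      d2 := g₂.vd ((f.pD Ω).κ true true)
      cmp2 := Pre.cmpR _ g₂ (h.cp_jR hP g₂ (h.grD hP aD))
      res1 := r1
      res2 := r2
      s1 := s.smo hP hK false true
      node1 := s.node hP hK false true
      surj1 := s.toSks.surjL hP
      d1X := gL.vd ((f.pD Ω).κ false true)
      rel1X := v₁
      vir1 := w₁
      s2 := s.smo hP hK true false
      node2 := s.node hP hK true false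
      surj2 := s.toSks.surjR hP
      d2X := gR.vd ((f.pD Ω).κ true false)
      rel2X := v₂
      vir2 := w₂
      s := s.smo hP hK true true
      node := s.node hP hK true true
      d := (h.grX hP s.mem s.ne a).vd ((f.pD Ω).κ true true)
      pr := pr
      amb := am
      relρ := s.toSks.relρ hP true true
      relμ := rμ
      hodge := hd
      lW := lW
      hlW := hl
      cases := cs
      inv := fun ⟨q, hq⟩ x hx he => h.invX hP s.mem s.ne hK k.dfm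
        ⟨_, (congrArg _ el).mp (Multiset.mem_map_of_mem _ (Finset.mem_univ q)), hq⟩ x
          ((congrArg (Inv.Isom _ · x) eX).mp hx) he }

omit pL pR in
include k in
/-- **The general member of the double point degeneration.** -/
theorem Ok.vgX (hc : Fintype.card K < Fintype.card J)
    (vW : ∀ ν, Ad h.W.tg.ps (hyp _ _) (eigs J f.d) ν → h.W.tg.VG ν)
    (vZ : ∀ ν, Ad h.Z.tg.ps (hyp _ _) (eigs J f.dZ) ν → h.Z.tg.VG ν)
    (vY : ∀ ν, Ad h.smY.tg.ps (hyp _ _) (eigs (Option J) f.dD) ν → h.smY.tg.VG ν) {νX}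
    (aX : Ad (h.smX hP s.mem s.ne).tg.ps (hyp _ _) (eigs (Option J) f.dX) νX) :
    (h.smX hP s.mem s.ne).tg.VG νX := by
  have hK := k.toKit
  obtain ⟨νW, aW⟩ := h.W.exists_ad
  obtain ⟨νZ, aZ⟩ := h.Z.exists_ad
  obtain ⟨νT, aT⟩ := h.D.exists_ad
  obtain ⟨νY, aY⟩ := h.smY.exists_ad
  obtain ⟨θ, hE⟩ := h.exists_tE
  obtain ⟨νE, νB, b⟩ := h.exists_bg hE (h.W.gr aW) (h.Z.gr aZ) (h.cp_ιZ aW aZ)
  obtain ⟨νD, cD⟩ := (h.isD hP).exists_comap νT
  obtain ⟨ν₁, c₁⟩ := (h.isY hP).exists_comap νY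
  obtain ⟨ν₂, c₂⟩ := (h.isB hP).exists_comap νB
  obtain ⟨ν, c⟩ := (h.isX hP s.mem s.ne).exists_comap νX
  have aD := ((h.isD hP).ad_iff cD).1 ((h.eD_hq hP).symm ▸ aT)
  have a₁ := ((h.isY hP).ad_iff c₁).1 ((h.eL_hq hP).symm ▸ aY)
  have a := ((h.isX hP s.mem s.ne).ad_iff c).1 ((h.eX_hq hP s.mem s.ne).symm ▸ aX)
  have g₂ := ((h.mB hP).gr_iff (h.isB hP) c₂).1 b.gB
  have g₁ := h.grL hP a₁
  obtain ⟨νL, gL, pL⟩ := Pre.exists_grXL s.mem s.ne g₁
  obtain ⟨νR, gR, pR⟩ := Pre.exists_grXR s.mem s.ne g₂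
  have n1 : f.tW.dT = (f.pD Ω).n + 1 := by rw [n_pD]; ring
  obtain ⟨g₀, e₀, e₁⟩ := exists_gX (f := f) (Ω := Ω)
  exact (((h.mX hP s.mem s.ne).virX_iff s.mem s.ne hK ((dT_X t).trans n1) κD_X c _ e₁).2
    (h.virD_X hP k s aD g₁ g₂ gL gR pL pR vD hc b aW aZ a₁ c₂ a
      ((h.mY hP).virL s.mem s.ne hK (dT_Y.trans n1) κD_Y c₁ gL pL (vY _ aY))
      (((h.mB hP).virR_iff s.mem s.ne hK (dT_B.trans n1) κD_B c₂ gR pR θD_B).1
        (h.vsB hK k.proj k.g3L k.g3R k.g3Q b (vW _ aW) (vZ _ aZ))))).vg e₀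

end Flag

/-- **The double point step.** -/
theorem St.vDP (k : St.KitD) : St.VDP := by
  classical
  intro N ds a hc hd ha hY hW hD hZ
  obtain ⟨l, rfl⟩ := Quotient.exists_rep ds
  have e : Finset.univ.val.map l.get = (l : Multiset ℕ) := by
    rw [Fin.univ_val_map, List.ofFn_get]
  obtain ⟨f, e₁, rfl, h⟩ := Flag.exists_ok (Fin (N + 1)) (Fin l.length) l.get
    (fun i => hd _ (List.get_mem _ _)) ha
  rw [← e₁] at e
  obtain ⟨r, -, hP⟩ := h.exists_pD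
  obtain ⟨t, r', s⟩ := hP.exists_disc
  have o : ∀ {α : Type} [Fintype α] (u : Option α → ℕ),
      Finset.univ.val.map u = u none ::ₘ Finset.univ.val.map fun x => u (some x) := fun u => by
    rw [univ_option, Finset.insertNone]
    simp
  have c : Fintype.card (Option (Fin (N + 1))) = N + 1 + 1 := by simp
  have eD : Finset.univ.val.map f.dD = f.a ::ₘ l := (o _).trans (congrArg _ e)
  exact (h.smX hP s.mem s.ne).vci k.toKit k.dfm c ((o _).trans (congrArg _ e)) fun _ =>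
    h.vgX hP k s (fun _ => h.D.vg_of_vci hD (Fintype.card_fin _) eD)
      (by simpa using Nat.lt_succ_of_le hc) (fun _ => h.W.vg_of_vci hW (Fintype.card_fin _) e)
      (fun _ => h.Z.vg_of_vci hZ (Fintype.card_fin _) ((o _).trans (congrArg _ eD)))
      fun _ => h.smY.vg_of_vci hY c eD

end Vale.Agent.P269
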