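import Vale.Agent.P269.Asm.All
import Vale.Agent.P269.Asm.VDP
import Vale.Agent.P269.Kit.G3I
import Vale.Agent.P269.G3.Asm
import Vale.Agent.P269.G3.PrR
import Vale.Agent.P269.Qrr.PrQ
import Vale.Agent.P269.Qrr.PrG
import Vale.Agent.P269.Qrr.Un
import Vale.Agent.P269.Qrr.Three
import Vale.Agent.P269.Qrr.Node
import Vale.Agent.P269.Qrr.QC
import Vale.Agent.P269.Fg.Main
import Vale.Agent.P269.Fg.DivE
import Vale.Agent.P269.Bas.E0
import Vale.Agent.P269.Bas.Fib
import Vale.Agent.P269.Bas.Triv
import Vale.Agent.P269.Spl.G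
import Vale.Agent.P269.Map.PresZ
import Vale.Agent.P269.Map.WellD
import Vale.Agent.P269.Glu.PrFin
import Vale.Agent.P269.Glu.NdN
import Vale.Agent.P269.Glu.NdQ
import Vale.Agent.P269.Glu.Node
import Vale.Agent.P269.Glu.Fin
import Vale.Agent.P269.WK.FbD
import Vale.Agent.P269.LG.Fin0

/-!
# The theorem from the four contributions to localisation
-/

namespace Vale.Agent.P269.St

theorem main_fr (h4 : LFour) : Main :=
  have hC : PRc := prC well
  have hS : Spec := spec_of well
  have hL : LocG := locG_of hS wellD (rel dg) h4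
  have hM : PrQ := prQ_of hC well
  have hI : UnQ := unQ hM threeT (add well) hS
  have hU : UcP := ucP forget well
  have hN : NdQ := ndQ well nDq
  have hG : G3 := g3 well hS res (okR hS supp par) (prodR_of hC well)
  main_all well presZ qc hU hN hI hL fbD hM (div forget well) threeT
    (vDP ⟨kit_of well presZ (node well) (g1 well gLn nDn pRn) e0 (triv well),
      proj_all well presZ qc hU hN hI hL, dfm, g2 well gLn nDn pRn, casT, pe, fib well,
      g3L hG, g3R hG, g3Q hG⟩)

end Vale.Agent.P269.St
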