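import Vale.Agent.P269.Kit.Glue

/-! The algebraic part of the input `G2`. -/

namespace Vale.Agent.P269.Deg

open Fock LinearMap

section tp

variable {V W : Type} [AddCommGroup V] [Module ℂ V] [AddCommGroup W] [Module ℂ W] {p : Par ℂ V}
  {q : Par ℂ W}

lemma tp_ins (T : S p →ₗ[ℂ] ℂ) (U : S q →ₗ[ℂ] ℂ) (v : V) (z : S (p.prod q)) :
    tp T U (ι _ (v, 0) * z) = tp (T ∘ₗ mulLeft ℂ (ι _ v)) U z := by
  induction z using InB.ind with
  | h x y =>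
    rw [← mul_assoc, InB.tp_ap]
    exact (congrArg (fun a => tp T U (a * _)) (by simp)).trans (InB.tp_ap T U (ι _ v * x) y)
  | hadd a b ha hb => simp only [mul_add, map_add, ha, hb]

lemma tp_smul (t : ℂ) (T : S p →ₗ[ℂ] ℂ) (U : S q →ₗ[ℂ] ℂ) (z : S (p.prod q)) :
    tp (t • T) U z = t * tp T U z := by
  induction z using InB.ind with
  | h x y => rw [InB.tp_ap, InB.tp_ap, LinearMap.smul_apply, smul_eq_mul, mul_assoc]
  | hadd a b ha hb => simp only [mul_add, map_add, ha, hb]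

end tp

variable {Γ : Type} [AddCommGroup Γ] {g : Grd Γ} {D : Dv}

lemma glue_fin {X X' : Coh} {F : Ser Γ (pR X.p D)} {G : Ser Γ (pR X'.p D)} (hF : F.RelL g)
    (hG : G.RelR g) (β : Γ) (j : ℤ) (x) : (Function.support fun q : Γ × ℤ × ℕ =>
      tp (F (β - q.1) (j - q.2.1 - q.2.2)) (G q.1 q.2.1)
        (Fock.map _ (isEv_ins D X.p X'.p) x * Gam D X.p X'.p q.2.2 (g.ξ q.1).toNat)).Finite := by
  refine ((InB.fin_R hG (g.deg β)).biUnion fun b _ =>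
    (Set.finite_Iic (g.ξ b).toNat).biUnion fun l _ => (InB.tp_fin (hF.low (β - b)) (hG.low b) (j - l)
      (Fock.map _ (isEv_ins D X.p X'.p) x * Gam D X.p X'.p l (g.ξ b).toNat)).image
        fun i => (b, i, l)).subset ?_
  rintro ⟨b, i, l⟩ h
  rw [Function.mem_support] at h
  simp only at h
  have h1 : F (β - b) ≠ 0 := fun h0 => h (InB.tp_zero (Or.inl (by rw [h0]; rfl)) _)
  have h2 : G b ≠ 0 := fun h0 => h (InB.tp_zero (Or.inr (by rw [h0]; rfl)) _)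
  have h3 := hF.pos _ h1
  rw [map_sub] at h3
  refine Set.mem_biUnion (x := b) ⟨by omega, h2⟩ (Set.mem_biUnion (x := l) ?_ ⟨i, ?_, rfl⟩)
  · by_contra hn
    exact h (by
      rw [Gam_eq _ _ (InB.isEv_rel _ _ _), Gam0_of_lt _ (by simpa using hn), map_zero, mul_zero, map_zero])
  · rwa [Function.mem_support, sub_right_comm]

variable {V V1 V2 H1 H2 : Type} [AddCommGroup V] [Module ℂ V] [AddCommGroup V1] [Module ℂ V1]
  [AddCommGroup V2] [Module ℂ V2] [AddCommGroup H1] [Module ℂ H1] [AddCommGroup H2] [Module ℂ H2]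
  {p : Par ℂ V} {p1 : Par ℂ V1} {p2 : Par ℂ V2}

lemma tp_term {q1 : Par ℂ H1} {q2 : Par ℂ H2} {l1 : H1 →ₗ[ℂ] V1} {l2 : H2 →ₗ[ℂ] V2}
    (h1 : IsEv q1 p1 l1) (h2 : IsEv q2 p2 l2) (T : S (pR p1 D) →ₗ[ℂ] ℂ) (U : S (pR p2 D) →ₗ[ℂ] ℂ)
    (u) (v : VV V1) (z) (l e : ℕ) :
    tp T U (Fock.map _ (isEv_ins D p1 p2) (ι _ ((lp l1).prodMap (lp l2) u + ((v, 0), 0)) *
      Fock.map _ (isEv_pm (isEv_lp h1) (isEv_lp h2)) z) * Gam D p1 p2 l e) =
    tp (T ∘ₗ (Fock.map _ (isEv_lr h1 (isEv_id' D.p))).toLinearMap)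
      (U ∘ₗ (Fock.map _ (isEv_lr h2 (isEv_id' D.p))).toLinearMap)
      (Fock.map _ (isEv_ins D q1 q2) (ι _ u * z) * Gam D q1 q2 l e) +
    tp ((T ∘ₗ mulLeft ℂ (ι _ ((v, 0), 0))) ∘ₗ (Fock.map _ (isEv_lr h1 (isEv_id' D.p))).toLinearMap)
      (U ∘ₗ (Fock.map _ (isEv_lr h2 (isEv_id' D.p))).toLinearMap)
      (Fock.map _ (isEv_ins D q1 q2) z * Gam D q1 q2 l e) := by
  have a := fun x => InB.map_map' (isEv_ins D q1 q2)
    (isEv_pm (isEv_lr h1 (isEv_id' D.p)) (isEv_lr h2 (isEv_id' D.p)))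
    (isEv_pm (isEv_lp h1) (isEv_lp h2)) (isEv_ins D p1 p2) (fun v => by simp) x
  rw [tp_map, tp_map, ← tp_ins, ← map_add]
  refine congrArg _ ?_
  simp only [map_mul, map_Gam h1 h2, a, map_add, add_mul, map_ι, mul_assoc]
  rfl

/-- **G2** from the commutation of the two divisors of a marked point. -/
theorem G2.of {P' : Cz D 1} {P : Pz D (-1)} (X : Sm P'.toPz P) {F0 : Ser Γ (pR P'.p D)}
    {G : Ser Γ (pR P.p D)} {t : ℂ} {l1 : P'.H →ₗ[ℂ] V1} {l2 : P.H →ₗ[ℂ] V2} {r1 : V →ₗ[ℂ] V1}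
    {r2 : V →ₗ[ℂ] V2} {ω : X.W →ₗ[ℂ] V} (h1 : IsEv P'.p p1 l1) (h2 : IsEv P.p p2 l2)
    (k1 : IsEv p p1 r1) (k2 : IsEv p p2 r2) (hω : IsEv X.pw p ω) {A A' : Ser Γ (pR p1 D)}
    {B B' : Ser Γ (pR p2 D)} {a a' : D.H → V} {n : D.H → V1} (o0 : F0.RelL g)
    (o1 : Ser.RelL (X := P'.toCoh) g
      fun β j => A β j ∘ₗ (Fock.map _ (isEv_lr h1 (isEv_id' D.p))).toLinearMap) (oG : G.RelR g)
    (e1 : ∀ w, r1 (ω w) = l1 (X.θ1 w)) (e2 : ∀ w, r2 (ω w) = l2 (X.θ2 w))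
    (ea : ∀ u, r1 (a u) = l1 (P'.gys u) + n u) (ea' : ∀ u, r2 (a' u) = l2 (P.gys u))
    (eB : ∀ β j, B β j ∘ₗ (Fock.map _ (isEv_lr h2 (isEv_id' D.p))).toLinearMap = G β j)
    (eB' : ∀ β j, B' β j ∘ₗ (Fock.map _ (isEv_lr h2 (isEv_id' D.p))).toLinearMap = 0)
    (e0 : ∀ β j m u, (A β j ∘ₗ mulLeft ℂ (ι _ ((Finsupp.single m (n u), 0), 0))) ∘ₗ
      (Fock.map _ (isEv_lr h1 (isEv_id' D.p))).toLinearMap =
        t • F0 β j ∘ₗ mulLeft ℂ (ι _ ((Finsupp.single m (P'.sec u), 0), 0)))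
    (H : ∀ β j m u x y, g.ξ β = 0 → y = (ι _ ((Finsupp.single m (a u), 0), 0) -
        ι _ (0, (Finsupp.single m (a' u), 0))) * Fock.map _ (isEv_diag (pT p))
          (Fock.map _ (isEv_inl _ (Par.triv ℂ NN)) x) →
      glue g (fun β j => A β j ∘ₗ (Fock.map _ (isEv_lr k1 (isEv_id' D.p))).toLinearMap)
        (fun β j => B β j ∘ₗ (Fock.map _ (isEv_lr k2 (isEv_id' D.p))).toLinearMap) β j y +
      glue g (fun β j => A' β j ∘ₗ (Fock.map _ (isEv_lr k1 (isEv_id' D.p))).toLinearMap)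
        (fun β j => B' β j ∘ₗ (Fock.map _ (isEv_lr k2 (isEv_id' D.p))).toLinearMap) β j y = 0) :
    G2 g X F0 (fun β j => A β j ∘ₗ (Fock.map _ (isEv_lr h1 (isEv_id' D.p))).toLinearMap) G t := by
  intro β j m u x hβ
  have e := H β j m u (Fock.map _ (isEv_vv hω) x) _ hβ rfl
  have b : ∀ x, Fock.map _ (isEv_pm (isEv_lp k1) (isEv_lp k2)) (Fock.map _ (isEv_diag (pT p))
      (Fock.map _ (isEv_inl _ (Par.triv ℂ NN)) (Fock.map _ (isEv_vv hω) x))) =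
      Fock.map _ (isEv_pm (isEv_lp h1) (isEv_lp h2)) (Fock.map _ X.isEv_θ0 x) := fun x =>
    DFunLike.congr_fun (hom_ext (f := ((Fock.map _ (isEv_pm (isEv_lp k1) (isEv_lp k2))).comp
      (Fock.map _ (isEv_diag (pT p)))).comp ((Fock.map _ (isEv_inl _ (Par.triv ℂ NN))).comp
        (Fock.map _ (isEv_vv hω)))) (g := (Fock.map _ (isEv_pm (isEv_lp h1) (isEv_lp h2))).comp
          (Fock.map _ X.isEv_θ0)) fun v => by
      simp only [AlgHom.comp_apply, map_ι]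
      exact congrArg _ (Prod.ext (Prod.ext (Finsupp.ext fun i => e1 _) rfl)
        (Prod.ext (Finsupp.ext fun i => e2 _) rfl))) x
  rw [glue_nat g k1 k2, glue_nat g k1 k2, map_mul, ← map_sub, map_ι, b,
    show (lp r1).prodMap (lp r2) (((Finsupp.single m (a u), 0), 0) - (0, (Finsupp.single m (a' u), 0)))
      = (lp l1).prodMap (lp l2) ((Finsupp.single m (P'.gys u), 0), (Finsupp.single m (-P.gys u), 0)) +
        ((Finsupp.single m (n u), 0), 0) by simp [ea, ea', ← Finsupp.single_neg]] at e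
  simp only [glue, tp_term h1 h2, eB, eB', e0, tp_smul, InB.tp_zero (.inr rfl), add_zero,
    finsum_zero] at e
  rw [← e, glue, glue, ← smul_eq_mul t, smul_finsum]
  refine (finsum_add_distrib (glue_fin o1 oG _ _ _)
    ((glue_fin o0 oG β j _).subset (Function.support_const_smul_subset t _))).symm.trans
    (finsum_congr fun q => congrArg _ (congrArg (t * ·) ?_))
  rw [← tp_ins, ← mul_assoc, map_mul, map_ι]
  rfl

end Vale.Agent.P269.Deg
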