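import Vale.Agent.P269.Asm.Quad

/-!
# The cones of the four degenerations
-/

set_option linter.unusedSectionVars false

namespace Vale.Agent.P269.Pre

open P291Z Set Function Topology Filter MvPolynomial

variable {S Λ₀ R J K : Type} [Fintype S] [Fintype Λ₀] [Fintype R] [Fintype J] [Fintype K]
  [DecidableEq R] {P : Pre R J K}

/-- The conditions on the fields `x` (old fields) and `q = (b, c, y, y')`. -/
structure Pt (P : Pre R J K) (e e' : Bool) (x : J → ℂ) (q : Fin 4 → ℂ) : Prop where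
  mem : x ∈ P.cone
  z : cond e (q 2 * x P.z = q 0 * q 3) (x P.z = 0)
  z' : cond e' (q 3 * x P.z' = q 1 * q 2) (x P.z' = 0)
  y : q 2 ≠ 0 ∨ e = false ∧ q 0 ≠ 0
  y' : q 3 ≠ 0 ∨ e' = false ∧ q 1 ≠ 0
  yy : q 2 ≠ 0 ∨ q 3 ≠ 0

theorem eval_old {J' : Type} (l : Λ₀ → ℂ) (y : J ⊕ J' → ℂ) (f : MvPolynomial J ℂ) :
    eval y (MvPolynomial.map (eval l) (MvPolynomial.map C (rename .inl f))) = eval (y ∘ .inl) f := by
  have : (MvPolynomial.eval l).comp (C : ℂ →+* MvPolynomial Λ₀ ℂ) = RingHom.id ℂ :=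
    RingHom.ext fun _ => eval_C _
  rw [MvPolynomial.map_map, this, MvPolynomial.map_id, eval_rename]

theorem quad_mem {ws : S → ℤ} {wl : Λ₀ → S → ℤ} {B₀ Ω e e'} {B : Set (Option Λ₀ → ℂ)}
    {Z : Set (J ⊕ Fin 4)} {p : (Option Λ₀ → ℂ) × (J ⊕ Fin 4 → ℂ)} :
    p ∈ ((P.quad ws wl B₀ Ω e e').sub B Z).cone ↔ p.1 ∈ B ∧ P.Pt e e' (p.2 ∘ .inl) (p.2 ∘ .inr) ∧
      p.2 (.inr 0) * p.2 (.inr 1) = p.1 none ∧ ∀ j ∈ Z, p.2 j = 0 := by
  have a : (∀ k, eval p.2 ((((P.quad ws wl B₀ Ω e e').sub B Z).fib p.1).F k) = 0) ↔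
      (∀ k, eval (p.2 ∘ .inl) (P.F k) = 0) ∧
      cond e (p.2 (.inr 2) * p.2 (.inl P.z) = p.2 (.inr 0) * p.2 (.inr 3)) (p.2 (.inl P.z) = 0) ∧
      cond e' (p.2 (.inr 3) * p.2 (.inl P.z') = p.2 (.inr 1) * p.2 (.inr 2))
        (p.2 (.inl P.z') = 0) := by
    refine Sum.forall.trans (and_congr (forall_congr' fun k => by
      rw [← eval_old p.1]; rfl) (Bool.forall_bool.trans (and_congr ?_ ?_)))
    · cases e <;> simp [Fam.fib, sub_eq_zero]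
    · cases e' <;> simp [Fam.fib, sub_eq_zero]
  exact ⟨fun h => have b := a.1 h.2.2
      ⟨h.1, ⟨⟨h.2.1.1.1, b.1⟩, b.2.1, b.2.2, h.2.1.1.2.1, h.2.1.1.2.2.1, h.2.1.1.2.2.2⟩, h.2.1.2⟩,
    fun h => ⟨h.1, ⟨⟨h.2.1.mem.1, h.2.1.y, h.2.1.y', h.2.1.yy⟩, h.2.2⟩,
      a.2 ⟨h.2.1.mem.2, h.2.1.z, h.2.1.z'⟩⟩⟩

theorem grZ_mem {F : Fam S Λ₀ R J K} {θ : R → ℤ} {N : ℕ} {κ : GI F.w θ N → MvPolynomial Λ₀ ℂ}
    {B : Set (Λ₀ → ℂ)} {Z : Set (J ⊕ GI F.w θ N)} {p : (Λ₀ → ℂ) × (J ⊕ GI F.w θ N → ℂ)} :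
    p ∈ ((F.gr θ N κ).sub B Z).cone ↔ (p.1, p.2 ∘ .inl) ∈ (F.sub B ∅).cone ∧
      (∀ j ∈ Z, p.2 j = 0) ∧
      ∀ q, p.2 (.inr q) = eval p.1 (κ q) * ∏ j, p.2 (.inl j) ^ q.α j := by
  have a : (∀ k, eval p.2 ((((F.gr θ N κ).sub B Z).fib p.1).F k) = 0) ↔
      (∀ k, eval (p.2 ∘ .inl) (((F.sub B ∅).fib p.1).F k) = 0) ∧
      ∀ q, p.2 (.inr q) = eval p.1 (κ q) * ∏ j, p.2 (.inl j) ^ q.α j := by
    refine Sum.forall.trans (and_congr (forall_congr' fun k => ?_) (forall_congr' fun q => ?_))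
    · simp only [Fam.fib, Sum.elim_inl, map_rename, eval_rename]
    · simp only [Fam.fib, Sum.elim_inr, map_sub, map_X, eval_X, map_monomial, eval_monomial,
        sub_eq_zero]
      rw [Finsupp.prod_mapDomain_index_inj Sum.inl_injective,
        Finsupp.prod_fintype _ _ fun _ => pow_zero _]
  exact ⟨fun h => have b := a.1 h.2.2
      ⟨⟨h.1, ⟨h.2.1.1, h.2.1.2.1, fun _ c => c.elim⟩, b.1⟩, h.2.1.2.2, b.2⟩,
    fun h => ⟨h.1.1, ⟨h.1.2.1.1, h.1.2.1.2.1, h.2.1⟩, a.2 ⟨h.1.2.2, h.2.2⟩⟩⟩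

theorem fam_mem {e e'} {B : Set (Option Empty → ℂ)} {Z : Set P.QJ}
    {p : (Option Empty → ℂ) × (P.QJ → ℂ)} :
    p ∈ ((P.fam e e').sub B Z).cone ↔ p.1 ∈ B ∧ P.Pt e e' (p.2 ∘ P.o) (fun i => p.2 (.inl (.inr i))) ∧
      p.2 P.b * p.2 P.c = p.1 none ∧ (∀ j ∈ Z, p.2 j = 0) ∧
      ∀ q, p.2 (.inr q) = ∏ j, p.2 (.inl j) ^ q.α j := by
  refine (grZ_mem (F := P.quad Empty.elim Empty.elim univ P.Ω e e')).trans ?_
  simp only [quad_mem, Pi.one_apply, map_one, one_mul, and_assoc, mem_empty_iff_false, false_imp_iff,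
    implies_true, true_and]
  rfl

theorem bor_mem {B : Set (Option (Fin 2) → ℂ)} {Z : Set P.QJ}
    {p : (Option (Fin 2) → ℂ) × (P.QJ → ℂ)} :
    p ∈ (P.bor.sub B Z).cone ↔ p.1 ∈ B ∧ P.Pt false false (p.2 ∘ P.o) (fun i => p.2 (.inl (.inr i))) ∧
      p.2 P.b * p.2 P.c = p.1 none ∧ (∀ j ∈ Z, p.2 j = 0) ∧
      ∀ q, p.2 (.inr q) = p.1 (some q.2) ^ q.α (.inr 1) * ∏ j, p.2 (.inl j) ^ q.α j := by
  refine (grZ_mem (F := P.quad 1 (-1) {0}ᶜ univ false false)).trans ?_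
  simp only [quad_mem, map_pow, eval_X, and_assoc, mem_empty_iff_false, false_imp_iff,
    implies_true, true_and]
  rfl

theorem Pt.left {e₁ e' : Bool} {x : J → ℂ} {q : Fin 4 → ℂ} (h : P.Pt e₁ e' x q) (h0 : q 0 = 0)
    (e₂ : Bool) : P.Pt e₂ e' x q := by
  have a : q 2 ≠ 0 := h.y.resolve_right fun b => b.2 h0
  have b : x P.z = 0 := by
    have c := h.z
    cases e₁
    · exact c
    · exact (mul_eq_zero.1 (c.trans (by rw [h0, zero_mul]))).resolve_left a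
  refine ⟨h.mem, ?_, h.z', .inl a, h.y', h.yy⟩
  cases e₂
  · exact b
  · exact show q 2 * x P.z = q 0 * q 3 by rw [b, h0, mul_zero, zero_mul]

theorem Pt.right {e e₁ : Bool} {x : J → ℂ} {q : Fin 4 → ℂ} (h : P.Pt e e₁ x q) (h0 : q 1 = 0)
    (e₂ : Bool) : P.Pt e e₂ x q := by
  have a : q 3 ≠ 0 := h.y'.resolve_right fun b => b.2 h0
  have b : x P.z' = 0 := by
    have c := h.z'
    cases e₁
    · exact c
    · exact (mul_eq_zero.1 (c.trans (by rw [h0, zero_mul]))).resolve_left a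
  refine ⟨h.mem, h.z, ?_, h.y, .inl a, h.yy⟩
  cases e₂
  · exact b
  · exact show q 3 * x P.z' = q 1 * q 2 by rw [b, h0, mul_zero, zero_mul]

theorem cone_pL (e₁ e₂ e' : Bool) : (P.pL e₁ e').cone = (P.pL e₂ e').cone :=
  have k : ∀ e₁ e₂, (P.pL e₁ e').cone ⊆ (P.pL e₂ e').cone := fun _ _ _ h =>
    have a := fam_mem.1 h
    fam_mem.2 ⟨a.1, a.2.1.left (a.2.2.2.1 _ rfl) _, a.2.2⟩
  (k _ _).antisymm (k _ _)

theorem cone_pR (e e₁ e₂ : Bool) : (P.pR e e₁).cone = (P.pR e e₂).cone :=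
  have k : ∀ e₁ e₂, (P.pR e e₁).cone ⊆ (P.pR e e₂).cone := fun _ _ _ h =>
    have a := fam_mem.1 h
    fam_mem.2 ⟨a.1, a.2.1.right (a.2.2.2.1 _ rfl) _, a.2.2⟩
  (k _ _).antisymm (k _ _)

theorem cone_pD (e₁ e₁' e₂ e₂' : Bool) : (P.pD e₁ e₁').cone = (P.pD e₂ e₂').cone :=
  have k : ∀ e₁ e₁' e₂ e₂', (P.pD e₁ e₁').cone ⊆ (P.pD e₂ e₂').cone := fun _ _ _ _ _ h =>
    have a := fam_mem.1 h
    fam_mem.2 ⟨a.1, (a.2.1.left (a.2.2.2.1 _ (.inl rfl)) _).right (a.2.2.2.1 _ (.inr rfl)) _, a.2.2⟩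
  (k _ _ _ _).antisymm (k _ _ _ _)

theorem dvs_pL [DecidableEq P.QJ] (e e' : Bool) :
    (P.pL e e').dvs (Pi.single P.c 1) = (P.pD e e').cone :=
  Set.ext fun _ => ⟨fun h => have a := fam_mem.1 h.1
      fam_mem.2 ⟨a.1, a.2.1, a.2.2.1, fun j c => c.elim (a.2.2.2.1 j) fun d => h.2 j (by
        rw [show j = P.c from d, Pi.single_eq_same]; exact one_ne_zero), a.2.2.2.2⟩,
    fun h => have a := fam_mem.1 h
      ⟨fam_mem.2 ⟨a.1, a.2.1, a.2.2.1, fun j c => a.2.2.2.1 j (.inl c), a.2.2.2.2⟩, fun j c =>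
        a.2.2.2.1 j (.inr (by_contra fun d => c (Pi.single_eq_of_ne d _)))⟩⟩

theorem dvs_pR [DecidableEq P.QJ] (e e' : Bool) :
    (P.pR e e').dvs (Pi.single P.b 1) = (P.pD e e').cone :=
  Set.ext fun _ => ⟨fun h => have a := fam_mem.1 h.1
      fam_mem.2 ⟨a.1, a.2.1, a.2.2.1, fun j c => c.elim (fun d => h.2 j (by
        rw [show j = P.b from d, Pi.single_eq_same]; exact one_ne_zero)) (a.2.2.2.1 j), a.2.2.2.2⟩,
    fun h => have a := fam_mem.1 h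
      ⟨fam_mem.2 ⟨a.1, a.2.1, a.2.2.1, fun j c => a.2.2.2.1 j (.inr c), a.2.2.2.2⟩, fun j c =>
        a.2.2.2.1 j (.inl (by_contra fun d => c (Pi.single_eq_of_ne d _)))⟩⟩

theorem three_deg (d : R ⊕ Bool → ℤ) : 3 * P.g.deg d = ∑ r, (3 • P.θ₀) r * d r := by
  rw [show P.g.deg d = ∑ r, P.θ₀ r * d r from rfl, Finset.mul_sum]
  exact Finset.sum_congr rfl fun r _ => by simp [mul_assoc]

theorem grd (e e' : Bool) (B Z) : ((P.fam e e').sub B Z).Grd P.g := three_deg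

theorem bor_grd (B Z) : (P.bor.sub B Z).Grd P.g := three_deg

/-- the character of the torus of `P` defined by an element of the larger torus -/
noncomputable def dn (P : Pre R J K) (t : R ⊕ Bool → ℂ) (r : R) : ℂ :=
  t (.inl r) * if r = P.η then t (.inr false) else 1

theorem prod_up (t : R ⊕ Bool → ℂ) (ht : IsUnit t) (c : R → ℤ) :
    ∏ i, t i ^ P.up c i = ∏ r, P.dn t r ^ c r := by
  have _ := ht
  have a : ∏ r, (if r = P.η then t (.inr false) else 1) ^ c r = t (.inr false) ^ c P.η := by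
    rw [Finset.prod_eq_single P.η (fun r _ h => by rw [if_neg h, one_zpow]) (by simp), if_pos rfl]
  simp only [dn, mul_zpow, Finset.prod_mul_distrib, a]
  simp [Fintype.prod_sum_type, up]

end Vale.Agent.P269.Pre
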