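import Vale.Agent.P269.Asm.Gr
import Vale.Agent.P269.Asm.QMem
import Vale.Agent.P269.Asm.PresT

/-!
# The members and the pieces of the four degenerations as larger presentations
-/

set_option linter.unusedSectionVars false

namespace Vale.Agent.P269.Pre

open P291Z Set Function Topology Filter MvPolynomial

variable {R J K J₀ : Type} [Fintype R] [Fintype J] [Fintype K] [Fintype J₀] [DecidableEq R]
  (P : Pre R J K)

/-- Extension of a polynomial map to the graph fields. -/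
noncomputable def ext (σ : J → MvPolynomial J₀ (MvPolynomial (Option Empty) ℂ))
    (q : Fin 4 → MvPolynomial J₀ (MvPolynomial (Option Empty) ℂ)) :
    P.QJ → MvPolynomial J₀ (MvPolynomial (Option Empty) ℂ) :=
  Sum.elim (Sum.elim σ q) fun p => C 1 * ∏ j, Sum.elim σ q j ^ p.α j

/-- The lattice map with the components `x` along `ξ` and `u` along `ζ` (before the shear). -/
def mx {R₀ : Type} (M : R → R₀ → ℤ) (x u : R₀ → ℤ) : R ⊕ Bool → R₀ → ℤ :=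
  Sum.elim (fun r => if r = P.η then M r - x else M r) fun o => cond o (u + P.β • x) x

/-- The identity matrix. -/
def id1 (r r' : R) : ℤ := if r = r' then 1 else 0

/-- The identity matrix, extended by zero. -/
def id2 (r : R) (o : Option R) : ℤ := if o = some r then 1 else 0

/-- The bundle `P(O ⊕ O(η))` over the divisor. -/
noncomputable abbrev cap (θ : Option R → ℤ) : Fam Empty Empty (Option R) (J ⊕ Fin 2) K :=
  (P.lev P.dvs).proj ![0, Pi.single P.η 1] θ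

section lattice

variable {R₀ : Type} [Fintype R₀]

/-- A degree vector in unsheared coordinates. -/
def shr (D : R → ℤ) (x u : ℤ) : R ⊕ Bool → ℤ :=
  Sum.elim (fun r => if r = P.η then D r - x else D r) fun o => cond o (u + P.β * x) x

theorem mx_eq (M : R → R₀ → ℤ) (x u : R₀ → ℤ) (r' : R ⊕ Bool) (r : R₀) :
    P.mx M x u r' r = P.shr (fun r' => M r' r) (x r) (u r) r' := by
  rcases r' with r' | _ | _
  · simp only [mx, shr, Sum.elim_inl]
    split_ifs <;> rfl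
  · rfl
  · simp [mx, shr]

theorem sum_mx (M : R → R₀ → ℤ) (x u d : R₀ → ℤ) (r' : R ⊕ Bool) :
    ∑ r, P.mx M x u r' r * d r =
      P.shr (fun r' => ∑ r, M r' r * d r) (∑ r, x r * d r) (∑ r, u r * d r) r' := by
  rcases r' with r' | _ | _
  · simp only [mx, shr, Sum.elim_inl]
    split_ifs
    · simp only [Pi.sub_apply, sub_mul, Finset.sum_sub_distrib]
    · rfl
  · rfl
  · simp [mx, shr, add_mul, Finset.sum_add_distrib, Finset.mul_sum, mul_assoc]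

theorem up_shr (c D : R → ℤ) (x u : ℤ) :
    ∑ r', P.up c r' * P.shr D x u r' = ∑ r, c r * D r := by
  have a : ∀ r, c r * (if r = P.η then D r - x else D r) =
      c r * D r - if r = P.η then c r * x else 0 := fun r => by split_ifs <;> ring
  simp [Fintype.sum_sum_type, up, shr, a]

theorem qw_shr (D : R → ℤ) (x u : ℤ) (i : Fin 4) :
    ∑ r', P.qw (.inr i) r' * P.shr D x u r' = ![x, -x, u, D P.η - x + u] i := by
  have a : ∀ r, (Pi.single P.η 1 : R → ℤ) r * (if r = P.η then D r - x else D r) =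
      if r = P.η then D r - x else 0 := fun r => by
    rw [Pi.single_apply]
    split_ifs <;> simp
  fin_cases i <;> simp [qw, shr, Fintype.sum_sum_type, a]

theorem exists_shr (d : R ⊕ Bool → ℤ) : ∃ D x u, d = P.shr D x u :=
  ⟨fun r => if r = P.η then d (.inl r) + d (.inr false) else d (.inl r), d (.inr false),
    d (.inr true) - P.β * d (.inr false), funext fun r => by
      rcases r with r | _ | _
      · simp only [shr, Sum.elim_inl]
        split_ifs <;> simp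
      · rfl
      · simp [shr]⟩

theorem shr_eq_zero {D : R → ℤ} {x u : ℤ} (e : ∀ r, P.shr D x u r = 0) :
    (∀ r, D r = 0) ∧ x = 0 ∧ u = 0 := by
  obtain rfl : x = 0 := e (.inr false)
  exact ⟨fun r => by simpa [shr] using e (.inl r), rfl, by simpa [shr] using e (.inr true)⟩

theorem sum_of_wh {A : Type} [CommSemiring A] {w : J₀ → R₀ → ℤ} {p : MvPolynomial J₀ A}
    {m : R₀ → ℤ} (h : IsWeightedHomogeneous w p m) :
    ∀ α ∈ p.support, ∀ r, ∑ j, α j * w j r = m r := fun α hα r => by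
  rw [← h (mem_support_iff.1 hα), Finsupp.weight_apply,
    Finsupp.sum_fintype _ _ (by simp), Finset.sum_apply]
  simp

theorem wh_C {A : Type} [CommSemiring A] {w : J₀ → R₀ → ℤ} {m : R₀ → ℤ} (a : A) (e : m = 0) :
    IsWeightedHomogeneous w (C a) m := e ▸ isWeightedHomogeneous_C w a

theorem wh_one {A : Type} [CommSemiring A] {w : J₀ → R₀ → ℤ} {m : R₀ → ℤ} (e : m = 0) :
    IsWeightedHomogeneous w (1 : MvPolynomial J₀ A) m := e ▸ isWeightedHomogeneous_one A w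

theorem sum_zero {d : R₀ → ℤ} : ∑ r, (0 : R₀ → ℤ) r * d r = 0 := by simp

theorem wh_X {A : Type} [CommSemiring A] {w : J₀ → R₀ → ℤ} {m : R₀ → ℤ} {j : J₀} (e : w j = m) :
    IsWeightedHomogeneous w (X j : MvPolynomial J₀ A) m := e ▸ isWeightedHomogeneous_X A w j

end lattice

section torus

/-- The scalars by which the torus acts on the new fields. -/
noncomputable def scq (a ξ ζ : ℂ) : Fin 4 → ℂ := ![ξ, ξ⁻¹, ζ, a * ξ⁻¹ * ζ]

theorem prod_zpow_single {ι : Type} [Fintype ι] [DecidableEq ι] (τ : ι → ℂ) (i : ι) (n : ℤ) :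
    ∏ r, τ r ^ (Pi.single i n : ι → ℤ) r = τ i ^ n := by
  rw [Finset.prod_eq_single i (fun _ _ h => by simp [h]) (by simp), Pi.single_eq_same]

theorem prod_qw {τ : R ⊕ Bool → ℂ} (hτ : τ (.inr false) ≠ 0) (i : Fin 4) :
    ∏ r, τ r ^ P.qw (.inr i) r = scq (P.dn τ P.η) (τ (.inr false))
      (τ (.inr true) * τ (.inr false) ^ (-P.β : ℤ)) i := by
  fin_cases i
  · exact (prod_zpow_single τ _ 1).trans (zpow_one _)
  · refine Eq.trans ?_ ((prod_zpow_single τ _ (-1)).trans (zpow_neg_one _))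
    rw [Pi.single_neg]
    rfl
  · simp [qw, scq, Fintype.prod_sum_type]
  · simp [qw, scq, Fintype.prod_sum_type, prod_zpow_single, dn, hτ]

theorem actT_qW {τ : R ⊕ Bool → ℂ} (hτ : IsUnit τ)
    (z : (Option Empty → ℂ) × (J ⊕ Fin 4 → ℂ)) :
    (P.qW Empty.elim Empty.elim).actT (1, τ) z = (z.1, Sum.elim (P.act (P.dn τ) (z.2 ∘ .inl))
      fun i => scq (P.dn τ P.η) (τ (.inr false)) (τ (.inr true) * τ (.inr false) ^ (-P.β : ℤ)) i *
        z.2 (.inr i)) := by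
  refine Prod.ext (Wt.actL_one _ _) (funext fun j => ?_)
  simp only [Wt.actT, Finset.univ_eq_empty, Finset.prod_empty, one_mul]
  rcases j with j | i
  · exact congrArg (· * _) (prod_up τ hτ _)
  · exact congrArg (· * _) (P.prod_qw (isUnit_pi_iff.1 hτ _) i)

theorem exists_act {τ : R ⊕ Bool → ℂ} (hτ : IsUnit τ) : ∃ (a : R → ℂ) (ξ ζ : ℂ), IsUnit a ∧ ξ ≠ 0 ∧
    ζ ≠ 0 ∧ ∀ z, (P.qW Empty.elim Empty.elim).actT (1, τ) z =
      (z.1, Sum.elim (P.act a (z.2 ∘ .inl)) fun i => scq (a P.η) ξ ζ i * z.2 (.inr i)) :=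
  have a := isUnit_pi_iff.1 hτ
  ⟨_, _, _, isUnit_pi_iff.2 fun r => mul_ne_zero (a _) (by split_ifs; exacts [a _, one_ne_zero]),
    a _, mul_ne_zero (a _) (zpow_ne_zero _ (a _)), P.actT_qW hτ⟩

theorem exists_tau {ξ ζ : ℂ} (hξ : ξ ≠ 0) (hζ : ζ ≠ 0) : ∃ τ, IsUnit τ ∧
    ∀ z, (P.qW Empty.elim Empty.elim).actT (1, τ) z =
      (z.1, Sum.elim (z.2 ∘ .inl) fun i => scq 1 ξ ζ i * z.2 (.inr i)) := by
  let τ : R ⊕ Bool → ℂ :=
    Sum.elim (fun r => if r = P.η then ξ⁻¹ else 1) fun o => cond o (ζ * ξ ^ (P.β : ℤ)) ξ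
  have a : IsUnit τ := isUnit_pi_iff.2 fun r => by
    rcases r with r | _ | _
    · show (if r = P.η then ξ⁻¹ else 1) ≠ 0
      split_ifs
      exacts [inv_ne_zero hξ, one_ne_zero]
    · exact hξ
    · exact mul_ne_zero hζ (zpow_ne_zero _ hξ)
  have b : P.dn τ = 1 := funext fun r => by
    show (if r = P.η then ξ⁻¹ else 1) * (if r = P.η then ξ else 1) = 1
    split_ifs
    exacts [inv_mul_cancel₀ hξ, one_mul _]
  have c : τ (.inr true) * τ (.inr false) ^ (-P.β : ℤ) = ζ := by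
    show ζ * ξ ^ (P.β : ℤ) * ξ ^ (-P.β : ℤ) = ζ
    rw [zpow_neg, mul_inv_cancel_right₀ (zpow_ne_zero _ hξ)]
  refine ⟨τ, a, fun z => ?_⟩
  rw [P.actT_qW a, b, c, show P.act 1 (z.2 ∘ .inl) = z.2 ∘ .inl from
    funext fun j => by simp [Tgt.act]]
  rfl

/-- The conditions that define the pieces. -/
structure Cn (e e' : Bool) (t : ℂ) (Z : Set (Fin 4)) (x : J → ℂ) (q : Fin 4 → ℂ) : Prop where
  pt : P.Pt e e' x q
  bc : q 0 * q 1 = t
  zer : ∀ i ∈ Z, q i = 0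

variable {P}

theorem Ok.cone_act (h : P.Ok) {a : R → ℂ} (ha : IsUnit a) {x : J → ℂ} (hx : x ∈ P.cone) :
    P.act a x ∈ P.cone := by
  refine ⟨h.invU a ha x hx.1, fun k => ?_⟩
  have e : eval (P.act a x) (P.F k) = (∏ i, a i ^ P.χ k i) * eval x (P.F k) := by
    simp only [eval_eq', Finset.mul_sum]
    refine Finset.sum_congr rfl fun α hα => ?_
    simp only [Tgt.act, mul_pow, Finset.prod_mul_distrib, prod_pow_zpow (isUnit_pi_iff.1 ha),
      h.hom k α hα]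
    ring
  rw [e, hx.2, mul_zero]

theorem Cn.act (h : P.Ok) {e e' : Bool} {t : ℂ} {Z : Set (Fin 4)} {x : J → ℂ} {q : Fin 4 → ℂ}
    (c : P.Cn e e' t Z x q) {a : R → ℂ} {ξ ζ : ℂ} (ha : IsUnit a) (hξ : ξ ≠ 0) (hζ : ζ ≠ 0) :
    P.Cn e e' t Z (P.act a x) fun i => scq (a P.η) ξ ζ i * q i := by
  have h0 := isUnit_pi_iff.1 ha P.η
  have h1 : P.act a x P.z = a P.η * x P.z := by rw [Tgt.act, h.wz, prod_zpow_single, zpow_one]
  have h2 : P.act a x P.z' = (a P.η)⁻¹ * x P.z' := by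
    rw [Tgt.act, h.wz', ← Pi.single_neg, prod_zpow_single, zpow_neg_one]
  have h3 := mul_inv_cancel₀ hξ
  have h4 := mul_inv_cancel₀ h0
  have h5 : a P.η * ξ⁻¹ * ζ ≠ 0 := mul_ne_zero (mul_ne_zero h0 (inv_ne_zero hξ)) hζ
  refine ⟨⟨h.cone_act ha c.pt.mem, ?_, ?_,
    c.pt.y.imp (mul_ne_zero hζ) (And.imp_right (mul_ne_zero hξ)),
    c.pt.y'.imp (mul_ne_zero h5) (And.imp_right (mul_ne_zero (inv_ne_zero hξ))),
    c.pt.yy.imp (mul_ne_zero hζ) (mul_ne_zero h5)⟩, ?_,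
    fun i hi => by rw [c.zer i hi, mul_zero]⟩
  · have b := c.pt.z
    rw [h1]
    cases e
    · exact mul_eq_zero_of_right _ b
    · have b' : q 2 * x P.z = q 0 * q 3 := b
      show ζ * q 2 * _ = ξ * q 0 * (a P.η * ξ⁻¹ * ζ * q 3)
      linear_combination (ζ * a P.η) * b' - (q 0 * a P.η * ζ * q 3) * h3
  · have b := c.pt.z'
    rw [h2]
    cases e'
    · exact mul_eq_zero_of_right _ b
    · have b' : q 3 * x P.z' = q 1 * q 2 := b
      show a P.η * ξ⁻¹ * ζ * q 3 * _ = ξ⁻¹ * q 1 * (ζ * q 2)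
      linear_combination (ξ⁻¹ * ζ) * b' + (ξ⁻¹ * ζ * q 3 * x P.z') * h4
  · show ξ * q 0 * (ξ⁻¹ * q 1) = t
    linear_combination c.bc + (q 0 * q 1) * h3

end torus

section core

variable {R₀ K₀ I : Type} [Fintype R₀] [Fintype K₀] [Fintype I]

/-- The degeneration without graph fields. -/
noncomputable abbrev qd (e e' : Bool) :
    Fam Empty (Option Empty) (R ⊕ Bool) (J ⊕ Fin 4) (K ⊕ Bool) :=
  P.quad Empty.elim Empty.elim univ P.Ω e e'

/-- The scalar conditions for a presentation. -/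
structure Co (e e' : Bool) (t : ℂ) (Z : Set (Fin 4)) (T : Fam Empty Empty R₀ J₀ K₀) (φ₀ : J → J₀)
    (q : Fin 4 → MvPolynomial J₀ (MvPolynomial (Option Empty) ℂ)) (s : I → Fin 4) (M : R → R₀ → ℤ)
    (x u : R₀ → ℤ) : Prop where
  pl : T.Pl
  σ_s : ∀ i, q (s i) = 1
  w : ∀ j r, T.w (φ₀ j) r = ∑ r', P.w j r' * M r' r
  wb : IsWeightedHomogeneous T.w (q 0) x
  wc : IsWeightedHomogeneous T.w (q 1) (-x)
  wy : IsWeightedHomogeneous T.w (q 2) u
  wy' : IsWeightedHomogeneous T.w (q 3) (M P.η - x + u)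
  inj : ∀ d : R₀ → ℤ, (∀ r', ∑ r, M r' r * d r = 0) → ∑ r, x r * d r = 0 → ∑ r, u r * d r = 0 →
    d = 0
  ker : ∀ (D : R → ℤ) (ξ υ : ℤ), (∀ i, ![ξ, -ξ, υ, D P.η - ξ + υ] (s i) = 0) →
    ∃ d : R₀ → ℤ, (∀ r', ∑ r, M r' r * d r = D r') ∧ ∑ r, x r * d r = ξ ∧ ∑ r, u r * d r = υ
  onto : ∀ n : I → ℤ, ∃ D ξ υ : ℤ, ∀ i, ![ξ, -ξ, υ, D - ξ + υ] (s i) = n i
  cone : ∃ (V : Set (J₀ → ℂ)) (Q : (J₀ → ℂ) → Fin 4 → ℂ), (∀ z, z ∈ T.cone ↔ z.2 ∈ V) ∧
    (∀ v i, evz (lt t, v) (q i) = Q v i) ∧ (∀ v ∈ V, P.Cn e e' t Z (v ∘ φ₀) (Q v)) ∧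
    ∀ x q, P.Cn e e' t Z x q → ∃ ξ ζ, ∃ v ∈ V, ξ ≠ 0 ∧ ζ ≠ 0 ∧ v ∘ φ₀ = x ∧ q 0 = ξ * Q v 0 ∧
      q 1 = ξ⁻¹ * Q v 1 ∧ q 2 = ζ * Q v 2 ∧ q 3 = ξ⁻¹ * ζ * Q v 3

variable {P} {e e' : Bool} {t : ℂ} {Z : Set (Fin 4)} {T : Fam Empty Empty R₀ J₀ K₀} {φ₀ : J → J₀}
  {q : Fin 4 → MvPolynomial J₀ (MvPolynomial (Option Empty) ℂ)} {s : I → Fin 4} {M : R → R₀ → ℤ}
  {x u : R₀ → ℤ}

theorem qd_mem {p : (Option Empty → ℂ) × (J ⊕ Fin 4 → ℂ)} :
    p ∈ ((P.qd e e').sub (slab univ t) (.inr '' Z)).cone ↔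
      p.1 = lt t ∧ P.Cn e e' t Z (p.2 ∘ .inl) (p.2 ∘ .inr) := by
  rw [quad_mem, slab_eq]
  exact and_congr_right fun a => ⟨fun b => ⟨b.1, b.2.1.trans (congrFun a none),
    forall_mem_image.1 b.2.2⟩, fun b => ⟨b.pt, b.bc.trans (congrFun a none).symm,
    forall_mem_image.2 b.zer⟩⟩

theorem evσ_elim (z : (Option Empty → ℂ) × (J₀ → ℂ)) :
    evσ (Sum.elim (X ∘ φ₀) q) z = (z.1, Sum.elim (z.2 ∘ φ₀) fun i => evz z (q i)) :=
  Prod.ext rfl (funext (Sum.rec (fun j => by simp [evσ, evz]) fun _ => rfl))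

theorem Co.cone_iff (h : P.Ok) (c : P.Co e e' t Z T φ₀ q s M x u) (z') :
    z' ∈ ((P.qd e e').sub (slab univ t) (.inr '' Z)).cone ↔ ∃ τ, IsUnit τ ∧
      ∃ z ∈ (T.par (lt t)).cone, z' = (P.qW Empty.elim Empty.elim).actT (1, τ)
        (evσ (Sum.elim (X ∘ φ₀) q) z) := by
  obtain ⟨V, Q, h1, h2, h3, h4⟩ := c.cone
  rw [qd_mem]
  constructor
  · rintro ⟨a, b⟩
    obtain ⟨ξ, ζ, v, k1, k2, k3, k4, k5, k6, k7, k8⟩ := h4 _ _ b
    obtain ⟨τ, k9, k10⟩ := P.exists_tau k2 k3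
    refine ⟨τ, k9, (lt t, v), c.pl.mem_par.2 ⟨rfl, (h1 _).2 k1⟩, ?_⟩
    rw [k10, evσ_elim]
    refine Prod.ext a (funext (Sum.rec (fun j => (congrFun k4 j).symm) fun i => ?_))
    show (z'.2 ∘ .inr) i = scq 1 ξ ζ i * evz (lt t, v) (q i)
    rw [h2]
    fin_cases i
    exacts [k5, k6, k7, k8.trans (congrArg (· * ζ * _) (one_mul _).symm)]
  · rintro ⟨τ, k1, ⟨l, v⟩, k2, rfl⟩
    obtain ⟨rfl : l = _, k3⟩ := c.pl.mem_par.1 k2
    obtain ⟨a, ξ, ζ, k4, k5, k6, k7⟩ := P.exists_act k1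
    rw [k7, evσ_elim]
    refine ⟨rfl, ?_⟩
    have := (h3 v ((h1 _).1 k3)).act h k4 k5 k6
    simp only [← h2] at this
    exact this

theorem Co.hom (c : P.Co e e' t Z T φ₀ q s M x u) (j' : J ⊕ Fin 4) :
    ∀ α ∈ (Sum.elim (X ∘ φ₀) q j').support, ∀ r,
      ∑ j, α j * T.w j r = ∑ r', P.qw j' r' * P.mx M x u r' r := fun α hα r => by
  simp only [mx_eq]
  rcases j' with j | i
  · exact (sum_of_wh (wh_X rfl) α hα r).trans ((c.w j r).trans (P.up_shr _ _ _ _).symm)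
  · rw [qw_shr]
    fin_cases i
    exacts [sum_of_wh c.wb α hα r, sum_of_wh c.wc α hα r, sum_of_wh c.wy α hα r,
      sum_of_wh c.wy' α hα r]

/-- **Reduction to scalar conditions.** -/
theorem Co.pres (h : P.Ok) (c : P.Co e e' t Z T φ₀ q s M x u) {φ : J₀ → J ⊕ Fin 4}
    (σ_φ : ∀ j, Sum.elim (X ∘ φ₀) q (φ j) = X j) {m : Set (J ⊕ Fin 4)} {E}
    (hc : ({ (P.qd e e').sub (slab univ t) (.inr '' Z) with mov := m, E := E } :
      Fam _ _ _ _ _).cone = ((P.qd e e').sub (slab univ t) (.inr '' Z)).cone)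
    (mov : ∀ j, φ j ∈ m) (zer : ∀ j, φ j ∉ Sum.inr '' Z)
    (drop : ∀ j ∉ m, j ∈ Sum.inr '' Z ∨ ∃ a, Sum.elim (X ∘ φ₀) q j = C a ∧ eval (lt t) a ≠ 0)
    (E' : ∀ y, (∀ j ∈ Sum.inr '' Z, y j = 0) → (∀ i, .inr (s i) ∉ m → y (.inr (s i)) ≠ 0) →
      ((lt t, y) ∈ E ↔ ∃ τ, IsUnit τ ∧ ∀ j ∉ m, j ∉ Sum.inr '' Z →
        y j = ((P.qW Empty.elim Empty.elim).actT (1, τ)
          (evσ (Sum.elim (X ∘ φ₀) q) (lt t, 0))).2 j)) :
    (T.par (lt t)).Pres { (P.qd e e').sub (slab univ t) (.inr '' Z) with mov := m, E := E } φ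
      (.inr ∘ s) (P.mx M x u) (Sum.elim (X ∘ φ₀) q) where
  inj a b k := X_injective ((σ_φ a).symm.trans ((congrArg _ k).trans (σ_φ b)))
  wl := funext fun _ => funext fun a => a.elim
  B := slab_eq t
  σ_φ := σ_φ
  σ_s := c.σ_s
  hom := c.hom
  homS _ _ _ _ _ a := a.elim
  lat_inj d k :=
    have a := P.shr_eq_zero fun r => (P.sum_mx M x u d r).symm.trans (k r)
    c.inj d a.1 a.2.1 a.2.2
  lat_ker d k := by
    obtain ⟨D, ξ, υ, rfl⟩ := P.exists_shr d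
    obtain ⟨d, k1, k2, k3⟩ := c.ker D ξ υ fun i => (P.qw_shr D ξ υ _).symm.trans (k i)
    exact ⟨d, funext fun r => by rw [sum_mx, funext k1, k2, k3]⟩
  lat_onto n :=
    let ⟨D, ξ, υ, k⟩ := c.onto n
    ⟨P.shr (fun _ => D) ξ υ, fun i => (P.qw_shr _ _ _ _).trans (k i)⟩
  cone z := hc ▸ c.cone_iff h z
  mov j := iff_of_true (mov j) (c.pl.mov.ge trivial)
  zer j := iff_of_false (zer j) fun a => c.pl.zer.le a
  E _ _ _ _ := c.pl.E.ge trivial
  drop j _ k := (drop j k).imp_right fun ⟨a, k1, k2⟩ => ⟨a, k1, fun _ (hl : _ = _) => hl ▸ k2⟩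
  E' l hl y k1 k2 := by
    obtain rfl : l = lt t := hl
    exact (E' y k1 k2).trans (exists_congr fun τ => and_congr_right fun _ =>
      ⟨fun k j _ => k j, fun k j a => k j (fun ⟨i, b⟩ => a (b ▸ mov i)) a⟩)

variable {φ : J₀ → J ⊕ Fin 4} {φ' : J₀ → P.QJ} {s' : I → P.QJ}

/-- the general fibres -/
theorem Co.presX (h : P.Ok) (ht : t ≠ 0) (c : P.Co e e' t ∅ T φ₀ q s M x u)
    (σ_φ : ∀ j, Sum.elim (X ∘ φ₀) q (φ j) = X j) (mov : ∀ j, φ j ≠ .inr 0 ∧ φ j ≠ .inr 1)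
    (q0 : q 0 = 1) (q1 : q 1 = C (C t)) {i₀ : I} (s0 : s i₀ = 0) (hφ : ∀ j, φ' j = .inl (φ j))
    (hs : ∀ i, s' i = .inl (.inr (s i))) :
    (T.par (lt t)).Pres (P.pX e e' t) φ' s' (P.mx M x u) (P.ext (X ∘ φ₀) q) := by
  obtain rfl : φ' = .inl ∘ φ := funext hφ
  obtain rfl : s' = .inl ∘ .inr ∘ s := funext hs
  have a0 : evz (lt t, (0 : J₀ → ℂ)) (q 0) = 1 := by simp [q0, evz]
  have a1 : evz (lt t, (0 : J₀ → ℂ)) (q 1) = t := by simp [q1, evz]
  refine Fam.gr_pres (F := P.qd e e') (by simp) (c.pres h σ_φ rfl (fun j => not_or.2 (mov j))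
    (by simp) (fun j k => .inr ?_) fun y _ k => ⟨fun b => ?_, ?_⟩)
  · rcases not_not.1 k with rfl | rfl
    · exact ⟨1, q0, by simp⟩
    · exact ⟨C t, q1, by simpa using ht⟩
  · have b0 : y (.inr 0) ≠ 0 := s0 ▸ k i₀ (s0 ▸ not_not.2 (.inl rfl))
    obtain ⟨τ, k1, k2⟩ := P.exists_tau b0 one_ne_zero
    refine ⟨τ, k1, fun j k _ => ?_⟩
    rw [k2, evσ_elim]
    rcases not_not.1 k with rfl | rfl
    · show _ = y (.inr 0) * evz _ (q 0)
      rw [a0, mul_one]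
    · show _ = (y (.inr 0))⁻¹ * evz _ (q 1)
      rw [a1, eq_inv_mul_iff_mul_eq₀ b0]
      exact b
  · rintro ⟨τ, k1, k2⟩
    obtain ⟨a, ξ, ζ, -, k3, -, k4⟩ := P.exists_act k1
    rw [k4, evσ_elim] at k2
    have b0 : y (.inr 0) = ξ * evz _ (q 0) := k2 _ (not_not.2 (.inl rfl)) (by simp)
    have b1 : y (.inr 1) = ξ⁻¹ * evz _ (q 1) := k2 _ (not_not.2 (.inr rfl)) (by simp)
    show y (.inr 0) * y (.inr 1) = t
    rw [b0, b1, a0, a1, mul_one, mul_inv_cancel_left₀ k3]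

/-- the pieces -/
theorem Co.presA (h : P.Ok) {i₀ : Fin 4} (hi : i₀ = 0 ∨ i₀ = 1)
    (c : P.Co e e' 0 {i₀} T φ₀ q s M x u) (σ_φ : ∀ j, Sum.elim (X ∘ φ₀) q (φ j) = X j)
    (mov : ∀ j, φ j ≠ .inr i₀) (hφ : ∀ j, φ' j = .inl (φ j))
    (hs : ∀ i, s' i = .inl (.inr (s i))) :
    (T.par (lt 0)).Pres ((P.fam e e').sub (slab univ 0) {.inl (.inr i₀)}).abs φ' s' (P.mx M x u)
      (P.ext (X ∘ φ₀) q) := by
  obtain rfl : φ' = .inl ∘ φ := funext hφ
  obtain rfl : s' = .inl ∘ .inr ∘ s := funext hs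
  have a : ∀ j, φ j ∉ Sum.inr '' {i₀} := fun j ⟨_, k1, k2⟩ => mov j (k1 ▸ k2.symm)
  refine Fam.gr_pres_abs (F := P.qd e e') (by simp) (c.pres h σ_φ (Fam.abs_cone ?_) a a
    (fun j k => .inl (not_not.1 k)) fun y _ _ =>
      iff_of_true trivial ⟨1, isUnit_one, fun j k1 k2 => (k1 k2).elim⟩)
  intro l hl y hy
  have b := hy _ ⟨i₀, rfl, rfl⟩
  refine Eq.trans ?_ hl.2.symm
  rcases hi with rfl | rfl
  exacts [mul_eq_zero_of_left b _, mul_eq_zero_of_right _ b]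

end core

theorem mem_cap (θ) (z) : z ∈ (P.cap θ).cone ↔
    z.2 ∈ {v : J ⊕ Fin 2 → ℂ | v ∘ .inl ∈ P.dvs ∧ (v (.inr 0) ≠ 0 ∨ v (.inr 1) ≠ 0)} :=
  (Fam.lev_pl P _).mem_proj.trans (and_congr (Fam.mem_lev fun _ a => a.1)
    (Function.ne_iff.trans Fin.exists_fin_two))

theorem w_id1 (j : J) (r : R) : P.w j r = ∑ r', P.w j r' * id1 r' r := by simp [id1]

theorem w_id2 (θ) (j : J) (r : Option R) :
    (P.cap θ).w (.inl j) r = ∑ r', P.w j r' * id2 r' r := by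
  cases r <;> simp [id2, Fam.proj, Tgt.fam]

theorem sum_id1 (d : R → ℤ) (r' : R) : ∑ r, id1 r' r * d r = d r' := by simp [id1]

theorem sum_id2 (d : Option R → ℤ) (r' : R) : ∑ r, id2 r' r * d r = d (some r') := by simp [id2]

theorem sum_none (d : Option R → ℤ) : ∑ r, (Pi.single none 1 : Option R → ℤ) r * d r = d none := by
  simp [Pi.single_apply]

theorem id1_eq (r : R) : id1 r = Pi.single r 1 :=
  funext fun r' => by simp [id1, Pi.single_apply, eq_comm]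

theorem cap_w0 (θ) : (P.cap θ).w (.inr 0) = Pi.single none 1 :=
  funext fun o => by cases o <;> simp [Fam.proj]

theorem cap_w1 (θ) : (P.cap θ).w (.inr 1) = Pi.single none 1 + id2 P.η :=
  funext fun o => by cases o <;> simp [Fam.proj, id2, Pi.single_apply]

variable {P} (h : P.Ok) {t : ℂ} (ht : t ≠ 0)
include h

section
include ht

/-- the general fibres of `(true, e')` -/
theorem Ok.pres_X1 (e' : Bool) : ((P.lev (P.mem e' t)).par (lt t)).Pres (P.pX true e' t) P.o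
    ![P.b, P.y] (P.mx id1 0 0) (P.ext X ![1, C (C t), 1, X P.z]) := by
  refine Co.presX (φ₀ := id) (φ := .inl) (s := ![0, 2]) (i₀ := 0) h ht
    ⟨Fam.lev_pl _ _, Fin.forall_fin_two.2 ⟨rfl, rfl⟩, P.w_id1, wh_one rfl, wh_C _ neg_zero,
      wh_one rfl, wh_X (h.wz.trans (by simp [id1_eq])),
      fun d a _ _ => funext fun r => (sum_id1 d r).symm.trans (a r),
      fun D ξ υ a => ⟨D, sum_id1 D, sum_zero.trans (a 0).symm, sum_zero.trans (a 1).symm⟩,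
      fun n => ⟨0, n 0, n 1, Fin.forall_fin_two.2 ⟨rfl, rfl⟩⟩, P.mem e' t,
      fun v => ![1, t, 1, v P.z], fun _ => Fam.mem_lev fun _ a => a.1,
      fun v i => by fin_cases i <;> simp [evz],
      fun v hv => ⟨⟨hv.1, rfl, ?_, .inl one_ne_zero, ?_, .inl one_ne_zero⟩, one_mul t,
        fun _ a => a.elim⟩, fun x q c => ?_⟩
    (fun _ => rfl) (by simp) rfl rfl rfl (fun _ => rfl) (Fin.forall_fin_two.2 ⟨rfl, rfl⟩)
  · cases e'
    exacts [hv.2, hv.2.trans (mul_one t).symm]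
  · cases e'
    exacts [.inr ⟨rfl, ht⟩, .inl (left_ne_zero_of_mul (hv.2.trans_ne ht))]
  · have b0 := left_ne_zero_of_mul (c.bc.trans_ne ht)
    have b2 := c.pt.y.resolve_right (by simp)
    have b : q 2 * x P.z = q 0 * q 3 := c.pt.z
    refine ⟨q 0, q 2, x, ⟨c.pt.mem, ?_⟩, b0, b2, rfl, (mul_one _).symm,
      (eq_inv_mul_iff_mul_eq₀ b0).2 c.bc, (mul_one _).symm,
      ((eq_inv_mul_iff_mul_eq₀ b0).2 b.symm).trans (mul_assoc _ _ _).symm⟩
    cases e'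
    · exact c.pt.z'
    · have b' : q 3 * x P.z' = q 1 * q 2 := c.pt.z'
      refine mul_left_cancel₀ b2 ?_
      linear_combination x P.z' * b + q 0 * b' + q 2 * c.bc

/-- the general fibre of `(false, true)` -/
theorem Ok.pres_X2 : ((P.lev P.lft).par (lt t)).Pres (P.pX false true t) P.o
    ![P.b, P.y'] (P.mx id1 0 (-id1 P.η)) (P.ext X ![1, C (C t), C (C t⁻¹) * X P.z', 1]) := by
  refine Co.presX (φ₀ := id) (φ := .inl) (s := ![0, 3]) (i₀ := 0) h ht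
    ⟨Fam.lev_pl _ _, Fin.forall_fin_two.2 ⟨rfl, rfl⟩, P.w_id1, wh_one rfl, wh_C _ neg_zero,
      (wh_X (h.wz'.trans (by rw [id1_eq]))).C_mul _, wh_one (by simp),
      fun d a _ _ => funext fun r => (sum_id1 d r).symm.trans (a r),
      fun D ξ υ a => ⟨D, sum_id1 D, sum_zero.trans (a 0).symm, ?_⟩,
      fun n => ⟨0, n 0, n 1 + n 0, Fin.forall_fin_two.2 ⟨rfl, by simp⟩⟩, P.lft,
      fun v => ![1, t, t⁻¹ * v P.z', 1], fun _ => Fam.mem_lev fun _ a => a.1,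
      fun v i => by fin_cases i <;> simp [evz],
      fun v hv => ⟨⟨hv.1, hv.2, (one_mul _).trans (mul_inv_cancel_left₀ ht _).symm,
        .inr ⟨rfl, one_ne_zero⟩, .inl one_ne_zero, .inr one_ne_zero⟩, one_mul t,
        fun _ a => a.elim⟩, fun x q c => ?_⟩
    (fun _ => rfl) (by simp) rfl rfl rfl (fun _ => rfl) (Fin.forall_fin_two.2 ⟨rfl, rfl⟩)
  · have a0 : ξ = 0 := a 0
    have a1 : D P.η - ξ + υ = 0 := a 1
    simp only [Pi.neg_apply, neg_mul, Finset.sum_neg_distrib, sum_id1]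
    omega
  · have b0 := left_ne_zero_of_mul (c.bc.trans_ne ht)
    have b3 := c.pt.y'.resolve_right (by simp)
    have b : q 3 * x P.z' = q 1 * q 2 := c.pt.z'
    refine ⟨q 0, q 0 * q 3, x, ⟨c.pt.mem, c.pt.z⟩, b0, mul_ne_zero b0 b3, rfl, (mul_one _).symm,
      (eq_inv_mul_iff_mul_eq₀ b0).2 c.bc, ?_,
      ((mul_one _).trans (inv_mul_cancel_left₀ b0 _)).symm⟩
    show q 2 = q 0 * q 3 * (t⁻¹ * x P.z')
    linear_combination (-q 2) * mul_inv_cancel₀ ht - (t⁻¹ * q 2) * c.bc - (t⁻¹ * q 0) * b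

/-- the general fibre of `(false, false)` -/
theorem Ok.pres_X3 (θ) : ((P.cap θ).par (lt t)).Pres (P.pX false false t)
    (Sum.elim P.o ![P.y, P.y']) ![P.b] (P.mx id2 0 (Pi.single none 1))
    (P.ext (X ∘ .inl) ![1, C (C t), X (.inr 0), X (.inr 1)]) := by
  refine Co.presX (φ := Sum.elim .inl ![.inr 2, .inr 3]) (s := ![0]) (i₀ := 0) h ht
    ⟨Fam.proj_pl _ _ _, Fin.forall_fin_one.2 rfl, P.w_id2 θ, wh_one rfl, wh_C _ neg_zero,
      wh_X (P.cap_w0 θ), wh_X ((P.cap_w1 θ).trans (by rw [sub_zero, add_comm])),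
      fun d a _ b => funext fun o => o.rec ((sum_none d).symm.trans b)
        fun r => (sum_id2 d r).symm.trans (a r),
      fun D ξ υ a => ⟨fun o => o.elim υ D, sum_id2 _, sum_zero.trans (a 0).symm, sum_none _⟩,
      fun n => ⟨0, n 0, 0, Fin.forall_fin_one.2 rfl⟩, _,
      fun v => ![1, t, v (.inr 0), v (.inr 1)], P.mem_cap θ,
      fun v i => by fin_cases i <;> simp [evz],
      fun v hv => ⟨⟨hv.1.1, hv.1.2.1, hv.1.2.2, .inr ⟨rfl, one_ne_zero⟩, .inr ⟨rfl, ht⟩, hv.2⟩,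
        one_mul t, fun _ a => a.elim⟩, fun x q c => ?_⟩
    (Sum.rec (fun _ => rfl) (Fin.forall_fin_two.2 ⟨rfl, rfl⟩))
    (Sum.rec (by simp) (Fin.forall_fin_two.2 (by simp))) rfl rfl rfl
    (Sum.rec (fun _ => rfl) (Fin.forall_fin_two.2 ⟨rfl, rfl⟩)) (Fin.forall_fin_one.2 rfl)
  have b0 := left_ne_zero_of_mul (c.bc.trans_ne ht)
  exact ⟨q 0, 1, Sum.elim x ![q 2, q 0 * q 3],
    ⟨⟨c.pt.mem, c.pt.z, c.pt.z'⟩, c.pt.yy.imp_right (mul_ne_zero b0)⟩, b0, one_ne_zero, rfl,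
    (mul_one _).symm, (eq_inv_mul_iff_mul_eq₀ b0).2 c.bc, (one_mul _).symm,
    (inv_mul_cancel_left₀ b0 _).symm.trans (congrArg (· * _) (mul_one _).symm)⟩

end

omit h in
theorem ker_D (D : R → ℤ) (ξ υ : ℤ) (a : ∀ i, ![ξ, -ξ, υ, D P.η - ξ + υ] (![2, 3] i) = 0) :
    ∃ d : R → ℤ, (∀ r', ∑ r, id1 r' r * d r = D r') ∧ ∑ r, id1 P.η r * d r = ξ ∧
      ∑ r, (0 : R → ℤ) r * d r = υ := by
  have a0 : υ = 0 := a 0
  have a1 : D P.η - ξ + υ = 0 := a 1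
  exact ⟨D, sum_id1 D, (sum_id1 D _).trans (by omega), sum_zero.trans a0.symm⟩

omit h in
theorem onto_D (n : Fin 2 → ℤ) :
    ∃ D ξ υ : ℤ, ∀ i, ![ξ, -ξ, υ, D - ξ + υ] (![2, 3] i) = n i :=
  ⟨n 1 - n 0, 0, n 0, Fin.forall_fin_two.2 ⟨rfl, by simp⟩⟩

omit h in
theorem cond_zero {e : Bool} {a b c d : ℂ} (k : b = 0) (k' : c * d = 0) :
    cond e (a * b = c * d) (b = 0) := by
  cases e
  exacts [k, (mul_eq_zero_of_right a k).trans k'.symm]

omit h in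
theorem div_aux {a b : ℂ} (ha : a ≠ 0) (hb : b ≠ 0) : b = (a / b)⁻¹ * a * 1 := by
  field_simp

/-- the divisor -/
theorem Ok.pres_D (e e' : Bool) : ((P.lev P.dvs).par (lt 0)).Pres (P.pD e e') P.o
    ![P.y, P.y'] (P.mx id1 (id1 P.η) 0) (P.ext X ![0, 0, 1, 1]) := by
  have a : ∀ j ∉ (P.qd e e').mov, j ∈ Sum.inr '' ({0, 1} : Set (Fin 4)) := fun j k =>
    (image_pair _ _ _).ge (not_not.1 k)
  rw [show ![P.y, P.y'] = .inl ∘ .inr ∘ ![2, 3] from funext (Fin.forall_fin_two.2 ⟨rfl, rfl⟩)]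
  refine Fam.gr_pres (F := P.qd e e') (φ := .inl) (by simp [image_pair])
    (Co.pres (Z := {0, 1}) (φ₀ := id) h
      ⟨Fam.lev_pl _ _, Fin.forall_fin_two.2 ⟨rfl, rfl⟩, P.w_id1, isWeightedHomogeneous_zero _ _ _,
        isWeightedHomogeneous_zero _ _ _, wh_one rfl, wh_one (by simp),
        fun d a _ _ => funext fun r => (sum_id1 d r).symm.trans (a r), ker_D, onto_D, P.dvs,
        fun _ => ![0, 0, 1, 1], fun _ => Fam.mem_lev fun _ a => a.1,
        fun v i => by fin_cases i <;> simp [evz],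
        fun v hv => ⟨⟨hv.1, cond_zero hv.2.1 (zero_mul _), cond_zero hv.2.2 (zero_mul _),
          .inl one_ne_zero, .inl one_ne_zero, .inl one_ne_zero⟩, zero_mul _, ?_⟩,
        fun x q c => ?_⟩
      (fun _ => rfl) rfl (by simp) (by simp) (fun j k => .inl (a j k)) fun y k _ =>
        iff_of_true (mul_eq_zero_of_left (k _ ⟨0, .inl rfl, rfl⟩) _)
          ⟨1, isUnit_one, fun j k1 k2 => (k2 (a j k1)).elim⟩)
  · rintro _ (rfl | rfl) <;> rfl
  · have b0 := c.zer 0 (.inl rfl)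
    have b1 := c.zer 1 (.inr rfl)
    have b2 := c.pt.y.resolve_right fun k => k.2 b0
    have b3 := c.pt.y'.resolve_right fun k => k.2 b1
    exact ⟨q 2 / q 3, q 2, x, ⟨c.pt.mem, (c.pt.left b0 false).z, (c.pt.right b1 false).z'⟩,
      div_ne_zero b2 b3, b2, rfl, b0.trans (mul_zero _).symm, b1.trans (mul_zero _).symm,
      (mul_one _).symm, div_aux b2 b3⟩

/-- the left component -/
theorem Ok.pres_L1 (e : Bool) : ((P.lev P.lft).par (lt 0)).Pres (P.pL e true).abs P.o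
    ![P.y, P.y'] (P.mx id1 (id1 P.η) 0) (P.ext X ![0, X P.z', 1, 1]) := by
  refine Co.presA (φ₀ := id) (φ := .inl) (s := ![2, 3]) h (.inl rfl)
    ⟨Fam.lev_pl _ _, Fin.forall_fin_two.2 ⟨rfl, rfl⟩, P.w_id1, isWeightedHomogeneous_zero _ _ _,
      wh_X (h.wz'.trans (by rw [id1_eq])), wh_one rfl, wh_one (by simp),
      fun d a _ _ => funext fun r => (sum_id1 d r).symm.trans (a r), ker_D, onto_D, P.lft,
      fun v => ![0, v P.z', 1, 1], fun _ => Fam.mem_lev fun _ a => a.1,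
      fun v i => by fin_cases i <;> simp [evz],
      fun v hv => ⟨⟨hv.1, cond_zero hv.2 (zero_mul _), mul_comm _ _, .inl one_ne_zero,
        .inl one_ne_zero, .inl one_ne_zero⟩, zero_mul _, fun _ (k : _ = _) => k ▸ rfl⟩,
      fun x q c => ?_⟩
    (fun _ => rfl) (by simp) (fun _ => rfl) (Fin.forall_fin_two.2 ⟨rfl, rfl⟩)
  have b0 := c.zer 0 rfl
  have b2 := c.pt.y.resolve_right fun k => k.2 b0
  have b3 := c.pt.y'.resolve_right (by simp)
  have b : q 3 * x P.z' = q 1 * q 2 := c.pt.z'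
  refine ⟨q 2 / q 3, q 2, x, ⟨c.pt.mem, (c.pt.left b0 false).z⟩, div_ne_zero b2 b3, b2, rfl,
    b0.trans (mul_zero _).symm, ?_, (mul_one _).symm, div_aux b2 b3⟩
  show q 1 = (q 2 / q 3)⁻¹ * x P.z'
  rw [inv_div, div_mul_eq_mul_div, b, mul_div_cancel_right₀ _ b2]

/-- the right component -/
theorem Ok.pres_R1 (e' : Bool) : ((P.lev (P.mem false 0)).par (lt 0)).Pres (P.pR true e').abs P.o
    ![P.y, P.y'] (P.mx id1 (id1 P.η) 0) (P.ext X ![X P.z, 0, 1, 1]) := by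
  refine Co.presA (φ₀ := id) (φ := .inl) (s := ![2, 3]) h (.inr rfl)
    ⟨Fam.lev_pl _ _, Fin.forall_fin_two.2 ⟨rfl, rfl⟩, P.w_id1, wh_X (h.wz.trans (by rw [id1_eq])),
      isWeightedHomogeneous_zero _ _ _, wh_one rfl, wh_one (by simp),
      fun d a _ _ => funext fun r => (sum_id1 d r).symm.trans (a r), ker_D, onto_D, P.mem false 0,
      fun v => ![v P.z, 0, 1, 1], fun _ => Fam.mem_lev fun _ a => a.1,
      fun v i => by fin_cases i <;> simp [evz],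
      fun v hv => ⟨⟨hv.1, mul_comm _ _, cond_zero hv.2 (zero_mul _), .inl one_ne_zero,
        .inl one_ne_zero, .inl one_ne_zero⟩, mul_zero _, fun _ (k : _ = _) => k ▸ rfl⟩,
      fun x q c => ?_⟩
    (fun _ => rfl) (by simp) (fun _ => rfl) (Fin.forall_fin_two.2 ⟨rfl, rfl⟩)
  have b1 := c.zer 1 rfl
  have b2 := c.pt.y.resolve_right (by simp)
  have b3 := c.pt.y'.resolve_right fun k => k.2 b1
  have b : q 2 * x P.z = q 0 * q 3 := c.pt.z
  refine ⟨q 2 / q 3, q 2, x, ⟨c.pt.mem, (c.pt.right b1 false).z'⟩, div_ne_zero b2 b3, b2, rfl,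
    ?_, b1.trans (mul_zero _).symm, (mul_one _).symm, div_aux b2 b3⟩
  show q 0 = q 2 / q 3 * x P.z
  rw [div_mul_eq_mul_div, b, mul_div_cancel_right₀ _ b3]

/-- the left cap -/
theorem Ok.pres_L0 (e : Bool) (θ) : ((P.cap θ).par (lt 0)).Pres (P.pL e false).abs
    (Sum.elim P.o ![P.c, P.y']) ![P.y] (P.mx id2 (-Pi.single none 1) 0)
    (P.ext (X ∘ .inl) ![0, X (.inr 0), 1, X (.inr 1)]) := by
  have a : ∀ d : Option R → ℤ, ∑ r, (-Pi.single none 1 : Option R → ℤ) r * d r = -d none :=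
    fun d => by simp only [Pi.neg_apply, neg_mul, Finset.sum_neg_distrib, sum_none]
  refine Co.presA (φ := Sum.elim .inl ![.inr 1, .inr 3]) (s := ![2]) h (.inl rfl)
    ⟨Fam.proj_pl _ _ _, Fin.forall_fin_one.2 rfl, P.w_id2 θ, isWeightedHomogeneous_zero _ _ _,
      wh_X ((P.cap_w0 θ).trans (neg_neg _).symm), wh_one rfl,
      wh_X ((P.cap_w1 θ).trans (by rw [add_zero, sub_neg_eq_add, add_comm])),
      fun d b c _ => funext fun o => o.rec (neg_eq_zero.1 ((a d).symm.trans c))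
        fun r => (sum_id2 d r).symm.trans (b r),
      fun D ξ υ b => ⟨fun o => o.elim (-ξ) D, sum_id2 _, (a _).trans (neg_neg _),
        sum_zero.trans (b 0).symm⟩,
      fun n => ⟨0, 0, n 0, Fin.forall_fin_one.2 rfl⟩, _,
      fun v => ![0, v (.inr 0), 1, v (.inr 1)], P.mem_cap θ,
      fun v i => by fin_cases i <;> simp [evz],
      fun v hv => ⟨⟨hv.1.1, cond_zero hv.1.2.1 (zero_mul _), hv.1.2.2, .inl one_ne_zero,
        hv.2.symm.imp_right fun k => ⟨rfl, k⟩, .inl one_ne_zero⟩, zero_mul _,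
        fun _ (k : _ = _) => k ▸ rfl⟩, fun x q c => ?_⟩
    (Sum.rec (fun _ => rfl) (Fin.forall_fin_two.2 ⟨rfl, rfl⟩))
    (Sum.rec (by simp) (Fin.forall_fin_two.2 (by simp)))
    (Sum.rec (fun _ => rfl) (Fin.forall_fin_two.2 ⟨rfl, rfl⟩)) (Fin.forall_fin_one.2 rfl)
  have b0 := c.zer 0 rfl
  have b2 := c.pt.y.resolve_right fun k => k.2 b0
  refine ⟨1, q 2, Sum.elim x ![q 1, q 3 / q 2], ⟨⟨c.pt.mem, (c.pt.left b0 false).z, c.pt.z'⟩,
    c.pt.y'.symm.imp And.right (div_ne_zero · b2)⟩, one_ne_zero, b2, rfl,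
    b0.trans (mul_zero _).symm, ?_, (mul_one _).symm, ?_⟩
  · show q 1 = 1⁻¹ * q 1
    rw [inv_one, one_mul]
  · show q 3 = 1⁻¹ * q 2 * (q 3 / q 2)
    rw [inv_one, one_mul, mul_div_cancel₀ _ b2]

/-- the right cap -/
theorem Ok.pres_R0 (e' : Bool) (θ) : ((P.cap θ).par (lt 0)).Pres (P.pR false e').abs
    (Sum.elim P.o ![P.y, P.b]) ![P.y'] (P.mx id2 (Pi.single none 1 + id2 P.η) (Pi.single none 1))
    (P.ext (X ∘ .inl) ![X (.inr 1), 0, X (.inr 0), 1]) := by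
  refine Co.presA (φ := Sum.elim .inl ![.inr 2, .inr 0]) (s := ![3]) h (.inr rfl)
    ⟨Fam.proj_pl _ _ _, Fin.forall_fin_one.2 rfl, P.w_id2 θ, wh_X (P.cap_w1 θ),
      isWeightedHomogeneous_zero _ _ _, wh_X (P.cap_w0 θ), wh_one (by abel),
      fun d a _ b => funext fun o => o.rec ((sum_none d).symm.trans b)
        fun r => (sum_id2 d r).symm.trans (a r),
      fun D ξ υ a => ⟨fun o => o.elim υ D, sum_id2 _, ?_, sum_none _⟩,
      fun n => ⟨0, 0, n 0, Fin.forall_fin_one.2 (zero_add _)⟩, _,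
      fun v => ![v (.inr 1), 0, v (.inr 0), 1], P.mem_cap θ,
      fun v i => by fin_cases i <;> simp [evz],
      fun v hv => ⟨⟨hv.1.1, hv.1.2.1, cond_zero hv.1.2.2 (zero_mul _),
        hv.2.imp_right fun k => ⟨rfl, k⟩, .inl one_ne_zero, .inr one_ne_zero⟩, mul_zero _,
        fun _ (k : _ = _) => k ▸ rfl⟩, fun x q c => ?_⟩
    (Sum.rec (fun _ => rfl) (Fin.forall_fin_two.2 ⟨rfl, rfl⟩))
    (Sum.rec (by simp) (Fin.forall_fin_two.2 (by simp)))
    (Sum.rec (fun _ => rfl) (Fin.forall_fin_two.2 ⟨rfl, rfl⟩)) (Fin.forall_fin_one.2 rfl)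
  · have a0 : D P.η - ξ + υ = 0 := a 0
    simp only [Pi.add_apply, add_mul, Finset.sum_add_distrib, sum_none, sum_id2, Option.elim]
    omega
  · have b1 := c.zer 1 rfl
    have b3 := c.pt.y'.resolve_right fun k => k.2 b1
    refine ⟨1, q 3, Sum.elim x ![q 2 / q 3, q 0], ⟨⟨c.pt.mem, c.pt.z, (c.pt.right b1 false).z'⟩,
      c.pt.y.imp (div_ne_zero · b3) And.right⟩, one_ne_zero, b3, rfl, (one_mul _).symm,
      b1.trans (mul_zero _).symm, (mul_div_cancel₀ _ b3).symm, ?_⟩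
    show q 3 = 1⁻¹ * q 3 * 1
    rw [inv_one, one_mul, mul_one]

end Vale.Agent.P269.Pre
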