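import Vale.Agent.P269.Gen.Num

/-!
# The four degenerations attached to a degeneration with two components: definitions
-/

set_option linter.unusedSectionVars false

namespace Vale.Agent.P269

open P291Z Set Function Topology Filter MvPolynomial

variable {S Λ Λ₀ R J K : Type} [Fintype S] [Fintype Λ] [Fintype Λ₀] [Fintype R] [Fintype J]
  [Fintype K] [DecidableEq R]

/-- The weights of the graph fields. -/
def gc (θ : R → ℤ) (N : ℕ) (o : Option R) : R → ℤ := N • θ + o.elim 0 fun i => Pi.single i 1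

/-- The graph fields: two for each weight and each possible support of a monomial. -/
def GI (w : J → R → ℤ) (θ : R → ℤ) (N : ℕ) : Type :=
  {p : Set J × Option R // ∃ α : J →₀ ℕ, (∀ j, α j ≠ 0 → j ∈ p.1) ∧
    ∀ i, ∑ j, α j * w j i = gc θ N p.2 i} × Fin 2

noncomputable instance (w : J → R → ℤ) (θ : R → ℤ) (N : ℕ) : Fintype (GI w θ N) :=
  @Fintype.ofFinite _ (inferInstanceAs (Finite (_ × _)))

/-- The monomial of a graph field. -/
noncomputable def GI.α {w : J → R → ℤ} {θ : R → ℤ} {N : ℕ} (p : GI w θ N) : J →₀ ℕ := p.1.2.choose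

/-- The weight of a graph field. -/
def GI.c {w : J → R → ℤ} {θ : R → ℤ} {N : ℕ} (p : GI w θ N) : R → ℤ := gc θ N p.1.1.2

/-- The weights with the graph fields. -/
@[reducible] def Wt.gr (W : Wt S Λ R J) (θ : R → ℤ) (N : ℕ) : Wt S Λ R (J ⊕ GI W.w θ N) where
  w := Sum.elim W.w GI.c
  wt := Sum.elim W.wt 0
  wl := W.wl

/-- The family with graph fields `v p = κ p * y ^ α p`. -/
@[reducible] noncomputable def Fam.gr (F : Fam S Λ R J K) (θ : R → ℤ) (N : ℕ)
    (κ : GI F.w θ N → MvPolynomial Λ ℂ) : Fam S Λ R (J ⊕ GI F.w θ N) (K ⊕ GI F.w θ N) where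
  toWt := F.toWt.gr θ N
  θ := F.θ
  χ := Sum.elim F.χ GI.c
  wk := Sum.elim F.wk 0
  G := Sum.elim (fun k => rename .inl (F.G k))
    fun p => X (.inr p) - monomial (p.α.mapDomain .inl) (κ p)
  B := F.B
  U := {z | (z.1, z.2 ∘ .inl) ∈ F.U}
  E := {z | (z.1, z.2 ∘ .inl) ∈ F.E}
  mov := (Sum.inl '' F.movᶜ)ᶜ
  zer := Sum.inl '' F.zer

/-- A target with a dummy parameter. -/
@[reducible] noncomputable def Fam.par (T : Fam Empty Empty R J K) (l : Λ → ℂ) :
    Fam Empty Λ R J K where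
  w := T.w
  wt := T.wt
  wl := fun _ => Empty.elim
  θ := T.θ
  χ := T.χ
  wk := T.wk
  G := fun k => MvPolynomial.map (rename Empty.elim).toRingHom (T.G k)
  B := {l}
  U := {z | (Empty.elim, z.2) ∈ T.U}
  E := {z | (Empty.elim, z.2) ∈ T.E}
  mov := T.mov
  zer := T.zer

/-- The total space of a degeneration `t = z z'` with the two components `z = 0`, `z' = 0`. -/
structure Pre (R J K : Type) extends Tgt R J K where
  /-- the weights of the equations -/
  χ : K → R → ℤ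
  /-- the torus of `z` -/
  η : R
  /-- the equation of the left component -/
  z : J
  /-- the equation of the right component -/
  z' : J
  /-- half of `θ η` -/
  β : ℕ
  /-- the level of the graph fields -/
  N : ℕ
  /-- the allowed values of `t` -/
  Ω : Set ℂ

namespace Pre

variable (P : Pre R J K)

/-- The hypotheses. -/
structure Ok : Prop where
  ne : P.z ≠ P.z'
  wz : P.w P.z = Pi.single P.η 1
  wz' : P.w P.z' = -Pi.single P.η 1
  θη : P.θ P.η = 2 * P.β
  θ0 : 0 ≤ P.θ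
  hom : ∀ k, ∀ α ∈ (P.F k).support, ∀ i, ∑ j, α j * P.w j i = P.χ k i
  deg : ∀ k, (P.F k).totalDegree ≠ 0
  openU : IsOpen P.U
  invU : ∀ t, IsUnit t → ∀ y ∈ P.U, P.act t y ∈ P.U
  opn : IsOpen P.Ω
  cvx : Convex ℝ P.Ω
  zero : 0 ∈ P.Ω
  reg : ∀ y ∈ P.cone, y P.z * y P.z' ∈ P.Ω → ∀ c : K → ℂ, ∃ v : J → ℂ, v P.z = 0 ∧ v P.z' = 0 ∧
    ∀ k, ∑ j, eval y (pderiv j (P.F k)) * v j = c k
  cpt : ∀ ρ : ℝ, ∃ C ⊆ P.cone, IsCompact C ∧ ∀ y ∈ P.cone, ‖y P.z * y P.z'‖ ≤ ρ →
    ∃ t, IsUnit t ∧ P.act t y ∈ C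
  le : P.β + 1 ≤ P.N
  amp : ∀ (σ : ℤ) (c : R → ℤ), |σ| ≤ 1 → (∀ i, |c i| ≤ P.β + 1) → ∀ y ∈ P.cone, ∃ α : J → ℕ,
    (∀ i, ∑ j, α j * P.w j i = P.N * (P.θ i + if i = P.η then σ else 0) + c i) ∧
      ∏ j, y j ^ α j ≠ 0

/-- The invariant subset `A` of the cone as a family. -/
@[reducible] noncomputable def lev (A : Set (J → ℂ)) : Fam Empty Empty R J K :=
  { P.toTgt.fam P.χ with U := {p | p.2 ∈ A} }

/-- The member `t` (`e' = true`) or the right component (`e' = false`). -/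
def mem (e' : Bool) (t : ℂ) : Set (J → ℂ) :=
  {y | y ∈ P.cone ∧ cond e' (y P.z * y P.z' = t) (y P.z' = 0)}

/-- The left component. -/
def lft : Set (J → ℂ) := {y | y ∈ P.cone ∧ y P.z = 0}

/-- The divisor. -/
def dvs : Set (J → ℂ) := {y | y ∈ P.cone ∧ y P.z = 0 ∧ y P.z' = 0}

/-- A character of the torus `R` as a character of the larger torus (`inr false` is the torus of
the degeneration). -/
def up (c : R → ℤ) : R ⊕ Bool → ℤ := Sum.elim c fun o => cond o 0 (c P.η)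

/-- The weights; the new fields are `b, c, y, y'`. -/
def qw : J ⊕ Fin 4 → R ⊕ Bool → ℤ :=
  Sum.elim (fun j => P.up (P.w j)) ![Pi.single (.inr false) 1, -Pi.single (.inr false) 1,
    Sum.elim 0 fun o => cond o 1 (-P.β), Sum.elim (Pi.single P.η 1) fun o => cond o 1 (-P.β)]

/-- The polarisation. -/
def θ₀ : R ⊕ Bool → ℤ := Sum.elim (P.θ + Pi.single P.η 1) fun o => cond o 2 0

/-- The weights; the torus `S` acts on `c` and on `t` with the weight `ws`. -/
@[reducible] def qW (ws : S → ℤ) (wl : Λ₀ → S → ℤ) :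
    Wt S (Option Λ₀) (R ⊕ Bool) (J ⊕ Fin 4) where
  w := P.qw
  wt := Sum.elim 0 ![0, ws, 0, 0]
  wl := fun o => o.elim ws wl

/-- The degenerations without graph fields. -/
@[reducible] noncomputable def quad (ws : S → ℤ) (wl : Λ₀ → S → ℤ) (B₀ : Set (Λ₀ → ℂ)) (Ω : Set ℂ)
    (e e' : Bool) : Fam S (Option Λ₀) (R ⊕ Bool) (J ⊕ Fin 4) (K ⊕ Bool) where
  toWt := P.qW ws wl
  θ := 3 • P.θ₀
  χ := Sum.elim (fun k => P.up (P.χ k)) fun o => cond o
    (cond e' (P.qw (.inr 3)) 0 + P.qw (.inl P.z')) (cond e (P.qw (.inr 2)) 0 + P.qw (.inl P.z))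
  wk := 0
  G := Sum.elim (fun k => MvPolynomial.map C (rename .inl (P.F k))) fun o => cond o
    (cond e' (X (.inr 3) * X (.inl P.z') - X (.inr 1) * X (.inr 2)) (X (.inl P.z')))
    (cond e (X (.inr 2) * X (.inl P.z) - X (.inr 0) * X (.inr 3)) (X (.inl P.z)))
  B := {l | l ∘ some ∈ B₀ ∧ l none ∈ Ω}
  U := {p | p.2 ∘ .inl ∈ P.U ∧ (p.2 (.inr 2) ≠ 0 ∨ e = false ∧ p.2 (.inr 0) ≠ 0) ∧
    (p.2 (.inr 3) ≠ 0 ∨ e' = false ∧ p.2 (.inr 1) ≠ 0) ∧ (p.2 (.inr 2) ≠ 0 ∨ p.2 (.inr 3) ≠ 0)}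
  E := {p | p.2 (.inr 0) * p.2 (.inr 1) = p.1 none}
  mov := {.inr 0, .inr 1}ᶜ
  zer := ∅

/-- The fields. -/
abbrev QJ : Type := (J ⊕ Fin 4) ⊕ GI P.qw P.θ₀ P.N

/-- The equations. -/
abbrev QK : Type := (K ⊕ Bool) ⊕ GI P.qw P.θ₀ P.N

/-- The old fields. -/
abbrev o (j : J) : P.QJ := .inl (.inl j)

/-- The equation of the left piece. -/
abbrev b : P.QJ := .inl (.inr 0)

/-- The equation of the right piece. -/
abbrev c : P.QJ := .inl (.inr 1)

/-- The far section of the right cap. -/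
abbrev y : P.QJ := .inl (.inr 2)

/-- The far section of the left cap. -/
abbrev y' : P.QJ := .inl (.inr 3)

/-- **The four degenerations**: the left piece is the component `z = 0` if `e'` and a cap otherwise,
the right piece is the component `z' = 0` if `e` and a cap otherwise. -/
@[reducible] noncomputable def fam (e e' : Bool) : Fam Empty (Option Empty) (R ⊕ Bool) P.QJ P.QK :=
  (P.quad Empty.elim Empty.elim univ P.Ω e e').gr P.θ₀ P.N 1

/-- The two caps in a family over the projective line, twisted by the torus that scales `c`. -/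
@[reducible] noncomputable def bor : Fam Unit (Option (Fin 2)) (R ⊕ Bool) P.QJ P.QK :=
  (P.quad 1 (-1) {0}ᶜ univ false false).gr P.θ₀ P.N fun p => X (some p.2) ^ p.α (.inr 1)

/-- The common weights. -/
abbrev W : Wt Empty (Option Empty) (R ⊕ Bool) P.QJ := (P.qW Empty.elim Empty.elim).gr P.θ₀ P.N

/-- The left pieces. -/
noncomputable abbrev pL (e e' : Bool) : Fam Empty (Option Empty) (R ⊕ Bool) P.QJ P.QK :=
  (P.fam e e').sub (slab univ 0) {P.b}

/-- The right pieces. -/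
noncomputable abbrev pR (e e' : Bool) : Fam Empty (Option Empty) (R ⊕ Bool) P.QJ P.QK :=
  (P.fam e e').sub (slab univ 0) {P.c}

/-- The divisor. -/
noncomputable abbrev pD (e e' : Bool) : Fam Empty (Option Empty) (R ⊕ Bool) P.QJ P.QK :=
  (P.fam e e').sub (slab univ 0) {P.b, P.c}

/-- The general fibres. -/
noncomputable abbrev pX (e e' : Bool) (t : ℂ) : Fam Empty (Option Empty) (R ⊕ Bool) P.QJ P.QK :=
  (P.fam e e').sub (slab univ t) ∅

/-- The grading. -/
def g : Deg.Grd (R ⊕ Bool → ℤ) where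
  deg := ⟨⟨fun d => ∑ r, P.θ₀ r * d r, by simp⟩, fun _ _ => by simp [mul_add, Finset.sum_add_distrib]⟩
  ξ := Pi.evalAddMonoidHom _ (.inr false)

/-- The level. -/
def k : ℕ := 10 * P.N + 20

theorem pL_eq (e₁ e₂ e' : Bool) : P.pL e₂ e' =
    (P.pL e₁ e').eqs (P.fam e₂ e').χ (P.fam e₂ e').wk (P.fam e₂ e').G (P.fam e₂ e').U := rfl

theorem pR_eq (e e₁ e₂ : Bool) : P.pR e e₂ =
    (P.pR e e₁).eqs (P.fam e e₂).χ (P.fam e e₂).wk (P.fam e e₂).G (P.fam e e₂).U := rfl

/-- The parameter with the value `t`. -/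
def lt (t : ℂ) : Option Empty → ℂ := fun _ => t

theorem slab_eq (t : ℂ) : slab (univ : Set (Empty → ℂ)) t = {lt t} :=
  Set.ext fun l => ⟨fun h => funext fun o => by
    cases o with
    | none => exact h.2
    | some a => exact a.elim, fun h => ⟨trivial, congrFun h none⟩⟩

/-- Forgetting the new fields and applying the polynomial map `r`. -/
noncomputable def ret {J₀ : Type} (r : J₀ → MvPolynomial J ℂ) (z : (Λ → ℂ) × (P.QJ → ℂ)) :
    (Empty → ℂ) × (J₀ → ℂ) := (Empty.elim, fun j => eval (z.2 ∘ P.o) (r j))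

end Pre

/-- The family with all non-vanishing fields movable. -/
@[reducible] def Fam.abs (F : Fam S Λ R J K) : Fam S Λ R J K := { F with mov := F.zerᶜ, E := univ }

end Vale.Agent.P269
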